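import Vale.Agent.P160F.RMEke

/-! Reverse Minkowski in the form of a killing measure with small second moment. -/

open MeasureTheory

namespace Vale.Agent.P160F.RM

theorem cl_proj {m : ℕ} {N : Submodule ℤ (E m)} (hN : Cl N) {ι : Type} [Fintype ι]
    [DecidableEq ι] {v : ι → E m} (hv : ∀ i, v i ∈ N) (hli : LinearIndependent ℝ v) {a : ℝ}
    (ha : 1 ≤ a ^ 2) (hg : (Matrix.gram ℝ v).det ≤ a ^ 2) :
    Cl (img (a • idL) (img (Submodule.span ℝ (Set.range v))ᗮ.starProjection N)) := by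
  intro κ _ _ w hw hlw
  rcases Nat.eq_zero_or_pos (Fintype.card κ) with h0 | h0
  · have := Fintype.card_eq_zero_iff.1 h0
    rw [Matrix.det_isEmpty]
  have hu : ∀ j, ∃ u ∈ N, a • (Submodule.span ℝ (Set.range v))ᗮ.starProjection u = w j := by
    intro j
    obtain ⟨x, hx, e⟩ := mem_img.1 (hw j)
    obtain ⟨u, hu, rfl⟩ := mem_img.1 hx
    exact ⟨u, hu, e⟩
  choose u huN hue using hu
  obtain rfl : w = fun j => a • (Submodule.span ℝ (Set.range v))ᗮ.starProjection (u j) :=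
    funext fun j => (hue j).symm
  have h1 := Matrix.det_gram_ne_zero_iff_linearIndependent.2 hlw
  rw [gram_det_smul] at h1 ⊢
  have h2 := Matrix.det_gram_ne_zero_iff_linearIndependent.2 hli
  have h3 := gram_det_sum v u
  have h4 : LinearIndependent ℝ (Sum.elim v u) := by
    refine Matrix.det_gram_ne_zero_iff_linearIndependent.1 ?_
    rw [h3]
    exact mul_ne_zero h2 (right_ne_zero_of_mul h1)
  have h5 := hN (ι ⊕ κ) (Sum.elim v u) (by rintro (i | j); exacts [hv i, huN j]) h4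
  rw [h3] at h5
  have h6 : a ^ 2 ≤ (a ^ 2) ^ Fintype.card κ := le_self_pow₀ ha h0.ne'
  exact h5.trans (mul_le_mul_of_nonneg_right (hg.trans h6)
    (Matrix.posSemidef_gram ℝ _).det_nonneg)

theorem caseA {k : ℕ}
    (ih : ∀ j < k, ∀ (m : ℕ) (N : Submodule ℤ (E m)), Cl N → rk N = j → F N idL ≤ 2 * j)
    {N : Submodule ℤ (E k)} (hN : Cl N) (hr : rk N = k) {ι : Type} [Fintype ι]
    [DecidableEq ι] {v : ι → E k} (hv : ∀ i, v i ∈ N) (hli : LinearIndependent ℝ v)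
    (h0 : 0 < Fintype.card ι) (hk : Fintype.card ι < k) {η : ℝ} (hη : 0 ≤ η)
    (hg : (Matrix.gram ℝ v).det ≤ 1 + η) : F N idL ≤ (1 + η) * (2 * k) := by
  have ha2 : √(1 + η) ^ 2 = 1 + η := Real.sq_sqrt (by linarith)
  have ha0 : 0 < √(1 + η) := Real.sqrt_pos.2 (by linarith)
  have h3 := cl_proj hN hv hli (a := √(1 + η)) (by linarith) (by linarith)
  have hW : Submodule.span ℝ (Set.range v) ≤ Submodule.span ℝ (N : Set (E k)) :=
    Submodule.span_mono (by rintro _ ⟨i, rfl⟩; exact hv i)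
  have hfr : Module.finrank ℝ (Submodule.span ℝ (Set.range v)) = Fintype.card ι :=
    finrank_span_eq_card hli
  generalize Submodule.span ℝ (Set.range v) = W at h3 hW hfr
  have h1 : Cl (N ⊓ W.restrictScalars ℤ) := fun κ _ _ w hw hlw => hN κ w (fun j => (hw j).1) hlw
  have r1 := rk_sec W N
  have r2 := rk_proj W N hW
  have r3 := rk_img_le (√(1 + η) • idL) (img Wᗮ.starProjection N)
  have f1 := ih _ (by omega) k _ h1 rfl
  have f3 := ih _ (by omega) k _ h3 rfl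
  have r4 : (rk (N ⊓ W.restrictScalars ℤ) : ℝ) +
      rk (img (√(1 + η) • idL) (img Wᗮ.starProjection N)) ≤ k := by
    exact_mod_cast (by omega : rk (N ⊓ W.restrictScalars ℤ) +
      rk (img (√(1 + η) • idL) (img Wᗮ.starProjection N)) ≤ k)
  have p1 : (0 : ℝ) ≤ rk (N ⊓ W.restrictScalars ℤ) := Nat.cast_nonneg _
  refine le_of_forall_pos_le_add fun ε hε => ?_
  have hε' : 0 < ε / (2 + η) := by positivity
  have he : (2 + η) * (ε / (2 + η)) = ε := by field_simp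
  have c1 := cost_of_F_lt h1.cost (lt_add_of_le_of_pos f1 hε')
  have c3 := cost_of_F_lt h3.cost (lt_add_of_le_of_pos f3 hε')
  have c2 : Cost (img Wᗮ.starProjection N) idL _ :=
    c3.scale ha0 fun u hu => mem_img.2 ⟨u, hu, rfl⟩
  have c4 := F_le (cost_split W (N := N) (N' := N ⊓ W.restrictScalars ℤ) (fun u hu hw => ⟨hu, hw⟩)
    (fun u hu => mem_img.2 ⟨u, hu, rfl⟩) c1 c2)
  rw [ha2] at c4
  nlinarith

theorem exists_delta (k : ℕ) {η g : ℝ} (hη : 0 < η) (hg : 0 < g) :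
    ∃ δ : ℝ, 0 < δ ∧ δ ≤ 1 / 2 ∧ δ ≤ g ∧ ((1 + δ) ^ 2) ^ k ≤ 1 + η := by
  have hc : Continuous fun δ : ℝ => ((1 + δ) ^ 2) ^ k := by fun_prop
  have h1 : ∀ᶠ δ in nhds (0 : ℝ), ((1 + δ) ^ 2) ^ k < 1 + η :=
    hc.continuousAt.eventually_lt continuousAt_const (by simpa using hη)
  have h2 : ∀ᶠ δ in nhds (0 : ℝ), δ < 1 / 2 := eventually_lt_nhds (by norm_num)
  have h3 : ∀ᶠ δ in nhds (0 : ℝ), δ < g := eventually_lt_nhds hg
  obtain ⟨δ, ⟨a, b, c⟩, d⟩ :=
    (((h1.and (h2.and h3)).filter_mono nhdsWithin_le_nhds).and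
      (self_mem_nhdsWithin (a := (0 : ℝ)) (s := Set.Ioi 0))).exists
  exact ⟨δ, d, b.le, c.le, a.le⟩

theorem full_step {k : ℕ}
    (ih : ∀ j < k, ∀ (m : ℕ) (N : Submodule ℤ (E m)), Cl N → rk N = j → F N idL ≤ 2 * j)
    {N : Submodule ℤ (E k)} (hN : Cl N) (hr : rk N = k) : F N idL ≤ 2 * k := by
  obtain ⟨c, hc⟩ := crude k
  have hbdd : BddAbove {x | ∃ M : Submodule ℤ (E k), Cl M ∧ rk M = k ∧ x = F M idL} := by
    refine ⟨c, ?_⟩
    rintro _ ⟨M, hM, hrM, rfl⟩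
    exact F_le (hc k M hrM.le fun u hu h0 => hM.norm_ge hu h0)
  have hne : Set.Nonempty {x | ∃ M : Submodule ℤ (E k), Cl M ∧ rk M = k ∧ x = F M idL} :=
    ⟨_, N, hN, hr, rfl⟩
  have hS : ∀ M : Submodule ℤ (E k), Cl M → rk M = k → F M idL ≤
      sSup {x | ∃ M : Submodule ℤ (E k), Cl M ∧ rk M = k ∧ x = F M idL} :=
    fun M hM hrM => le_csSup hbdd ⟨M, hM, hrM, rfl⟩
  have hlt : ∀ x < sSup {x | ∃ M : Submodule ℤ (E k), Cl M ∧ rk M = k ∧ x = F M idL},
      ∃ M : Submodule ℤ (E k), Cl M ∧ rk M = k ∧ x < F M idL := by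
    intro x hx
    obtain ⟨_, ⟨M, hM, hrM, rfl⟩, h⟩ := exists_lt_of_lt_csSup hne hx
    exact ⟨M, hM, hrM, h⟩
  generalize sSup {x | ∃ M : Submodule ℤ (E k), Cl M ∧ rk M = k ∧ x = F M idL} = S at hS hlt
  refine (hS N hN hr).trans ?_
  by_contra hg
  push Not at hg
  have hk0 : (0 : ℝ) ≤ k := Nat.cast_nonneg _
  have hη : 0 < (S - 2 * k) / (4 * k + 1) := div_pos (by linarith) (by linarith)
  have he : (4 * k + 1) * ((S - 2 * k) / (4 * k + 1)) = S - 2 * k := by field_simp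
  generalize (S - 2 * k) / (4 * k + 1) = η at hη he
  obtain ⟨δ, hδ, hδ1, hδ2, hδ3⟩ := exists_delta k hη (g := S - 2 * k) (by linarith)
  obtain ⟨M, hM, hrM, hF⟩ := hlt (S - δ / 8) (by linarith)
  by_cases hB : ∀ (ι : Type) [Fintype ι] [DecidableEq ι] (v : ι → E k), (∀ i, v i ∈ M) →
      LinearIndependent ℝ v → 0 < Fintype.card ι → Fintype.card ι < k →
      1 + η ≤ (Matrix.gram ℝ v).det
  · have := eke hS hM hrM hδ hδ1 hδ3 hB hF
    linarith
  · push Not at hB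
    obtain ⟨ι, _, _, v, hv, hli, h0, hk, hlt'⟩ := hB
    have := caseA ih hM hrM hv hli h0 hk hη.le hlt'.le
    nlinarith

theorem F_le_rk (k : ℕ) : ∀ (m : ℕ) (N : Submodule ℤ (E m)), Cl N → rk N = k →
    F N idL ≤ 2 * k := by
  induction k using Nat.strong_induction_on with
  | _ k ih =>
    intro m N hN hr
    subst hr
    obtain ⟨N₀, h0, hr0, hc⟩ := transfer hN
    exact (le_F h0.cost fun c h => F_le (hc c h)).trans (full_step ih h0 hr0)

theorem rm_cost {m : ℕ} {N : Submodule ℤ (E m)} (hN : Cl N) {c : ℝ} (hc : 2 * (rk N : ℝ) < c) :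
    Cost N idL c :=
  cost_of_F_lt hN.cost ((F_le_rk _ m N hN rfl).trans_lt hc)

end Vale.Agent.P160F.RM
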