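import Vale.Agent.P160F.RMCount
import Vale.Agent.P160F.RMMain

/-! Reverse Minkowski lemma: final forms. -/

namespace Vale.Agent.P160F

open Matrix

theorem rmc : RM.RMC := by
  intro m N hd hN c hc
  refine RM.rm_cost hN ?_
  have h1 : DiscreteTopology (Submodule.span ℤ (N : Set (RM.E m))) := by
    rw [Submodule.span_eq]
    exact hd
  have h2 := Real.finrank_eq_int_finrank_of_discrete h1
  rw [Set.finrank, Set.finrank, Submodule.span_eq] at h2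
  rw [RM.rk, h2]
  have h3 : (0 : ℝ) ≤ Module.finrank ℤ N := Nat.cast_nonneg _
  linarith

/-- polynomial form -/
theorem RM1 {m : ℕ} (P : Matrix (Fin m) (Fin m) ℝ) (hP : P.PosDef)
    (hC : ∀ (k : ℕ) (X : Matrix (Fin m) (Fin k) ℤ),
      ((X.map (Int.cast : ℤ → ℝ))ᵀ * P * X.map (Int.cast : ℤ → ℝ)).det ≠ 0 →
      1 ≤ ((X.map (Int.cast : ℤ → ℝ))ᵀ * P * X.map (Int.cast : ℤ → ℝ)).det)
    (r s : ℝ) (hs : 1 ≤ s) (S : Finset (Fin m → ℤ))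
    (hS : ∀ z ∈ S, (fun i => (z i : ℝ)) ⬝ᵥ P *ᵥ (fun i => (z i : ℝ)) ≤ r ^ 2) :
    (S.card : ℝ) ≤ (2 * s) ^ m * Real.exp (13 * r ^ 2 / s ^ 2 + 32 * m) :=
  RM.rm1 rmc P hP hC r s hs S hS

/-- subexponential form at constant radius -/
theorem RM2 {m : ℕ} (P : Matrix (Fin m) (Fin m) ℝ) (hP : P.PosDef)
    (hC : ∀ (k : ℕ) (X : Matrix (Fin m) (Fin k) ℤ),
      ((X.map (Int.cast : ℤ → ℝ))ᵀ * P * X.map (Int.cast : ℤ → ℝ)).det ≠ 0 →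
      1 ≤ ((X.map (Int.cast : ℤ → ℝ))ᵀ * P * X.map (Int.cast : ℤ → ℝ)).det)
    {r δ : ℝ} (hδ : 0 < δ) (S : Finset (Fin m → ℤ))
    (hS : ∀ z ∈ S, (fun i => (z i : ℝ)) ⬝ᵥ P *ᵥ (fun i => (z i : ℝ)) ≤ r ^ 2) :
    (S.card : ℝ) ≤ Real.exp (δ * m + 400 * r ^ 2 / δ) :=
  RM.rm2 rmc P hP hC hδ S hS

/-- basis free form: cosets of `L`, diameter `d`, scale `θ`, classes modulo `t` -/
theorem RM3 {m : ℕ} {L : Submodule ℤ (EuclideanSpace ℝ (Fin m))} {θ : ℝ} (hθ : 0 < θ)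
    (h : ∀ (k : ℕ) (v : Fin k → EuclideanSpace ℝ (Fin m)), (∀ i, v i ∈ L) →
      LinearIndependent ℝ v → θ ^ (2 * k) ≤ (Matrix.gram ℝ v).det)
    {ρ : ℕ} (hρ : Module.finrank ℤ L ≤ ρ) {s d : ℝ} (hs : 0 < s) {t : ℕ} (ht : 0 < t)
    (S : Finset (EuclideanSpace ℝ (Fin m))) (v₀ : EuclideanSpace ℝ (Fin m))
    (hS : ∀ v ∈ S, v - v₀ ∈ L) (hd : ∀ v ∈ S, ∀ v' ∈ S, ‖v - v'‖ ≤ d) :
    (S.card : ℝ) ≤ (t : ℝ) ^ ρ *
      Real.exp (10 * Real.pi * ρ / s ^ 2 + Real.pi * s ^ 2 * (d / (θ * t)) ^ 2) :=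
  RM.rm_ball rmc hθ h hρ hs ht S v₀ hS hd

end Vale.Agent.P160F
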