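import Vale.Agent.P160F.H
import Vale.Agent.P160F.RM

/-! Reverse Minkowski for the quotient of the integer points of `A` by those of `U`. -/

open Finset Matrix Module

noncomputable section

namespace Vale.Agent.P160F

variable {ι κ : Type} [Fintype ι] [Fintype κ]

/-- `ev` as a linear map. -/
def evL (G : Matrix κ ι ℤ) : (ι → ℤ) →ₗ[ℤ] EuclideanSpace ℝ κ where
  toFun := ev G
  map_add' z w := by
    ext i
    simp [ev, zr, mulVec_add]
  map_smul' a z := by
    ext i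
    simp only [ev, mulVec_smul]
    simp [zr]

theorem crel_ker {G : Matrix κ ι ℤ} (hG : Inj G) {U : QS ι} {z : ι → ℤ} (h : ev G z ∈ rs G U) :
    z ∈ lat U := by
  by_contra hz
  have h1 := (one_le_ht hG _).trans (ht_ad_le hG hz)
  rw [ds, Metric.infDist_zero_of_mem h, mul_zero] at h1
  linarith

theorem crel_norm (G : Matrix κ ι ℤ) (U : QS ι) (z : ι → ℤ) :
    ‖(rs G U)ᗮ.starProjection (ev G z)‖ ≤ ds G U z := by
  refine (Metric.le_infDist ⟨0, Submodule.zero_mem _⟩).2 fun x hx => ?_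
  have h := (rs G U)ᗮ.norm_starProjection_apply_le (ev G z - x)
  rwa [map_sub, Submodule.starProjection_orthogonal_apply_eq_zero hx, sub_zero,
    ← dist_eq_norm] at h

theorem rm_inj {G : Matrix κ ι ℤ} (hG : Inj G) {S : ℝ} (hS : 0 < S) {U A : QS ι} (hUA : U ≤ A)
    (hU : Up G S U A) {ρ : ℕ} (hρ : dm A ≤ dm U + ρ) {s d : ℝ} (hs : 0 < s) {t : ℕ} (h0t : 0 < t)
    (Z : Finset (ι → ℤ)) (hZ : ∀ z ∈ Z, z ∈ lat A ∧ ds G U z ≤ d)
    (hi : ∀ z ∈ Z, ∀ w ∈ Z, z - w ∈ lat U → z = w) :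
    (Z.card : ℝ) ≤ (t : ℝ) ^ ρ *
      Real.exp (10 * Real.pi * ρ / s ^ 2 + Real.pi * s ^ 2 * (2 * d * S / t) ^ 2) := by
  classical
  let e := (stdOrthonormalBasis ℝ (EuclideanSpace ℝ κ)).repr
  let p := (rs G U)ᗮ.starProjection
  let T := ((e.toLinearEquiv.toLinearMap ∘ₗ p.toLinearMap).restrictScalars ℤ) ∘ₗ evL G
  have hT : ∀ z, T z = e (p (ev G z)) := fun _ => rfl
  have hk : ∀ z, T z = 0 ↔ z ∈ lat U := fun z => by
    rw [hT, e.map_eq_zero_iff, Submodule.starProjection_apply_eq_zero_iff,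
      Submodule.orthogonal_orthogonal]
    exact ⟨crel_ker hG, fun h => Submodule.subset_span ⟨z, h, rfl⟩⟩
  rw [← card_image_of_injOn (f := T) fun z hz w hw h =>
    hi z hz w hw ((hk _).1 (by rw [map_sub, h, sub_self])), ← div_inv_eq_mul (2 * d),
    ← div_mul_eq_div_div]
  refine RM3 (L := (lat A).map T) (θ := S⁻¹) (inv_pos.2 hS) (fun k v hv hl => ?_) (ρ := ρ) ?_
    hs (d := 2 * d) h0t (Z.image T) 0 (fun v hv => ?_) (fun v hv v' hv' => ?_)
  · choose z hz ez using hv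
    have e1 : gram ℝ v = gram ℝ fun i => p (ev G (z i)) := by
      ext i j
      rw [gram_apply, gram_apply, ← ez, ← ez, hT, hT, e.inner_map_map]
    have h0 : 0 < (gram ℝ v).det := (posDef_gram_iff_linearIndependent.2 hl).det_pos
    have hw : ∀ i, ev G (z i) - p (ev G (z i)) ∈ rs G U := fun i => by
      have := (rs G U)ᗮ.sub_starProjection_mem_orthogonal (ev G (z i))
      rwa [Submodule.orthogonal_orthogonal] at this
    obtain ⟨h2, h3⟩ := ht_sup_le hG U z (fun i => p (ev G (z i)))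
      (fun i => ⟨hw i, Submodule.starProjection_apply_mem _ _⟩) (e1 ▸ h0.ne')
    have h4 := hU (U ⊔ Submodule.span ℚ (Set.range fun i => zq (z i))) le_sup_left
      (sup_le hUA (Submodule.span_le.2 (Set.range_subset_iff.2 fun i => hz i)))
    rw [h2, Nat.add_sub_cancel_left] at h4
    have h5 : 0 < ht G U := one_pos.trans_le (one_le_ht hG U)
    have h6 := (pow_le_pow_left₀ h5.le h4 2).trans
      ((mul_pow _ _ _).trans_le (mul_le_mul_of_nonneg_left h3 (sq_nonneg _)))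
    rw [← e1, mul_left_comm] at h6
    have h7 := (le_mul_iff_one_le_right (pow_pos h5 2)).1 h6
    rw [inv_pow, inv_le_iff_one_le_mul₀' (pow_pos hS _), mul_comm 2 k, pow_mul]
    exact h7
  · have h2 := (LinearMap.ker (T.domRestrict (lat A))).finrank_quotient_add_finrank
    rw [(T.domRestrict (lat A)).quotKerEquivRange.finrank_eq] at h2
    have h3 : (lat U).comap (lat A).subtype ≤ LinearMap.ker (T.domRestrict (lat A)) :=
      fun z hz => (hk _).2 hz
    have h4 := Submodule.finrank_mono h3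
    rw [(Submodule.comapSubtypeEquivOfLe (show lat U ≤ lat A from fun z hz => hUA hz)).finrank_eq,
      finrank_lat] at h4
    rw [LinearMap.range_domRestrict, finrank_lat] at h2
    omega
  · obtain ⟨z, hz, rfl⟩ := mem_image.1 hv
    exact (sub_zero (T z)).symm ▸ Submodule.mem_map_of_mem (hZ z hz).1
  · obtain ⟨z, hz, rfl⟩ := mem_image.1 hv
    obtain ⟨w, hw, rfl⟩ := mem_image.1 hv'
    refine (norm_sub_le _ _).trans ?_
    rw [hT, hT, e.norm_map, e.norm_map]
    linarith [crel_norm G U z, crel_norm G U w, (hZ z hz).2, (hZ w hw).2]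

open Classical in
theorem rm_rel {G : Matrix κ ι ℤ} (hG : Inj G) {S : ℝ} (hS : 0 < S) {U A : QS ι} (hUA : U ≤ A)
    (hU : Up G S U A) {ρ : ℕ} (hρ : dm A ≤ dm U + ρ) {s d : ℝ} (hs : 0 < s) {t : ℕ} (h0t : 0 < t)
    (Z : Finset (ι → ℤ)) (hZ : ∀ z ∈ Z, z ∈ lat A ∧ ds G U z ≤ d) :
    ((Z.image (lat U).mkQ).card : ℝ) ≤ (t : ℝ) ^ ρ *
      Real.exp (10 * Real.pi * ρ / s ^ 2 + Real.pi * s ^ 2 * (2 * d * S / t) ^ 2) := by
  obtain ⟨Y, hY, hi, e⟩ := exists_subset_injOn_image_eq_of_surjOn (f := (lat U).mkQ) (Z : Set _)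
    (Z.image (lat U).mkQ) (by rw [coe_image]; exact Set.surjOn_image _ _)
  rw [← e, card_image_of_injOn hi]
  exact rm_inj hG hS hUA hU hρ hs h0t Y (fun z hz => hZ z (hY hz)) fun z hz w hw h =>
    hi hz hw ((Submodule.Quotient.eq _).2 h)

end Vale.Agent.P160F
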