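import Vale.Agent.P160F.CLog
import Vale.Agent.P160F.CRel

/-! P160F, part A1. A rich set lies in few cosets of a subspace of small slopes. -/

open Finset Matrix Module Filter Topology

noncomputable section

namespace Vale.Agent.P160F

open Vale.Agent.P160

theorem a1_bits (k : ℕ) : ∀ x y : Fin k → Bool,
    ∑ l : Fin k, (2 : ℤ) ^ (l : ℕ) * (if x l then 1 else 0) =
      ∑ l : Fin k, 2 ^ (l : ℕ) * (if y l then 1 else 0) → x = y := by
  induction k with
  | zero => exact fun _ _ _ => Subsingleton.elim _ _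
  | succ k ih =>
    intro x y h
    simp only [Fin.sum_univ_succ, Fin.val_succ, pow_succ', mul_assoc, ← mul_sum] at h
    have h0 : x 0 = y 0 := by
      cases hx : x 0 <;> cases hy : y 0 <;> simp [hx, hy] at h ⊢ <;> omega
    rw [h0, add_right_inj, mul_right_inj' two_ne_zero] at h
    exact funext (Fin.cases h0 (congrFun (ih (fun l => x l.succ) (fun l => y l.succ) h)))

theorem a1_geom (k : ℕ) : ∑ l : Fin k, (2 : ℤ) ^ (l : ℕ) < 2 ^ k := by
  induction k with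
  | zero => simp
  | succ k ih =>
    rw [Fin.sum_univ_castSucc, pow_succ]
    simp only [Fin.val_castSucc, Fin.val_last]
    omega

section
variable {ι κ : Type} [Fintype ι] [DecidableEq ι] [Fintype κ]

omit [DecidableEq ι] [Fintype κ] in
theorem a1_cast (M : Matrix κ ι ℤ) (z : ι → ℤ) :
    M.map (Int.cast : ℤ → ℝ) *ᵥ zr z = zr (M *ᵥ z) := by
  ext i
  simp [zr, mulVec, dotProduct]

theorem a1_inj {M : Matrix ι ι ℤ} (hM : M.det ≠ 0) : Inj M := by
  simpa using inj_mul (inj_one (ι := ι)) hM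

theorem a1_dn {G : Matrix κ ι ℤ} {M : Matrix ι ι ℤ} {c K : ℝ} (hG : Inj G) (hM : M.det ≠ 0)
    (hc : 0 < c)
    (h : ∀ x : ι → ℝ, c * ‖(WithLp.toLp 2 (M.map (Int.cast : ℤ → ℝ) *ᵥ x) : EuclideanSpace ℝ ι)‖ ≤
      ‖(WithLp.toLp 2 (G.map (Int.cast : ℤ → ℝ) *ᵥ x) : EuclideanSpace ℝ κ)‖)
    {U : QS ι} (hU : Dn G (c * K) U) : Dn (1 : Matrix ι ι ℤ) K (mp M U) := by
  intro X hX
  obtain ⟨Y, hY, rfl⟩ : ∃ Y ≤ U, mp M Y = X :=
    ⟨X.comap (M.map (Int.cast : ℤ → ℚ)).mulVecLin ⊓ U, inf_le_right, le_antisymm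
      (Submodule.map_le_iff_le_comap.2 inf_le_left) fun x hx => by
        obtain ⟨u, hu, rfl⟩ := hX hx
        exact ⟨u, ⟨hx, hu⟩, rfl⟩⟩
  have h1 := ht_cmp hG (a1_inj hM) hc one_pos (fun x => (h x).trans_eq (one_mul _).symm) hY
  have h2 := hU Y hY
  have h3 := ht_mp_rel (inj_one (ι := ι)) hM hY
  have p1 : 0 < ht G Y := one_pos.trans_le (one_le_ht hG Y)
  have p2 : 0 < ht M Y := one_pos.trans_le (one_le_ht (a1_inj hM) Y)
  rw [Matrix.one_mul] at h3
  rw [dm_mp hM, dm_mp hM]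
  rw [one_pow, one_mul] at h1
  rw [mul_pow] at h2
  have h4 : ht M U ≤ K ^ (dm U - dm Y) * ht M Y := by
    refine le_of_mul_le_mul_left ?_ (mul_pos (pow_pos hc (dm U - dm Y)) p1)
    nlinarith [mul_le_mul_of_nonneg_right h2 p2.le]
  refine le_of_mul_le_mul_right (h3.trans ?_) p2
  nlinarith [mul_le_mul_of_nonneg_right h4 (hs_pos (mp M Y)).le]

theorem a1_class {M : Matrix ι ι ℤ} (hM : M.det ≠ 0) (U : QS ι) (N : ℕ) (Z : Finset (ι → ℤ))
    (hZ : ∀ z ∈ Z, ∀ i, (M *ᵥ z) i ∈ Ico (0 : ℤ) N) (h : ∀ z ∈ Z, ∀ w ∈ Z, z - w ∈ lat U) :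
    Z.card ≤ N ^ dm U := by
  obtain ⟨I, hI, h1⟩ := exists_info (mp M U)
  have h2 := card_le_card_of_injOn (s := Z) (t := Fintype.piFinset fun _ : I => Ico (0 : ℤ) N)
    (fun z i => (M *ᵥ z) i) (fun z hz => mem_coe.2 (Fintype.mem_piFinset.2 fun i => hZ z hz i))
    fun z hz w hw e => ?_
  · rwa [Fintype.card_piFinset, prod_const, Int.card_Ico, sub_zero, Int.toNat_natCast, card_univ,
      Fintype.card_coe, hI, ← dm, dm_mp hM] at h2
  · have e1 : zq (M *ᵥ (z - w)) = M.map (Int.cast : ℤ → ℚ) *ᵥ zq (z - w) := by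
      ext i
      simp [zq, mulVec, dotProduct]
    have h3 := h1 (zq (M *ᵥ (z - w))) ⟨_, h z hz w hw, e1.symm⟩ fun i hi => by
      have := congrFun e ⟨i, hi⟩
      simp only at this
      rw [zq, mulVec_sub, Pi.sub_apply, this, sub_self, Int.cast_zero]
    exact sub_eq_zero.1 (a1_inj hM _ (funext fun i => Int.cast_eq_zero.1 (congrFun h3 i)))

end

theorem A1 : ∃ C : ℝ, 1 ≤ C ∧ ∀ (ι κ : Type) [Fintype ι] [DecidableEq ι] [Fintype κ]
    (G : Matrix κ ι ℤ) (M : Matrix ι ι ℤ) (c : ℝ), M.det ≠ 0 → 0 < c →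
    (∀ x : ι → ℝ, c * ‖(WithLp.toLp 2 (M.map (Int.cast : ℤ → ℝ) *ᵥ x) : EuclideanSpace ℝ ι)‖ ≤
      ‖(WithLp.toLp 2 (G.map (Int.cast : ℤ → ℝ) *ᵥ x) : EuclideanSpace ℝ κ)‖) →
    ∀ T : Finset (ι → ℤ), (∀ t ∈ T, (∃ y, M *ᵥ t = bz y) ∧
      ‖ev G t‖ ^ 2 ≤ c ^ 2 * (2 * Fintype.card ι)) → ∀ k : ℕ,
    ∃ U : QS ι, ht G U ≤ (c * 2 ^ k) ^ dm U ∧ Dn (1 : Matrix ι ι ℤ) (2 ^ k) (mp M U) ∧
      (T.card : ℝ) ^ k ≤ C ^ Fintype.card ι * 2 ^ (k * dm U) := by
  classical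
  refine ⟨Real.exp (18 * Real.pi), Real.one_le_exp (by positivity),
    fun ι κ _ _ _ G M c hM hc h T hT k => ?_⟩
  have hG : Inj G := fun z hz => by
    have h1 := h (zr z)
    rw [a1_cast, a1_cast, hz, show zr (0 : κ → ℤ) = 0 from funext fun _ => Int.cast_zero,
      WithLp.toLp_zero, norm_zero] at h1
    have h2 := norm_le_zero_iff.1 (nonpos_of_mul_nonpos_right h1 hc)
    exact a1_inj hM z (funext fun i => Int.cast_eq_zero.1 (congrFun (congrArg WithLp.ofLp h2) i))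
  have hS : 0 < c * 2 ^ k := by positivity
  set S := c * 2 ^ k with hSd
  obtain ⟨U, -, hU⟩ := exists_min hG (fun _ => True) ⟨⊥, trivial⟩ (inv_pos.2 hS)
  have hdn : Dn G S U := fun X hX => by
    have h1 := hU X trivial
    obtain ⟨d, hd⟩ := Nat.exists_eq_add_of_le (clog_dm_mono hX)
    rw [hd, pow_add, mul_comm _ (S⁻¹ ^ d), ← mul_assoc] at h1
    have h2 := le_of_mul_le_mul_right h1 (pow_pos (inv_pos.2 hS) _)
    rwa [inv_pow, mul_inv_le_iff₀' (pow_pos hS _), ← Nat.add_sub_cancel_left (dm X) d, ← hd] at h2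
  have hup : Up G S⁻¹ U ⊤ := fun X hX _ => by
    have h1 := hU X trivial
    obtain ⟨d, hd⟩ := Nat.exists_eq_add_of_le (clog_dm_mono hX)
    rw [hd, pow_add, mul_comm _ (S⁻¹ ^ d), ← mul_assoc] at h1
    rw [hd, Nat.add_sub_cancel_left, mul_comm]
    exact le_of_mul_le_mul_right h1 (pow_pos (inv_pos.2 hS) _)
  refine ⟨U, ?_, a1_dn hG hM hc h hdn, ?_⟩
  · simpa [ht_bot, clog_dm_bot] using hdn ⊥ bot_le
  choose! y hy using fun t ht => (hT t ht).1
  let σ : (Fin k → ι → ℤ) → ι → ℤ := fun f => ∑ l : Fin k, (2 : ℤ) ^ (l : ℕ) • f l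
  let P := Fintype.piFinset fun _ : Fin k => T
  have hσ : ∀ f ∈ P, ∀ i, (M *ᵥ σ f) i = ∑ l : Fin k, 2 ^ (l : ℕ) * (if y (f l) i then 1 else 0) :=
    fun f hf i => by
      rw [mulVec_sum, Finset.sum_apply]
      refine sum_congr rfl fun l _ => ?_
      rw [mulVec_smul, hy _ (Fintype.mem_piFinset.1 hf l)]
      rfl
  have h1 : (P.image σ).card = T.card ^ k := by
    rw [card_image_of_injOn fun f hf g hg e => funext fun l => ?_, Fintype.card_piFinset_const]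
    refine sub_eq_zero.1 (a1_inj hM _ ?_)
    rw [mulVec_sub, hy _ (Fintype.mem_piFinset.1 hf l), hy _ (Fintype.mem_piFinset.1 hg l),
      sub_eq_zero]
    exact congrArg bz (funext fun i => congrFun (a1_bits k (fun l => y (f l) i) (fun l => y (g l) i)
      (by rw [← hσ f hf, ← hσ g hg, e])) l)
  have h2 := card_le_mul_card_image (f := (lat U).mkQ) (P.image σ) ((2 ^ k) ^ dm U) fun q _ =>
    a1_class hM U (2 ^ k) _ (fun z hz i => ?_) fun z hz w hw =>
      (Submodule.Quotient.eq _).1 ((mem_filter.1 hz).2.trans (mem_filter.1 hw).2.symm)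
  · have hn : (0 : ℝ) ≤ 2 * Fintype.card ι := by positivity
    have h3 := rm_rel hG (inv_pos.2 hS) le_top hup (ρ := Fintype.card ι)
      ((clog_dm_le _).trans (Nat.le_add_left _ _)) one_pos one_pos (P.image σ)
      (d := S * √(2 * Fintype.card ι)) fun z hz => ⟨trivial, (ds_le_norm G U z).trans ?_⟩
    · rw [h1] at h2
      refine (Nat.cast_pow (α := ℝ) T.card k ▸ Nat.cast_le.2 h2).trans ?_
      push_cast
      rw [← pow_mul, mul_comm]
      refine mul_le_mul_of_nonneg_right (h3.trans_eq ?_) (by positivity)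
      rw [← Real.exp_nat_mul, show 2 * (S * √(2 * Fintype.card ι)) * S⁻¹ / (1 : ℕ) =
        2 * √(2 * Fintype.card ι) by rw [Nat.cast_one]; field_simp, mul_pow, Real.sq_sqrt hn]
      simp only [Nat.cast_one, one_pow, one_mul, div_one, mul_one]
      ring_nf
    · obtain ⟨f, hf, rfl⟩ := mem_image.1 hz
      change ‖evL G (∑ l : Fin k, _)‖ ≤ _
      rw [map_sum]
      refine (norm_sum_le_of_le _ (n := fun l : Fin k => 2 ^ (l : ℕ) * (c * √(2 * Fintype.card ι)))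
        fun l _ => ?_).trans ?_
      · rw [map_zsmul, norm_zsmul ℝ]
        refine mul_le_mul (by simp) (abs_le_of_sq_le_sq' ?_ (by positivity)).2 (norm_nonneg _)
          (by positivity)
        rw [mul_pow, Real.sq_sqrt hn]
        exact (hT _ (Fintype.mem_piFinset.1 hf l)).2
      · have h4 : ∑ l : Fin k, (2 : ℝ) ^ (l : ℕ) ≤ 2 ^ k := by exact_mod_cast (a1_geom k).le
        rw [← sum_mul, hSd, mul_comm c (2 ^ k), mul_assoc]
        exact mul_le_mul_of_nonneg_right h4 (by positivity)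
  · obtain ⟨f, hf, rfl⟩ := mem_image.1 (mem_filter.1 hz).1
    rw [hσ f hf, mem_Ico]
    refine ⟨sum_nonneg fun l _ => by split_ifs <;> positivity, ?_⟩
    push_cast
    exact (sum_le_sum fun l _ => by split_ifs <;> simp).trans_lt (a1_geom k)

end Vale.Agent.P160F
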