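import Vale.Agent.P160F.EX

/-! P160F, part Exp. Vertex exposure. -/

open Finset Matrix Module Filter Topology

noncomputable section

namespace Vale.Agent.P160F

open Vale.Agent.P160

theorem Bm_upd_of_ne {n : ℕ} (ω : Sym2 (Fin n) → Bool) (v : Fin n) (y : Fin n → Bool) {i j : Fin n}
    (hi : i ≠ v) (hj : j ≠ v) : Bm (upd ω v y) i j = Bm ω i j := by
  simp only [Bm, Matrix.of_apply, upd_off ω y hi hj]

theorem Bm_upd_col {n : ℕ} (ω : Sym2 (Fin n) → Bool) (v : Fin n) (y : Fin n → Bool) (i : Fin n) :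
    Bm (upd ω v y) i v = bz y i := by
  simp only [Bm, Matrix.of_apply, bz]
  rw [Sym2.eq_swap, upd_row]

theorem Bm_isSymm {n : ℕ} (ω : Sym2 (Fin n) → Bool) : (Bm ω).IsSymm := by
  ext i j
  simp only [Bm, Matrix.transpose_apply, Matrix.of_apply]
  rw [Sym2.eq_swap]

theorem abs_Bm_le {n : ℕ} (ω : Sym2 (Fin n) → Bool) (i j : Fin n) : |Bm ω i j| ≤ 1 := by
  simp only [Bm, Matrix.of_apply]
  split_ifs <;> simp

theorem EXP {n : ℕ} (J : Finset (Fin n)) (bad : Fin n → (Sym2 (Fin n) → Bool) → Prop) {p : ℝ}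
    (hp : 0 ≤ p) (had : ∀ u ∈ J, ∀ v ∈ J, u < v → ∀ ω y, bad u (upd ω v y) ↔ bad u ω)
    (hpr : ∀ v ∈ J, ∀ ω, pr (fun y => bad v (upd ω v y)) ≤ p) (b : ℕ) :
    pr (fun ω => ∃ S, S ⊆ J ∧ S.card = b ∧ ∀ v ∈ S, bad v ω) ≤ 2 ^ n * p ^ b := by
  classical
  let t := J.orderEmbOfFin rfl
  have ht : ∀ j, t j ∈ J := fun j => J.orderEmbOfFin_mem rfl j
  have h := exposure t t.injective (fun j ω => bad (t j) ω) hp
    (fun i j hij ω y hb => (had _ (ht j) _ (ht i) (t.strictMono hij) ω y).1 hb)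
    (fun j ω => hpr _ (ht j) ω) b
  refine (pr_mono fun ω hω => ?_).trans (h.trans ?_)
  · obtain ⟨S, hS, hc, hb⟩ := hω
    rw [← hc]
    refine Finset.card_le_card_of_surjOn t fun v hv => ?_
    have hv' : v ∈ Set.range t := by
      rw [Finset.range_orderEmbOfFin]; exact hS hv
    obtain ⟨j, rfl⟩ := hv'
    exact ⟨j, by simpa using hb _ hv, rfl⟩
  · refine mul_le_mul_of_nonneg_right (pow_le_pow_right₀ one_le_two ?_) (pow_nonneg hp _)
    simpa using J.card_le_univ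

end Vale.Agent.P160F
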