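import Vale.Agent.P160F.Defs

/-! P160F, part SB. Small ball bound for the distance to a subspace. -/

open Finset Matrix Module Filter Topology

noncomputable section

namespace Vale.Agent.P160F

open Vale.Agent.P160

section aux

open Metric
open scoped InnerProductSpace

section

variable {E : Type} [NormedAddCommGroup E] [InnerProductSpace ℝ E]

theorem SB_shift (V : Submodule ℝ E) (x : E) {w : E} (hw : w ∈ V) :
    infDist (x + w) (V : Set E) = infDist x (V : Set E) := by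
  have key : ∀ (x : E) {w : E}, w ∈ V → infDist x (V : Set E) ≤ infDist (x + w) (V : Set E) := by
    intro x w hw
    refine (le_infDist ⟨0, V.zero_mem⟩).2 fun v hv => ?_
    refine (infDist_le_dist_of_mem (V.sub_mem hv hw)).trans_eq ?_
    rw [dist_eq_norm, dist_eq_norm]; congr 1; abel
  refine le_antisymm ?_ (key x hw)
  simpa using key (x + w) (V.neg_mem hw)

theorem SB_pyth {V V' : Submodule ℝ E} (h : V ≤ V') {u : E} (hu : u ∈ V') (hu' : u ∈ Vᗮ)
    (h1 : ‖u‖ = 1) (x : E) :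
    infDist x (V' : Set E) ^ 2 + ⟪u, x⟫_ℝ ^ 2 ≤ infDist x (V : Set E) ^ 2 := by
  refine (Real.sqrt_le_left infDist_nonneg).1 ((le_infDist ⟨0, V.zero_mem⟩).2 fun v hv => ?_)
  refine (Real.sqrt_le_left dist_nonneg).2 ?_
  have h2 : infDist x (V' : Set E) ≤ ‖(x - v) - ⟪u, x⟫_ℝ • u‖ := by
    refine (infDist_le_dist_of_mem (V'.add_mem (h hv) (V'.smul_mem ⟪u, x⟫_ℝ hu))).trans_eq ?_
    rw [dist_eq_norm]; congr 1; abel
  have h3 : ⟪x - v, u⟫_ℝ = ⟪u, x⟫_ℝ := by
    rw [inner_sub_left, Submodule.inner_right_of_mem_orthogonal hv hu', sub_zero, real_inner_comm]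
  have h4 := pow_le_pow_left₀ infDist_nonneg h2 2
  rw [norm_sub_sq_real, inner_smul_right, h3, norm_smul, h1, mul_one, Real.norm_eq_abs,
    sq_abs] at h4
  rw [dist_eq_norm]
  nlinarith

end

variable {ι : Type} [Fintype ι] [DecidableEq ι]

theorem SB_dir (V : Submodule ℝ (EuclideanSpace ℝ ι)) {θ : ℝ}
    (h : (finrank ℝ V : ℝ) + θ * Fintype.card ι < Fintype.card ι) :
    ∃ i, θ < ‖Vᗮ.starProjection (EuclideanSpace.single i (1 : ℝ))‖ ^ 2 := by
  by_contra hn
  push Not at hn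
  let b := stdOrthonormalBasis ℝ Vᗮ
  have h1 : ∀ i, ‖Vᗮ.starProjection (EuclideanSpace.single i (1 : ℝ))‖ ^ 2 =
      ∑ j, (b j : EuclideanSpace ℝ ι) i ^ 2 := by
    intro i
    rw [Submodule.starProjection_apply, ← Submodule.coe_norm, ← b.sum_sq_inner_right]
    refine Finset.sum_congr rfl fun j _ => ?_
    rw [Submodule.inner_orthogonalProjectionOnto_eq_of_mem_left, EuclideanSpace.inner_single_right]
    simp
  have h2 : ∑ i, ‖Vᗮ.starProjection (EuclideanSpace.single i (1 : ℝ))‖ ^ 2 = finrank ℝ Vᗮ := by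
    rw [Finset.sum_congr rfl fun i _ => h1 i, Finset.sum_comm]
    have : ∀ j, ∑ i, (b j : EuclideanSpace ℝ ι) i ^ 2 = 1 := fun j => by
      rw [← EuclideanSpace.real_norm_sq_eq, ← Submodule.coe_norm, b.orthonormal.1 j, one_pow]
    simp [this]
  have h3 := Finset.sum_le_sum fun i (_ : i ∈ univ) => hn i
  have h4 : (finrank ℝ V : ℝ) + finrank ℝ Vᗮ = Fintype.card ι := by
    exact_mod_cast V.finrank_add_finrank_orthogonal.trans finrank_euclideanSpace
  rw [h2, Finset.sum_const, Finset.card_univ, nsmul_eq_mul] at h3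
  linarith

theorem SB_two {l s s' θ : ℝ} (hl : 0 ≤ l) (h : θ ≤ (s - s') ^ 2) :
    Real.exp (-(l * s ^ 2)) + Real.exp (-(l * s' ^ 2)) ≤ 1 + Real.exp (-(l * θ / 4)) := by
  have one : ∀ t : ℝ, Real.exp (-(l * t ^ 2)) ≤ 1 := fun t =>
    Real.exp_le_one_iff.2 (neg_nonpos.2 (by positivity))
  have two : ∀ t : ℝ, θ / 4 ≤ t ^ 2 → Real.exp (-(l * t ^ 2)) ≤ Real.exp (-(l * θ / 4)) :=
    fun t ht => Real.exp_le_exp.2 (by nlinarith)
  by_cases hs : θ / 4 ≤ s ^ 2
  · linarith [one s', two s hs]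
  · have : θ / 4 ≤ s' ^ 2 := by nlinarith [sq_nonneg (s + s')]
    linarith [one s, two s' this]

/-- The scaled and shifted cube point. -/
noncomputable def SBx (g : ℝ) (ξ : EuclideanSpace ℝ ι) (y : ι → Bool) : EuclideanSpace ℝ ι :=
  g • WithLp.toLp 2 (zr (bz y)) + ξ

omit [Fintype ι] in
theorem SB_flip (g : ℝ) (ξ : EuclideanSpace ℝ ι) (y : ι → Bool) (i : ι) :
    ∃ σ : ℝ, σ ^ 2 = 1 ∧ SBx g ξ (Function.update y i (!y i)) =
      SBx g ξ y + (σ * g) • EuclideanSpace.single i (1 : ℝ) := by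
  refine ⟨if y i then -1 else 1, by split_ifs <;> norm_num, ?_⟩
  ext j
  by_cases hj : j = i
  · subst hj
    cases hy : y j <;> simp [SBx, zr, bz, hy, add_comm]
  · cases y i <;> simp [SBx, zr, bz, hj]

theorem SB_mgf (g : ℝ) (ξ : EuclideanSpace ℝ ι) {l θ : ℝ} (hl : 0 ≤ l) (hθ : 0 ≤ θ) (k : ℕ) :
    ∀ V : Submodule ℝ (EuclideanSpace ℝ ι),
      (finrank ℝ V : ℝ) + k + θ * Fintype.card ι ≤ Fintype.card ι →
      ∑ y, Real.exp (-(l * infDist (SBx g ξ y) (V : Set _) ^ 2)) ≤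
        ((1 + Real.exp (-(l * (g ^ 2 * θ) / 4))) / 2) ^ k * 2 ^ Fintype.card ι := by
  induction k with
  | zero =>
    intro V _
    refine (Finset.sum_le_sum fun y _ => Real.exp_le_one_iff.2
      (neg_nonpos.2 (by positivity))).trans_eq ?_
    simp
  | succ k ih =>
    intro V hV
    push_cast at hV
    have hk : (0 : ℝ) ≤ k := Nat.cast_nonneg k
    obtain ⟨i, hi⟩ := SB_dir V (θ := θ) (by linarith)
    set e : EuclideanSpace ℝ ι := EuclideanSpace.single i (1 : ℝ)
    set w := Vᗮ.starProjection e with hw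
    have hw0 : 0 < ‖w‖ := by
      rcases (norm_nonneg w).eq_or_lt with h | h
      · rw [← h] at hi; nlinarith
      · exact h
    let V' := V ⊔ Submodule.span ℝ {e}
    have he : e ∈ V' := Submodule.mem_sup_right (Submodule.mem_span_singleton_self e)
    have hwV : w ∈ V' := by
      rw [hw, Submodule.starProjection_orthogonal_val]
      exact V'.sub_mem he (Submodule.mem_sup_left (V.starProjection_apply_mem e))
    have hr : finrank ℝ V' ≤ finrank ℝ V + 1 :=
      (Submodule.finrank_add_le_finrank_add_finrank _ _).trans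
        (Nat.add_le_add_left (by simpa using finrank_span_le_card (R := ℝ) ({e} : Set _)) _)
    have hr' : (finrank ℝ V' : ℝ) ≤ finrank ℝ V + 1 := by exact_mod_cast hr
    let u := ‖w‖⁻¹ • w
    have hu1 : ‖u‖ = 1 := by rw [norm_smul, norm_inv, norm_norm, inv_mul_cancel₀ hw0.ne']
    have hue : ⟪u, e⟫_ℝ = ‖w‖ := by
      have h0 : ⟪w, e⟫_ℝ = ‖w‖ ^ 2 := Vᗮ.re_inner_starProjection_eq_normSq e
      rw [inner_smul_left, h0]
      simp only [conj_trivial]
      field_simp
    set q := (1 + Real.exp (-(l * (g ^ 2 * θ) / 4))) / 2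
    let A := fun y => Real.exp (-(l * ⟪u, SBx g ξ y⟫_ℝ ^ 2))
    let H := fun y => Real.exp (-(l * infDist (SBx g ξ y) (V' : Set _) ^ 2))
    let f : (ι → Bool) → ι → Bool := fun y => Function.update y i (!y i)
    have hf : Function.Involutive f := fun y => by simp [f]
    have h1 : ∀ y, Real.exp (-(l * infDist (SBx g ξ y) (V : Set _) ^ 2)) ≤ A y * H y := by
      intro y
      rw [← Real.exp_add, Real.exp_le_exp]
      have := SB_pyth (le_sup_left : V ≤ V') (V'.smul_mem _ hwV)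
        (Vᗮ.smul_mem _ (Vᗮ.starProjection_apply_mem e)) hu1 (SBx g ξ y)
      nlinarith
    have h2 : ∀ y, A y * H y + A (f y) * H (f y) ≤ 2 * q * H y := by
      intro y
      obtain ⟨σ, hσ, hx⟩ := SB_flip g ξ y i
      have h3 : H (f y) = H y := by
        simp only [H, f, hx]
        rw [SB_shift V' _ (V'.smul_mem _ he)]
      have h4 : A y + A (f y) ≤ 2 * q := by
        simp only [A, f, hx, q]
        rw [mul_div_cancel₀ _ two_ne_zero]
        refine SB_two hl ?_
        rw [inner_add_right, inner_smul_right, hue]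
        have : (σ * g * ‖w‖) ^ 2 = g ^ 2 * ‖w‖ ^ 2 := by rw [mul_pow, mul_pow, hσ, one_mul]
        nlinarith [sq_nonneg g]
      rw [h3, ← add_mul]
      exact mul_le_mul_of_nonneg_right h4 (Real.exp_pos _).le
    have h5 := Finset.sum_le_sum fun y (_ : y ∈ univ) => h2 y
    have h8 : ∑ y, A (f y) * H (f y) = ∑ y, A y * H y :=
      Equiv.sum_comp hf.toPerm fun y => A y * H y
    rw [Finset.sum_add_distrib, h8, ← Finset.mul_sum] at h5
    have h6 := ih V' (by linarith)
    have hq : 0 ≤ q := by positivity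
    have h7 := mul_le_mul_of_nonneg_left h6 hq
    refine (Finset.sum_le_sum fun y _ => h1 y).trans ?_
    rw [pow_succ]
    nlinarith

theorem SB_real (V : Submodule ℝ (EuclideanSpace ℝ ι)) {g : ℝ} (hg : g ≠ 0)
    (ξ : EuclideanSpace ℝ ι) {c : ℝ} (hc : 0 < c)
    (hV : (finrank ℝ V : ℝ) + c * Fintype.card ι ≤ Fintype.card ι) :
    pr (fun y => infDist (SBx g ξ y) (V : Set _) ≤ |g| * (c * √(Fintype.card ι) / 12)) ≤
      Real.exp (1 / 2 - c * Fintype.card ι / 8) := by
  set n : ℝ := (Fintype.card ι : ℝ) with hn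
  have hn0 : 0 ≤ n := Nat.cast_nonneg _
  have hg2 : 0 < g ^ 2 := by positivity
  let k := ⌊c * n / 2⌋₊
  have hk1 : (k : ℝ) ≤ c * n / 2 := Nat.floor_le (by positivity)
  have hk2 : c * n / 2 < k + 1 := Nat.lt_floor_add_one _
  have h := SB_mgf g ξ (l := 16 / (c * g ^ 2)) (θ := c / 2) (by positivity) (by positivity) k V
    (by linarith)
  have e1 : 16 / (c * g ^ 2) * (g ^ 2 * (c / 2)) / 4 = 2 := by field_simp; norm_num
  have hq : (1 + Real.exp (-2)) / 2 ≤ Real.exp (-(1 / 2)) := by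
    have h1 : Real.exp (-2) = Real.exp (-(1 / 2)) ^ 4 := by
      rw [← Real.exp_nat_mul]; norm_num
    have h2 : Real.exp (-(1 / 2)) ^ 2 = (Real.exp 1)⁻¹ := by
      rw [← Real.exp_nat_mul, ← Real.exp_neg]; norm_num
    have h3 : (Real.exp 1)⁻¹ ≤ 0.37 := by
      rw [inv_le_comm₀ (Real.exp_pos 1) (by norm_num)]
      linarith [Real.exp_one_gt_d9]
    have h4 : 0.36 ≤ (Real.exp 1)⁻¹ := by
      rw [le_inv_comm₀ (by norm_num) (Real.exp_pos 1)]
      linarith [Real.exp_one_lt_d9]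
    have h5 := Real.exp_pos (-(1 / 2) : ℝ)
    have h6 : 0.6 ≤ Real.exp (-(1 / 2) : ℝ) := by nlinarith
    rw [h1]
    nlinarith
  rw [e1] at h
  have h' := h.trans (mul_le_mul_of_nonneg_right (pow_le_pow_left₀ (by positivity) hq k)
    (by positivity))
  have h8 : ∀ y, ind (infDist (SBx g ξ y) (V : Set _) ≤ |g| * (c * √n / 12)) ≤
      Real.exp (c * n / 8) * Real.exp (-(16 / (c * g ^ 2) * infDist (SBx g ξ y) (V : Set _) ^ 2)) := by
    intro y
    rw [← mul_one (ind _)]
    refine ind_mul_le (by positivity) fun hy => ?_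
    rw [← Real.exp_add]
    refine Real.one_le_exp ?_
    have h9 := pow_le_pow_left₀ infDist_nonneg hy 2
    rw [mul_pow, sq_abs, div_pow, mul_pow, Real.sq_sqrt hn0] at h9
    have h10 := mul_le_mul_of_nonneg_left h9 (by positivity : 0 ≤ 16 / (c * g ^ 2))
    have e2 : 16 / (c * g ^ 2) * (g ^ 2 * (c ^ 2 * n / 12 ^ 2)) = c * n / 9 := by
      field_simp; ring
    have : 0 ≤ c * n := by positivity
    linarith
  rw [pr, div_le_iff₀ (by exact_mod_cast Fintype.card_pos)]
  refine (Finset.sum_le_sum fun y _ => h8 y).trans ?_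
  rw [← Finset.mul_sum]
  refine (mul_le_mul_of_nonneg_left h' (Real.exp_pos _).le).trans ?_
  rw [← mul_assoc, ← Real.exp_nat_mul, ← Real.exp_add]
  simp only [Fintype.card_pi, Fintype.card_bool, Finset.prod_const, Finset.card_univ,
    Nat.cast_pow, Nat.cast_ofNat]
  exact mul_le_mul_of_nonneg_right (Real.exp_le_exp.2 (by linarith)) (by positivity)

end aux

theorem SB {ε : ℝ} (hε : 0 < ε) : ∃ η c : ℝ, 0 < η ∧ η ≤ 1 ∧ 0 < c ∧ ∀ᶠ n : ℕ in atTop,
    ∀ (V : Submodule ℝ (EuclideanSpace ℝ (Fin n))) (σ : EuclideanSpace ℝ (Fin n)),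
      (finrank ℝ V : ℝ) + ε * n ≤ n →
      pr (fun y : Fin n → Bool => Metric.infDist (WithLp.toLp 2 (zr (bz y)) + σ)
        (V : Set (EuclideanSpace ℝ (Fin n))) ≤ √(η * n)) ≤ Real.exp (-(c * n)) := by
  have hm : 0 < min ε 1 := lt_min hε one_pos
  have hm1 : min ε 1 ≤ 1 := min_le_right _ _
  refine ⟨(min ε 1 / 12) ^ 2, min ε 1 / 16, by positivity, by nlinarith, by positivity, ?_⟩
  filter_upwards [(tendsto_natCast_atTop_atTop (R := ℝ)).eventually_ge_atTop (8 / min ε 1)]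
    with n hn V σ hV
  have hn0 : (0 : ℝ) ≤ n := Nat.cast_nonneg n
  have h := SB_real V one_ne_zero σ hm (by
    rw [Fintype.card_fin]; nlinarith [min_le_left ε 1])
  rw [div_le_iff₀ hm] at hn
  rw [Fintype.card_fin] at h
  refine (pr_congr fun y => ?_).trans_le (h.trans (Real.exp_le_exp.2 (by linarith)))
  rw [Real.sqrt_mul (by positivity), Real.sqrt_sq (by positivity), SBx, one_smul, abs_one, one_mul,
    div_mul_eq_mul_div]

end Vale.Agent.P160F
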