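import Vale.Agent.P160F.H
import Vale.Agent.P160F.SB
import Vale.Agent.P160F.Exp

/-! P160F, part Bulk. The bulk of the spectrum. -/

open Finset Matrix Module Filter Topology

noncomputable section

namespace Vale.Agent.P160F

open Vale.Agent.P160

section aux

variable {n : ℕ} {κ : Type} [Fintype κ]

theorem Bulk_step {G : Matrix κ (Fin n) ℤ} (hG : Inj G) {S : Finset (Fin n)} {v : Fin n}
    (hv : v ∉ S) : ht G (co (insert v S)) = ht G (co S) * ds G (co S) (Pi.single v 1) := by
  have hle : co S ≤ co (insert v S) := fun x hx i hi =>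
    hx i fun h => hi (Finset.mem_insert_of_mem h)
  obtain ⟨z, -, -, -, h1, h2⟩ := exists_gen hG hle
    (by rw [dm_co, dm_co, Finset.card_insert_of_notMem hv])
  obtain ⟨a, ha⟩ := h2 (Pi.single v 1) fun i hi => by
    have : i ≠ v := fun h => hi (h ▸ Finset.mem_insert_self _ _)
    simp [zq, this]
  have h3 : (1 : ℤ) = a * z v := by
    have := ha v hv
    simp only [zq, Pi.sub_apply, Pi.single_eq_same, Pi.smul_apply, smul_eq_mul,
      Int.cast_eq_zero] at this
    linarith
  have h4 : |(a : ℝ)| = 1 := by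
    rcases Int.eq_one_or_neg_one_of_mul_eq_one h3.symm with h | h <;> simp [h]
  rw [h1, ds_congr G ha, ds_smul, h4, one_mul]

theorem Bulk_prod {G : Matrix κ (Fin n) ℤ} (hG : Inj G) (d : Fin n → ℝ) (h0 : ∀ v, 0 ≤ d v)
    (S : Finset (Fin n)) (hd : ∀ v ∈ S, d v ≤ ds G (co (S.filter (· < v))) (Pi.single v 1)) :
    ∏ v ∈ S, d v ≤ ht G (co S) := by
  induction S using Finset.induction_on_max with
  | empty => simpa using one_le_ht hG _
  | insert a S ha ih =>
    have hna : a ∉ S := fun h => lt_irrefl _ (ha a h)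
    have e1 : (insert a S).filter (· < a) = S := by
      rw [Finset.filter_insert, if_neg (lt_irrefl a), Finset.filter_true_of_mem ha]
    rw [Finset.prod_insert hna, Bulk_step hG hna, mul_comm]
    refine mul_le_mul (ih fun v hv => ?_) (e1 ▸ hd a (Finset.mem_insert_self _ _)) (h0 a)
      (zero_le_one.trans (one_le_ht hG _))
    have := hd v (Finset.mem_insert_of_mem hv)
    rwa [Finset.filter_insert, if_neg (ha v hv).not_gt] at this

variable (B : Matrix (Fin n) (Fin n) ℤ)

/-- The matrix `B` on top of the identity. -/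
abbrev Bulk_G : Matrix (Fin n ⊕ Fin n) (Fin n) ℤ := fromRows B 1

theorem Bulk_inj : Inj (Bulk_G B) := fun z hz => by
  rw [fromRows_mulVec, one_mulVec] at hz
  exact funext fun i => congrFun hz (Sum.inr i)

theorem Bulk_one {S : Finset (Fin n)} {v : Fin n} (hv : v ∉ S) :
    1 ≤ ds (Bulk_G B) (co S) (Pi.single v 1) := by
  refine (Metric.le_infDist ⟨0, Submodule.zero_mem _⟩).2 fun x hx => ?_
  have h0 : x (Sum.inr v) = 0 := by
    induction hx using Submodule.span_induction with
    | mem x hx =>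
      obtain ⟨z, hz, rfl⟩ := hx
      simpa [ev, zr, zq, fromRows_mulVec] using hz v hv
    | zero => rfl
    | add x y _ _ hx hy => simp [hx, hy]
    | smul a x _ hx => simp [hx]
  refine le_trans ?_ (PiLp.dist_apply_le _ _ (Sum.inr v))
  simp [h0, ev, zr]

theorem Bulk_mono {S T : Finset (Fin n)} (h : S ⊆ T) :
    ht (Bulk_G B) (co S) ≤ ht (Bulk_G B) (co T) := by
  rw [← Finset.sdiff_union_of_subset h]
  induction T \ S using Finset.induction_on with
  | empty => rw [Finset.empty_union]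
  | insert a R _ ih =>
    rw [Finset.insert_union]
    by_cases ha : a ∈ R ∪ S
    · rwa [Finset.insert_eq_of_mem ha]
    · rw [Bulk_step (Bulk_inj B) ha]
      exact ih.trans (le_mul_of_one_le_right (zero_le_one.trans (one_le_ht (Bulk_inj B) _))
        (Bulk_one B ha))

/-- A column as a Euclidean vector. -/
def Bulk_col (i : Fin n) : EuclideanSpace ℝ (Fin n) := WithLp.toLp 2 (zr fun k => B k i)

theorem Bulk_two {S : Finset (Fin n)} (v : Fin n) (V : Submodule ℝ (EuclideanSpace ℝ (Fin n)))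
    (hV : ∀ i ∈ S, Bulk_col B i ∈ V) :
    Metric.infDist (Bulk_col B v) (V : Set _) ≤ ds (Bulk_G B) (co S) (Pi.single v 1) := by
  refine (Metric.le_infDist ⟨0, Submodule.zero_mem _⟩).2 fun x hx => ?_
  have h0 : (WithLp.toLp 2 fun k => x (Sum.inl k)) ∈ V := by
    induction hx using Submodule.span_induction with
    | mem x hx =>
      obtain ⟨z, hz, rfl⟩ := hx
      have e : (WithLp.toLp 2 fun k => ev (Bulk_G B) z (Sum.inl k)) =
          ∑ i, (z i : ℝ) • Bulk_col B i := by
        ext k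
        simp [ev, zr, fromRows_mulVec, Bulk_col, mulVec, dotProduct, mul_comm]
      rw [e]
      refine V.sum_mem fun i _ => ?_
      by_cases hi : i ∈ S
      · exact V.smul_mem _ (hV i hi)
      · have : z i = 0 := by simpa [zq] using hz i hi
        simp [this]
    | zero => exact V.zero_mem
    | add x y _ _ hx hy => exact V.add_mem hx hy
    | smul a x _ hx => exact V.smul_mem a hx
  refine (Metric.infDist_le_dist_of_mem h0).trans ?_
  rw [EuclideanSpace.dist_eq, EuclideanSpace.dist_eq, Fintype.sum_sum_type]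
  refine Real.sqrt_le_sqrt (le_add_of_le_of_nonneg (le_of_eq ?_) (by positivity))
  simp [ev, zr, Bulk_col]

/-- The column with the rows from `v` on deleted. -/
def Bulk_msk (v i : Fin n) : EuclideanSpace ℝ (Fin n) :=
  WithLp.toLp 2 (zr fun k => if k < v then B k i else 0)

/-- The known subspace. -/
def Bulk_V (J : Finset (Fin n)) (v : Fin n) : Submodule ℝ (EuclideanSpace ℝ (Fin n)) :=
  Submodule.span ℝ (Set.range fun i : J =>
    if (i : Fin n) < v then Bulk_msk B v i else EuclideanSpace.single (i : Fin n) (1 : ℝ))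

theorem Bulk_diff {J : Finset (Fin n)} {v : Fin n} (hJ : ∀ k, v ≤ k → k ∈ J) (i : Fin n) :
    Bulk_col B i - Bulk_msk B v i ∈ Bulk_V B J v := by
  have e : Bulk_col B i - Bulk_msk B v i =
      ∑ k, (if k < v then 0 else (B k i : ℝ)) • EuclideanSpace.single k (1 : ℝ) := by
    ext k
    by_cases hk : k < v <;> simp [Bulk_col, Bulk_msk, zr, hk, Pi.single_apply, -ite_smul]
  rw [e]
  refine Submodule.sum_mem _ fun k _ => ?_
  by_cases hk : k < v
  · simp [hk]
  · exact Submodule.smul_mem _ _ (Submodule.subset_span ⟨⟨k, hJ k (not_lt.1 hk)⟩, if_neg hk⟩)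

theorem Bulk_dist {J : Finset (Fin n)} {v : Fin n} (hJ : ∀ k, v ≤ k → k ∈ J) :
    Metric.infDist (Bulk_col B v) (Bulk_V B J v : Set _) =
      Metric.infDist (Bulk_msk B v v) (Bulk_V B J v : Set _) := by
  rw [← SB_shift _ (Bulk_msk B v v) (Bulk_diff B hJ v), add_sub_cancel]

theorem Bulk_det (hB : B.IsSymm) {J : Finset (Fin n)} (hJ : ∀ v ∈ J, ∀ k, v ≤ k → k ∈ J) {θ : ℝ}
    (hθ : 0 ≤ θ) :
    (θ ^ (J.filter fun v => θ < Metric.infDist (Bulk_msk B v v) (Bulk_V B J v : Set _)).card) ^ 2 ≤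
      ((B * B + 1).det : ℝ) := by
  have h := Bulk_prod (Bulk_inj B) (fun v =>
    if θ < Metric.infDist (Bulk_msk B v v) (Bulk_V B J v : Set _) then θ else 1)
    (fun v => by split_ifs <;> positivity) J fun v hv => by
      split_ifs with h
      · rw [← Bulk_dist B (hJ v hv)] at h
        refine h.le.trans (Bulk_two B v _ fun i hi => ?_)
        obtain ⟨hi, hiv⟩ := Finset.mem_filter.1 hi
        have := Submodule.add_mem _ (Bulk_diff B (hJ v hv) i)
          (Submodule.subset_span ⟨⟨i, hi⟩, if_pos hiv⟩ : Bulk_msk B v i ∈ Bulk_V B J v)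
        rwa [sub_add_cancel] at this
      · exact Bulk_one B (by simp)
  rw [Finset.prod_ite, Finset.prod_const, Finset.prod_const_one, mul_one] at h
  have e1 : co (univ : Finset (Fin n)) = ⊤ := eq_top_iff.2 fun x _ i hi => absurd (mem_univ i) hi
  have h2 := h.trans (Bulk_mono B J.subset_univ)
  have h3 := ht_top (Bulk_G B)
  rw [transpose_fromRows, fromCols_mul_fromRows, hB.eq, transpose_one, Matrix.mul_one] at h3
  rw [← h3, ← e1]
  exact pow_le_pow_left₀ (by positivity) h2 2

theorem Bulk_upd (ω : Sym2 (Fin n) → Bool) (y : Fin n → Bool) {u v : Fin n} (h : u ≤ v)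
    {i : Fin n} (hi : i ≠ v) : Bulk_msk (Bm (upd ω v y)) u i = Bulk_msk (Bm ω) u i := by
  unfold Bulk_msk
  congr 2
  refine funext fun k => ?_
  split_ifs with hk
  · exact Bm_upd_of_ne ω v y (hk.trans_le h).ne hi
  · rfl

theorem Bulk_updV (ω : Sym2 (Fin n) → Bool) (y : Fin n → Bool) {u v : Fin n} (h : u ≤ v)
    (J : Finset (Fin n)) : Bulk_V (Bm (upd ω v y)) J u = Bulk_V (Bm ω) J u := by
  unfold Bulk_V
  congr 2
  refine funext fun i => ?_
  split_ifs with hi
  · exact Bulk_upd ω y h (hi.trans_le h).ne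
  · rfl

end aux

theorem BULK : ∀ᶠ n : ℕ in atTop, pr (fun ω : Sym2 (Fin n) → Bool =>
    ((Bm ω * Bm ω + 1).det : ℝ) < (n : ℝ) ^ ((3 : ℝ) / 4 * n)) ≤ (1 / 4) ^ n := by
  classical
  obtain ⟨η, c, hη, -, hc, hS⟩ := SB (ε := 1 / 16) (by norm_num)
  have hT := tendsto_natCast_atTop_atTop (R := ℝ)
  filter_upwards [hS, hT.eventually_ge_atTop (48 / c), eventually_ge_atTop 48,
    ((tendsto_rpow_atTop (y := 1 / 10) (by norm_num)).comp hT).eventually_ge_atTop (1 / η)]
    with n hS hn1 hn2 hn3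
  have hn : (48 : ℝ) ≤ n := by exact_mod_cast hn2
  have hn0 : (0 : ℝ) < n := by linarith
  set f := n / 16 + 1 with hf
  have hf1 : (n : ℝ) / 16 ≤ f := by
    rw [div_le_iff₀ (by norm_num)]; exact_mod_cast (by omega : n ≤ f * 16)
  let J : Finset (Fin n) := Finset.Ici ⟨f, by omega⟩
  have hJ : ∀ v ∈ J, ∀ k, v ≤ k → k ∈ J := fun v hv k hk =>
    Finset.mem_Ici.2 ((Finset.mem_Ici.1 hv).trans hk)
  have hcJ : J.card = n - f := Fin.card_Ici _
  let bad : Fin n → (Sym2 (Fin n) → Bool) → Prop := fun v ω =>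
    Metric.infDist (Bulk_msk (Bm ω) v v) (Bulk_V (Bm ω) J v : Set _) ≤ √(η * n)
  have h := EXP J bad (Real.exp_pos (-(c * n))).le (fun u _ v _ huv ω y => by
    simp only [bad, Bulk_upd ω y huv.le huv.ne, Bulk_updV ω y huv.le]) (fun v hv ω => by
    refine (pr_congr fun y => ?_).trans_le (hS (Bulk_V (Bm ω) J v) 0 ?_)
    · simp only [bad]
      rw [← Bulk_dist _ (hJ v hv), Bulk_updV ω y le_rfl, add_zero, Bulk_col]
      simp only [Bm_upd_col]
    · have h1 : finrank ℝ (Bulk_V (Bm ω) J v) ≤ n - f :=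
        (finrank_range_le_card _).trans (by rw [Fintype.card_coe, hcJ])
      have h2 : (finrank ℝ (Bulk_V (Bm ω) J v) : ℝ) + f ≤ n := by
        exact_mod_cast (by omega : finrank ℝ (Bulk_V (Bm ω) J v) + f ≤ n)
      linarith) f
  refine (pr_mono fun ω hω => ?_).trans (h.trans ?_)
  · by_contra hno
    have h1 : (J.filter fun v => bad v ω).card < f := by
      by_contra h1
      obtain ⟨S, hS, hc⟩ := Finset.exists_subset_card_eq (not_lt.1 h1)
      exact hno ⟨S, hS.trans (Finset.filter_subset _ _), hc,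
        fun v hv => (Finset.mem_filter.1 (hS hv)).2⟩
    have h2 := Finset.card_filter_add_card_filter_not (s := J) fun v => bad v ω
    have h3 := Bulk_det (Bm ω) (Bm_isSymm ω) hJ (Real.sqrt_nonneg (η * n))
    simp only [bad, not_le] at h1 h2
    generalize (J.filter fun v => √(η * n) <
      Metric.infDist (Bulk_msk (Bm ω) v v) (Bulk_V (Bm ω) J v : Set _)).card = e at h2 h3
    have h4 : 5 * (n : ℝ) ≤ 6 * e := by exact_mod_cast (by omega : 5 * n ≤ 6 * e)
    have h5 : (n : ℝ) ^ ((9 : ℝ) / 10) ≤ η * n := by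
      have h6 : (n : ℝ) ^ ((9 : ℝ) / 10) * (n : ℝ) ^ ((1 : ℝ) / 10) = n := by
        rw [← Real.rpow_add hn0]; norm_num
      have h7 : 1 ≤ (n : ℝ) ^ ((1 : ℝ) / 10) * η := (div_le_iff₀ hη).1 hn3
      nlinarith [Real.rpow_nonneg hn0.le ((9 : ℝ) / 10)]
    rw [← pow_mul, mul_comm e, pow_mul, Real.sq_sqrt (by positivity)] at h3
    refine absurd (hω.trans_le' h3) (not_lt.2 (le_trans ?_
      (pow_le_pow_left₀ (by positivity) h5 e)))
    rw [← Real.rpow_natCast, ← Real.rpow_mul hn0.le]
    exact Real.rpow_le_rpow_of_exponent_le (by linarith) (by linarith)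
  · have h1 : Real.exp (-(c * n)) ^ f ≤ (1 / 8) ^ n := by
      rw [← Real.exp_nat_mul, show (f : ℝ) * -(c * n) = n * -(c * f) by ring, Real.exp_nat_mul]
      refine pow_le_pow_left₀ (Real.exp_pos _).le ?_ n
      rw [div_le_iff₀ hc] at hn1
      have h2 : Real.exp 3 = Real.exp 1 ^ 3 := by rw [← Real.exp_nat_mul]; norm_num
      have h3 : (2 : ℝ) ^ 3 ≤ Real.exp 1 ^ 3 :=
        pow_le_pow_left₀ zero_le_two (by linarith [Real.exp_one_gt_d9]) 3
      have h4 : Real.exp 3 ≤ Real.exp (c * f) := Real.exp_le_exp.2 (by nlinarith)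
      rw [Real.exp_neg, one_div]
      exact inv_anti₀ (by norm_num) (by linarith)
    refine (mul_le_mul_of_nonneg_left h1 (by positivity)).trans_eq ?_
    rw [← mul_pow]; norm_num

end Vale.Agent.P160F
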