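import Vale.Agent.P160F.CLog
import Vale.Agent.P160F.CRel

/-! Counting subspaces of small codimension, small height and bounded upper slopes. -/

open Finset Matrix Module

noncomputable section

namespace Vale.Agent.P160F

variable {ι : Type} [Fintype ι] [DecidableEq ι]

omit [Fintype ι] [DecidableEq ι] in
theorem ccnt_ad {U : QS ι} {z w : ι → ℤ} (h : z - w ∈ lat U) : ad U z ≤ ad U w := by
  refine sup_le le_sup_left ((Submodule.span_singleton_le_iff_mem _ _).2 ?_)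
  have e : zq z = zq (z - w) + zq w := funext fun i => by simp [zq]
  rw [e]
  exact Submodule.add_mem_sup h (Submodule.mem_span_singleton_self _)

omit [Fintype ι] [DecidableEq ι] in
theorem ccnt_ad_eq {U : QS ι} {z w : ι → ℤ} (h : (lat U).mkQ z = (lat U).mkQ w) :
    ad U z = ad U w :=
  le_antisymm (ccnt_ad ((Submodule.Quotient.eq _).1 h))
    (ccnt_ad ((Submodule.Quotient.eq _).1 h.symm))

theorem ccnt_child {S : ℝ} (hS : 1 ≤ S) {ρ : ℕ} (hρ : S ^ 2 ≤ ρ) {U A : QS ι} (hUA : U ≤ A)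
    (hU : Up (1 : Matrix ι ι ℤ) S U ⊤) (hd : dm A ≤ dm U + ρ) (k : ℕ) (C : Finset (QS ι))
    (hC : ∀ V ∈ C, U ≤ V ∧ V ≤ A ∧ dm V ≤ dm U + 1 ∧ lh V ≤ lh U + (k + 1)) :
    (C.card : ℝ) ≤ Real.exp ((47 + k) * ρ) := by
  classical
  have h1 : ∀ V ∈ C.erase U, ∃ z, z ∈ lat A ∧ d1 U z ≤ Real.exp (k + 1) ∧ V = ad U z := by
    intro V hV
    obtain ⟨hne, hV⟩ := mem_erase.1 hV
    obtain ⟨a1, a2, a3, a4⟩ := hC V hV
    have a5 : dm U < dm V := Submodule.finrank_lt_finrank_of_lt (lt_of_le_of_ne a1 hne.symm)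
    obtain ⟨z, hz, -, e1, e2, -⟩ := exists_gen (inj_one (ι := ι)) a1 (by omega)
    refine ⟨z, a2 hz, le_of_mul_le_mul_left ?_ (hs_pos U), e1⟩
    rw [← e2]
    change hs V ≤ _
    rw [← exp_lh, ← exp_lh, ← Real.exp_add]
    exact Real.exp_le_exp.2 a4
  choose! z hz using h1
  have hρ1 : (1 : ℝ) ≤ ρ := (one_le_pow₀ hS).trans hρ
  have hd0 := Real.exp_pos ((k : ℝ) + 1)
  have hd1 : 1 ≤ Real.exp ((k : ℝ) + 1) := Real.one_le_exp (by positivity)
  have h2 := rm_rel (inj_one (ι := ι)) (one_pos.trans_le hS) hUA (fun X h _ => hU X h le_top) hd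
    one_pos (Nat.ceil_pos.2 hd0) ((C.erase U).image z) (d := Real.exp (k + 1)) fun w hw => by
      obtain ⟨V, hV, rfl⟩ := mem_image.1 hw
      exact ⟨(hz V hV).1, (hz V hV).2.1⟩
  rw [image_image, card_image_of_injOn (f := (lat U).mkQ ∘ z) fun V hV V' hV' h =>
    (hz V hV).2.2.trans ((ccnt_ad_eq h).trans (hz V' hV').2.2.symm)] at h2
  have h3 : (⌈Real.exp ((k : ℝ) + 1)⌉₊ : ℝ) ≤ Real.exp (k + 2) := by
    have := Real.add_one_le_exp (1 : ℝ)
    rw [show (k : ℝ) + 2 = k + 1 + 1 by ring, Real.exp_add ((k : ℝ) + 1) 1]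
    nlinarith [Nat.ceil_lt_add_one hd0.le]
  have h4 : (2 * Real.exp (k + 1) * S / ⌈Real.exp ((k : ℝ) + 1)⌉₊) ^ 2 ≤ 4 * ρ := by
    refine (pow_le_pow_left₀ (by positivity) (?_ : _ ≤ 2 * S) 2).trans (by nlinarith)
    rw [div_le_iff₀ (hd0.trans_le (Nat.le_ceil _))]
    nlinarith [Nat.le_ceil (Real.exp ((k : ℝ) + 1))]
  have h5 : ((C.erase U).card : ℝ) ≤ Real.exp ((46 + k) * ρ) := by
    refine h2.trans ((mul_le_mul (pow_le_pow_left₀ (by positivity) h3 ρ)
      (Real.exp_le_exp.2 (?_ : _ ≤ 44 * (ρ : ℝ))) (by positivity) (by positivity)).trans_eq ?_)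
    · have := Real.pi_lt_d4
      have := mul_le_mul_of_nonneg_left h4 Real.pi_pos.le
      simp only [one_pow, div_one, mul_one]
      nlinarith
    · rw [← Real.exp_nat_mul, ← Real.exp_add]
      ring_nf
  have h6 : (C.card : ℝ) ≤ (C.erase U).card + 1 := by
    have := pred_card_le_card_erase (s := C) (a := U)
    exact_mod_cast (by omega : C.card ≤ (C.erase U).card + 1)
  have h7 : 1 ≤ Real.exp ((46 + k) * ρ) := Real.one_le_exp (by positivity)
  have h8 := Real.add_one_le_exp (ρ : ℝ)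
  rw [show ((47 : ℝ) + k) * ρ = (46 + k) * ρ + ρ by ring, Real.exp_add]
  nlinarith

theorem ccnt_all {S : ℝ} (hS : 1 ≤ S) {ρ : ℕ} (hρ : S ^ 2 ≤ (ρ + 1 : ℕ)) (e₀ : ℕ) (J : Finset ι) :
    ∀ e ≤ e₀, ∀ C : Finset (QS ι), (∀ P ∈ C, P ≤ co J ∧ Up (1 : Matrix ι ι ℤ) S P ⊤ ∧
      J.card ≤ dm P + ρ ∧ lh P ≤ e) →
      (C.card : ℝ) ≤ ((e₀ + 1) * Real.exp (47 * (ρ + 1 : ℕ))) ^ J.card *
        Real.exp (e * (ρ + 1 : ℕ)) := by
  classical
  induction J using Finset.induction_on with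
  | empty =>
    intro e _ C hC
    have h : C.card ≤ 1 := card_le_one.2 fun P hP Q hQ => by
      have h0 : ∀ P ∈ C, P = ⊥ := fun P hP =>
        eq_bot_iff.2 fun x hx => funext fun i => (hC P hP).1 hx i (notMem_empty i)
      rw [h0 P hP, h0 Q hQ]
    rw [card_empty, pow_zero, one_mul]
    exact (Nat.cast_le_one.2 h).trans (Real.one_le_exp (by positivity))
  | insert j J hj ih =>
    intro e he C hC
    rw [card_insert_of_notMem hj] at hC ⊢
    set D : ℝ := (e₀ + 1) * Real.exp (47 * (ρ + 1 : ℕ)) with hD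
    have hD0 : 0 ≤ D := by positivity
    have h1 : ∀ P ∈ C, ⌈lh (P ⊓ co J)⌉₊ ∈ range (e + 1) := fun P hP =>
      mem_range.2 (Nat.lt_succ_of_le (Nat.ceil_le.2 ((lh_sec P J).trans (hC P hP).2.2.2)))
    rw [card_eq_sum_card_fiberwise h1, Nat.cast_sum]
    refine (sum_le_card_nsmul _ _ (Real.exp (47 * (ρ + 1 : ℕ)) * D ^ J.card *
      Real.exp (e * (ρ + 1 : ℕ))) fun f hf => ?_).trans ?_
    · obtain ⟨k, rfl⟩ := Nat.exists_eq_add_of_le (Nat.lt_succ_iff.1 (mem_range.1 hf))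
      set C' := C.filter fun P => ⌈lh (P ⊓ co J)⌉₊ = f
      have h2 : ∀ P ∈ C', J.card ≤ dm (P ⊓ co J) + ρ := fun P hP => by
        obtain ⟨a1, -, a3, -⟩ := hC P (mem_filter.1 hP).1
        have := clog_dm_succ a1
        omega
      have h3 := ih f (by omega) (C'.image fun P => P ⊓ co J) fun U hU => by
        obtain ⟨P, hP, rfl⟩ := mem_image.1 hU
        exact ⟨inf_le_right, up_sec hS (hC P (mem_filter.1 hP).1).2.1 J, h2 P hP,
          (mem_filter.1 hP).2 ▸ Nat.le_ceil _⟩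
      rw [card_eq_sum_card_image (fun P => P ⊓ co J) C', Nat.cast_sum]
      refine (sum_le_card_nsmul _ _ (Real.exp ((47 + k) * (ρ + 1 : ℕ))) fun U hU => ?_).trans ?_
      · obtain ⟨P, hP, rfl⟩ := mem_image.1 hU
        refine ccnt_child hS hρ (A := co (insert j J))
          (inf_le_right.trans (clog_co_mono (subset_insert j J)))
          (up_sec hS (hC P (mem_filter.1 hP).1).2.1 J) ?_ k _ fun V hV => ?_
        · have := h2 P hP
          rw [dm_co, card_insert_of_notMem hj]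
          omega
        · obtain ⟨hV, e1⟩ := mem_filter.1 hV
          obtain ⟨hV, e2⟩ := mem_filter.1 hV
          obtain ⟨a1, -, -, a4⟩ := hC V hV
          rw [← e1]
          refine ⟨inf_le_left, a1, clog_dm_succ a1, ?_⟩
          have := Nat.ceil_lt_add_one (lh_nonneg (V ⊓ co J))
          rw [e2] at this
          push_cast at a4
          linarith
      · rw [nsmul_eq_mul]
        refine (mul_le_mul_of_nonneg_right h3 (Real.exp_pos _).le).trans_eq ?_
        rw [add_mul, Real.exp_add, Nat.cast_add f k, add_mul, Real.exp_add]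
        ring
    · rw [card_range, nsmul_eq_mul, pow_succ, ← mul_assoc, ← mul_assoc, mul_comm (D ^ J.card)]
      refine mul_le_mul_of_nonneg_right (mul_le_mul_of_nonneg_right
        (mul_le_mul_of_nonneg_right ?_ (Real.exp_pos _).le) (pow_nonneg hD0 _)) (Real.exp_pos _).le
      exact_mod_cast Nat.succ_le_succ he

end Vale.Agent.P160F
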