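import Vale.Agent.P160F.CLog

/-! Existence of the container of a subspace with bounded upper slopes. -/

open Finset Matrix Module

noncomputable section

namespace Vale.Agent.P160F

variable {ι : Type} [Fintype ι] [DecidableEq ι]

theorem cex_le {a c : ℝ} (ha : 0 < a) {T N Y : QS ι} (hN : N ≤ T) (hY : Y ≤ T)
    (hm : ∀ V ≤ T, lh N - 2 * a * dr N ≤ lh V - 2 * a * dr V)
    (hc : ∀ V ≤ T, c ≤ lh V - a * dr V) (h : lh Y - a * dr Y ≤ c + a / 2) : Y ≤ N := by
  have h1 := hm (Y ⊔ N) (sup_le hY hN)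
  have h2 := lh_submod Y N
  have h3 := dr_add Y N
  have h4 := hc (Y ⊓ N) (inf_le_left.trans hY)
  have h5 : a * (dr Y - dr (Y ⊓ N)) ≤ a / 2 := by
    have e : dr (Y ⊔ N) = dr Y + dr N - dr (Y ⊓ N) := by linarith
    rw [e] at h1
    linarith
  have h6 : dr Y < dr (Y ⊓ N) + 1 := by nlinarith
  have h7 : dm Y < dm (Y ⊓ N) + 1 := by
    unfold dr at h6
    exact_mod_cast h6
  exact inf_eq_left.1 (Submodule.eq_of_le_of_finrank_le inf_le_left (Nat.lt_succ_iff.1 h7))

theorem cex_coord (U : QS ι) {F : Finset ι} (hU : U ≤ co F) {j : ι} (hj : j ∉ F) (z : ι → ℤ) :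
    |(z j : ℝ)| ≤ d1 U z := by
  have h1 : ∀ x ∈ rs (1 : Matrix ι ι ℤ) U, x j = 0 := fun x hx => by
    refine Submodule.span_induction (fun _ ⟨w, hw, e⟩ => ?_) rfl (fun x y _ _ hx hy => ?_)
      (fun c x _ hx => ?_) hx
    · have h : (w j : ℚ) = 0 := hU hw j hj
      rw [← e]
      simp only [ev, zr, one_mulVec]
      exact_mod_cast h
    · simp [hx, hy]
    · simp [hx]
  refine (Metric.le_infDist ⟨0, Submodule.zero_mem _⟩).2 fun x hx => ?_
  have h2 := PiLp.norm_apply_le (ev (1 : Matrix ι ι ℤ) z - x) j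
  rw [dist_eq_norm]
  simpa [ev, zr, h1 x hx] using h2

theorem cex_single (U : QS ι) {F : Finset ι} (hU : U ≤ co F) {j : ι} (hj : j ∉ F) (z : ι → ℤ) :
    d1 U (z - z j • Pi.single j 1) ≤ d1 U z := by
  have h1 : ∀ x ∈ rs (1 : Matrix ι ι ℤ) U, x j = 0 := fun x hx => by
    refine Submodule.span_induction (fun _ ⟨w, hw, e⟩ => ?_) rfl (fun x y _ _ hx hy => ?_)
      (fun c x _ hx => ?_) hx
    · have h : (w j : ℚ) = 0 := hU hw j hj
      rw [← e]
      simp only [ev, zr, one_mulVec]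
      exact_mod_cast h
    · simp [hx, hy]
    · simp [hx]
  refine (Metric.le_infDist ⟨0, Submodule.zero_mem _⟩).2 fun x hx => ?_
  refine (Metric.infDist_le_dist_of_mem hx).trans ?_
  rw [EuclideanSpace.dist_eq, EuclideanSpace.dist_eq]
  refine Real.sqrt_le_sqrt (sum_le_sum fun i _ => ?_)
  by_cases e : i = j
  · subst e
    simp [ev, zr, h1 x hx, sq_nonneg]
  · simp [ev, zr, e]

theorem cex_data {K a : ℝ} (hK : 1 ≤ K) (ha : 0 < a) {R : QS ι}
    (hR : Up (1 : Matrix ι ι ℤ) K R ⊤) :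
    ∃ (F : Finset ι) (N : QS ι), N ≤ R ⊓ co F ∧ Up (1 : Matrix ι ι ℤ) K N ⊤ ∧
      (∀ X ≤ N, lh N ≤ lh X + 2 * a * (dr N - dr X)) ∧
      a * dr (R ⊓ co F) ≤ 2 * (Real.log K * Fintype.card ι) ∧
      ∀ j ∉ F, ∃ z ∈ lat (R ⊓ co (insert j F)), z j ≠ 0 ∧ d1 N z ≤ Real.exp (a / 2) := by
  choose X hX hm using fun F : Finset ι => exists_lh_min (R ⊓ co F) a
  obtain ⟨F, -, hF⟩ := exists_max_image (univ : Finset (Finset ι))
    (fun F => lh (X F) - a * dr (X F) + a / 2 * F.card) ⟨∅, mem_univ _⟩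
  obtain ⟨N, hN, hn⟩ := exists_lh_min (R ⊓ co F) (2 * a)
  refine ⟨F, N, hN, up_of_min hK hR hN fun Y h1 h2 => ?_,
    fun Y hY => by linarith [hn Y (hY.trans hN)], ?_, fun j hj => ?_⟩
  · have := mul_nonneg ha.le (sub_nonneg.2 (dr_mono h1))
    linarith [hn Y h2]
  · obtain ⟨I, hI, hc⟩ := clog_compl R
    have h1 := hF I (mem_univ _)
    have e : X I = ⊥ := le_bot_iff.1 (hI ▸ hX I)
    have h2 := hm F _ le_rfl
    have h3 := (lh_sec R F).trans (up_top hK hR)
    have h4 : (F.card : ℝ) ≤ I.card + dr (R ⊓ co F) := by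
      have := clog_card_add R F
      unfold dr
      exact_mod_cast (by omega : F.card ≤ I.card + dm (R ⊓ co F))
    have h5 := mul_le_mul_of_nonneg_left h4 ha.le
    rw [e, lh_bot, dr, clog_dm_bot] at h1
    simp only [Nat.cast_zero] at h1
    linarith
  · have h1 := hF (insert j F) (mem_univ _)
    rw [card_insert_of_notMem hj, Nat.cast_succ] at h1
    have h0 := hX (insert j F)
    generalize X (insert j F) = Y at h1 h0
    have h2 : Y ⊓ co F ≤ R ⊓ co F := inf_le_inf_right _ (h0.trans inf_le_left)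
    have h3 := hm F _ h2
    have h4 := lh_sec Y F
    have h5 : dm Y = dm (Y ⊓ co F) + 1 := by
      refine le_antisymm (clog_dm_succ (h0.trans inf_le_right)) (Nat.succ_le_of_lt ?_)
      refine Submodule.finrank_lt_finrank_of_lt (lt_of_le_of_ne inf_le_left fun e => ?_)
      rw [e] at h3
      linarith
    have h6 : dr Y = dr (Y ⊓ co F) + 1 := by rw [dr, h5, Nat.cast_succ, dr]
    rw [h6] at h1
    have h7 : Y ⊓ co F ≤ N := cex_le ha hN h2 hn (hm F) (by linarith)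
    obtain ⟨z, hz, hz1, -, e, -⟩ := exists_gen (inj_one (ι := ι)) inf_le_left h5
    refine ⟨z, h0 hz, fun h => hz1 ⟨hz, fun i hi => ?_⟩, (ds_anti _ h7 z).trans ?_⟩
    · by_cases e1 : i = j
      · rw [e1, zq, h, Int.cast_zero]
      · exact (h0 hz).2 i (by simp [e1, hi])
    · refine le_of_mul_le_mul_left ?_ (hs_pos (Y ⊓ co F))
      rw [← e]
      change hs Y ≤ _
      rw [← exp_lh, ← exp_lh, ← Real.exp_add]
      exact Real.exp_le_exp.2 (by linarith)

end Vale.Agent.P160F
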