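import Vale.Agent.P160F.H

/-! Logarithmic form of the standard height. -/

open Finset Matrix Module

noncomputable section

namespace Vale.Agent.P160F

variable {ι : Type} [Fintype ι] [DecidableEq ι]

/-- The logarithmic height. -/
def lh (U : QS ι) : ℝ := Real.log (hs U)

/-- The dimension as a real number. -/
def dr (U : QS ι) : ℝ := (dm U : ℝ)

theorem hs_pos (U : QS ι) : 0 < hs U := one_pos.trans_le (one_le_ht inj_one U)

theorem exp_lh (U : QS ι) : Real.exp (lh U) = hs U := Real.exp_log (hs_pos U)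

theorem lh_nonneg (U : QS ι) : 0 ≤ lh U := Real.log_nonneg (one_le_ht inj_one U)

theorem lh_co (F : Finset ι) : lh (co F) = 0 := by rw [lh, hs_co, Real.log_one]

theorem lh_bot : lh (⊥ : QS ι) = 0 := by rw [lh, hs, ht_bot, Real.log_one]

omit [DecidableEq ι] in
theorem clog_co_univ : co (univ : Finset ι) = ⊤ :=
  eq_top_iff.2 fun _ _ i hi => absurd (mem_univ i) hi

omit [Fintype ι] [DecidableEq ι] in
theorem clog_co_mono {F G : Finset ι} (h : F ⊆ G) : co F ≤ co G :=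
  fun _ hx i hi => hx i fun h1 => hi (h h1)

theorem lh_top : lh (⊤ : QS ι) = 0 := clog_co_univ (ι := ι) ▸ lh_co univ

theorem lh_submod (U V : QS ι) : lh (U ⊔ V) + lh (U ⊓ V) ≤ lh U + lh V := by
  rw [lh, lh, lh, lh, ← Real.log_mul (hs_pos _).ne' (hs_pos _).ne',
    ← Real.log_mul (hs_pos _).ne' (hs_pos _).ne']
  exact Real.log_le_log (mul_pos (hs_pos _) (hs_pos _)) (ht_submod inj_one U V)

theorem lh_sec (U : QS ι) (F : Finset ι) : lh (U ⊓ co F) ≤ lh U := by
  have h := lh_submod U (co F)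
  have h1 := lh_nonneg (U ⊔ co F)
  rw [lh_co] at h
  linarith

theorem lh_pp (U : QS ι) : lh (pp U) = lh U := by rw [lh, hs_pp, lh]

omit [DecidableEq ι] in
theorem clog_dm_mono {U V : QS ι} (h : U ≤ V) : dm U ≤ dm V := Submodule.finrank_mono h

omit [DecidableEq ι] in
theorem clog_dm_le (U : QS ι) : dm U ≤ Fintype.card ι :=
  (Submodule.finrank_le U).trans (by simp)

omit [DecidableEq ι] in
theorem clog_dm_top : dm (⊤ : QS ι) = Fintype.card ι := by simp [dm]

omit [Fintype ι] [DecidableEq ι] in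
theorem clog_dm_bot : dm (⊥ : QS ι) = 0 := by simp [dm]

omit [Fintype ι] [DecidableEq ι] in
theorem dr_nonneg (U : QS ι) : 0 ≤ dr U := Nat.cast_nonneg _

omit [DecidableEq ι] in
theorem dr_mono {U V : QS ι} (h : U ≤ V) : dr U ≤ dr V := Nat.cast_le.2 (clog_dm_mono h)

omit [DecidableEq ι] in
theorem dr_add (U V : QS ι) : dr (U ⊔ V) + dr (U ⊓ V) = dr U + dr V := by
  unfold dr
  exact_mod_cast dm_sup_inf U V

omit [DecidableEq ι] in
theorem clog_card_add (P : QS ι) (J : Finset ι) :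
    J.card + dm P ≤ Fintype.card ι + dm (P ⊓ co J) := by
  have h := dm_sup_inf P (co J)
  have h1 := clog_dm_le (P ⊔ co J)
  rw [dm_co] at h
  omega

theorem clog_dm_succ {X : QS ι} {F : Finset ι} {j : ι} (h : X ≤ co (insert j F)) :
    dm X ≤ dm (X ⊓ co F) + 1 := by
  have h1 := dm_sup_inf X (co F)
  have h2 := clog_dm_mono (sup_le h (clog_co_mono (subset_insert j F)))
  have h3 := card_insert_le j F
  rw [dm_co] at h1 h2
  omega

theorem exists_lh_min (T : QS ι) (a : ℝ) :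
    ∃ U ≤ T, ∀ V ≤ T, lh U - a * dr U ≤ lh V - a * dr V := by
  obtain ⟨U, hU, h⟩ := exists_min (inj_one (ι := ι)) (fun U => U ≤ T) ⟨T, le_rfl⟩
    (Real.exp_pos (-a))
  refine ⟨U, hU, fun V hV => Real.exp_le_exp.1 ?_⟩
  have e : ∀ W : QS ι, Real.exp (lh W - a * dr W) = hs W * Real.exp (-a) ^ dm W := fun W => by
    rw [← Real.exp_nat_mul, ← exp_lh, ← Real.exp_add, dr]
    ring_nf
  rw [e, e]
  exact h V hV

theorem clog_iff {S : ℝ} (hS : 0 < S) {U V : QS ι} (h : V ≤ U) (X Y : QS ι) :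
    hs X ≤ S ^ (dm U - dm V) * hs Y ↔ lh X ≤ lh Y + Real.log S * (dr U - dr V) := by
  rw [← Real.exp_le_exp (x := lh X), Real.exp_add, exp_lh, exp_lh, dr, dr, ← Nat.cast_sub (clog_dm_mono h),
    mul_comm (Real.log S), Real.exp_nat_mul, Real.exp_log hS, mul_comm]

theorem up_iff {S : ℝ} (hS : 0 < S) {V A : QS ι} : Up (1 : Matrix ι ι ℤ) S V A ↔
    ∀ U, V ≤ U → U ≤ A → lh V ≤ lh U + Real.log S * (dr U - dr V) :=
  forall_congr' fun _ => forall_congr' fun h => forall_congr' fun _ => clog_iff hS h _ _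

theorem dn_iff {S : ℝ} (hS : 0 < S) {W : QS ι} : Dn (1 : Matrix ι ι ℤ) S W ↔
    ∀ X, X ≤ W → lh W ≤ lh X + Real.log S * (dr W - dr X) :=
  forall_congr' fun _ => forall_congr' fun h => clog_iff hS h _ _

theorem up_of_min {S : ℝ} (hS : 1 ≤ S) {R N : QS ι} (h : Up (1 : Matrix ι ι ℤ) S R ⊤)
    {F : Finset ι} (hN : N ≤ R ⊓ co F) (hm : ∀ X, N ≤ X → X ≤ R ⊓ co F → lh N ≤ lh X) :
    Up (1 : Matrix ι ι ℤ) S N ⊤ := by
  rw [up_iff (one_pos.trans_le hS)] at h ⊢
  intro X hX _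
  have h1 := lh_submod X R
  have h2 := h (X ⊔ R) le_sup_right le_top
  have h3 := dr_add X R
  have h4 := lh_sec (X ⊓ R) F
  have h5 := hm (X ⊓ R ⊓ co F) (le_inf (le_inf hX (hN.trans inf_le_left)) (hN.trans inf_le_right))
    (inf_le_inf_right _ inf_le_right)
  have h6 := mul_le_mul_of_nonneg_left (dr_mono (le_inf hX (hN.trans inf_le_left)))
    (Real.log_nonneg hS)
  have e : dr (X ⊔ R) - dr R = dr X - dr (X ⊓ R) := by linarith
  rw [e] at h2
  linarith

theorem up_sec {S : ℝ} (hS : 1 ≤ S) {R : QS ι} (h : Up (1 : Matrix ι ι ℤ) S R ⊤) (F : Finset ι) :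
    Up (1 : Matrix ι ι ℤ) S (R ⊓ co F) ⊤ :=
  up_of_min hS h le_rfl fun _ h1 h2 => (le_antisymm h1 h2) ▸ le_rfl

theorem up_top {S : ℝ} (hS : 1 ≤ S) {R : QS ι} (h : Up (1 : Matrix ι ι ℤ) S R ⊤) :
    lh R ≤ Real.log S * Fintype.card ι := by
  have h1 := (up_iff (one_pos.trans_le hS)).1 h ⊤ le_top le_top
  have h2 := mul_nonneg (Real.log_nonneg hS) (dr_nonneg R)
  rw [lh_top, dr, clog_dm_top] at h1
  linarith

theorem clog_compl (R : QS ι) : ∃ I : Finset ι, R ⊓ co I = ⊥ ∧ I.card + dm R = Fintype.card ι := by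
  obtain ⟨I, hI, h⟩ := exists_info R
  refine ⟨Iᶜ, eq_bot_iff.2 fun x hx => h x hx.1 fun i hi => hx.2 i (by simpa using hi), ?_⟩
  rw [dm, ← hI, add_comm, card_add_card_compl]

end Vale.Agent.P160F
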