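import Vale.Agent.P160F.CEx

/-! P160F, part Cont. Existence of containers. -/

open Finset Matrix Module Filter Topology

noncomputable section

namespace Vale.Agent.P160F

open Vale.Agent.P160

variable {ι : Type} [Fintype ι] [DecidableEq ι]

theorem cont_pos {R N : QS ι} {F : Finset ι} {j : ι} {b : ℝ}
    (h : ∃ z ∈ lat (R ⊓ co (insert j F)), z j ≠ 0 ∧ d1 N z ≤ b) :
    ∃ z ∈ lat (R ⊓ co (insert j F)), 1 ≤ z j ∧ d1 N z ≤ b := by
  obtain ⟨z, hz, h0, hd⟩ := h
  rcases lt_or_gt_of_ne h0 with h1 | h1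
  · refine ⟨(-1 : ℤ) • z, Submodule.smul_mem _ _ hz, by simp; omega, ?_⟩
    rw [d1, ds_smul]
    simpa using hd
  · exact ⟨z, hz, h1, hd⟩

theorem CONT {K β : ℝ} (hK : 1 ≤ K) (hβ : 1 < β) {ρ : ℕ} (hρ : K ^ Fintype.card ι < β ^ (ρ + 1))
    {W : QS ι} (hW : Dn (1 : Matrix ι ι ℤ) K W) :
    ∃ F N₀ N, Cont K β ρ F N₀ N ∧ N₀ ≤ pp W ∧ (∀ j, N j ≤ pp W) ∧ dm W ≤ F.card ∧
      F.card ≤ dm W + ρ := by
  have hb := Real.log_pos hβ
  have hβ0 : 0 < β := by linarith
  have hK0 : 0 < K := by linarith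
  obtain ⟨F, N, hN, h1, h2, h3, h4⟩ := cex_data hK (a := 2 * Real.log β) (by linarith) hW.up_pp
  rw [mul_div_cancel_left₀ _ two_ne_zero, Real.exp_log hβ0] at h4
  choose! z hz hz1 hz2 using fun j hj => cont_pos (h4 j hj)
  have hNF : N ≤ co F := hN.trans inf_le_right
  have h5 : dm (pp W ⊓ co F) ≤ ρ := by
    have e := Real.log_lt_log (pow_pos hK0 _) hρ
    rw [Real.log_pow, Real.log_pow] at e
    have e1 : dr (pp W ⊓ co F) < ((ρ + 1 : ℕ) : ℝ) := by
      refine lt_of_mul_lt_mul_left ?_ hb.le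
      linarith
    exact Nat.lt_succ_iff.1 (Nat.cast_lt.1 e1)
  refine ⟨F, N, fun j => if j ∈ F then N else ad N (z j), ⟨hNF, (clog_dm_mono hN).trans h5, ?_, ?_,
    fun U h _ => h1 U h le_top, fun j hj => if_pos hj, fun j hj => ?_⟩, hN.trans inf_le_left,
    fun j => ?_, ?_, ?_⟩
  · rw [← exp_lh, ← Real.exp_log hK0, ← Real.exp_nat_mul, mul_comm]
    exact Real.exp_le_exp.2 (up_top hK h1)
  · refine (dn_iff (pow_pos hβ0 4)).2 fun X hX => (h2 X hX).trans_eq ?_
    rw [Real.log_pow]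
    push_cast
    ring
  · refine ⟨z j j, z j - z j j • Pi.single j 1, hz1 j hj,
      (le_abs_self _).trans ((cex_coord N hNF hj _).trans (hz2 j hj)), fun i hi => ?_,
      (cex_single N hNF hj _).trans (hz2 j hj), by rw [if_neg hj, add_sub_cancel]⟩
    by_cases e : i = j
    · simp [zq, e]
    · have := (hz j hj).2 i (by simp [e, hi])
      simpa [zq, e] using this
  · beta_reduce
    split_ifs with hj
    · exact hN.trans inf_le_left
    · exact sup_le (hN.trans inf_le_left)
        ((Submodule.span_singleton_le_iff_mem _ _).2 (hz j hj).1)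
  · have e : W ⊓ co Fᶜ = ⊥ := eq_bot_iff.2 fun w hw => funext fun j => by
      by_cases hj : j ∈ F
      · exact hw.2 j (by simpa using hj)
      · have e1 := (hz j hj).1 w hw.1
        rw [dotProduct, sum_eq_single j (fun i _ hi => ?_) (by simp)] at e1
        · refine (mul_eq_zero.1 e1).resolve_right ?_
          have := hz1 j hj
          rw [zq, Int.cast_eq_zero]
          omega
        · by_cases hi1 : i ∈ F
          · rw [hw.2 i (by simpa using hi1), zero_mul]
          · rw [(hz j hj).2 i (by simp [hi, hi1]), mul_zero]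
    have e1 := clog_card_add W Fᶜ
    have e2 := card_add_card_compl F
    rw [e, clog_dm_bot] at e1
    omega
  · have e1 := clog_card_add (pp W) F
    have e2 := dm_pp W
    omega

end Vale.Agent.P160F
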