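import Vale.Agent.P160F.SPrime

/-! P160F, side cases: the family of lattices. -/

open Finset Matrix

namespace Vale.Agent.P160F

variable {ι : Type} [Fintype ι] [DecidableEq ι]

theorem s_fam {B : Matrix ι ι ℤ} (hB : B.IsSymm) (hD : B.det ≠ 0) {r m : ℕ} (hr : 0 < r)
    (hω : B.det.natAbs.primeFactors.card ≤ r * m) :
    ∃ F : Finset (AddSubgroup (ι → ℤ)), F.card ≤ r * 4 ^ m ∧ (∀ L ∈ F, ∀ y, B *ᵥ y ∈ L) ∧
      ∀ (x : ι → ℤ) (U : Finset ℕ), U ⊆ B.det.natAbs.primeFactors → (∀ p ∈ U, Us B p x) →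
        ∃ L ∈ F, x ∈ L ∧
          ∏ p ∈ U, p ^ B.det.natAbs.factorization p ≤ (2 ^ m * L.index) ^ (10 * r) := by
  classical
  set P := B.det.natAbs.primeFactors with hP
  set E := B.det.natAbs.factorization with hE
  have hpr : ∀ p : P, (p : ℕ).Prime := fun p => Nat.prime_of_mem_primeFactors p.2
  choose L hL hU using fun p : P => prime_fam hB hD (hpr p)
  obtain ⟨e⟩ : Nonempty (P ↪ Fin r × Fin m) :=
    Function.Embedding.nonempty_of_card_le (by simpa using hω)
  let G : Fin r × (Fin m → Option (Fin 3)) → AddSubgroup (ι → ℤ) := fun g =>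
    ⨅ (p : P) (k : Fin 3) (_ : (e p).1 = g.1 ∧ g.2 (e p).2 = some k), L p k
  have hG : ∀ g y, B *ᵥ y ∈ G g := fun g y => by
    simp only [G, AddSubgroup.mem_iInf]
    exact fun p k _ => (hL p k).1 y
  refine ⟨univ.image G, card_image_le.trans (by simp), fun L hL => ?_, fun x U hUP hx => ?_⟩
  · obtain ⟨g, -, rfl⟩ := mem_image.1 hL
    exact hG g
  let U' : Finset P := univ.filter fun p => (p : ℕ) ∈ U
  have hk : ∀ p : P, ∃ k, (p : ℕ) ∈ U → x ∈ L p k := fun p => by
    by_cases h : (p : ℕ) ∈ U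
    · obtain ⟨k, hk⟩ := hU p x (hx p h)
      exact ⟨k, fun _ => hk⟩
    · exact ⟨0, fun h' => absurd h' h⟩
  choose k hk using hk
  let W : Fin r → ℕ := fun c => ∏ p ∈ U' with (e p).1 = c, (p : ℕ) ^ E p
  have : Nonempty (Fin r) := ⟨⟨0, hr⟩⟩
  obtain ⟨c, -, hc⟩ := exists_max_image univ W univ_nonempty
  have h1 : ∏ p ∈ U, p ^ E p ≤ W c ^ r := by
    have h2 : ∏ p ∈ U, p ^ E p = ∏ p ∈ U', (p : ℕ) ^ E p := by
      rw [prod_filter, prod_coe_sort P fun p => if p ∈ U then p ^ E p else 1, ← prod_filter,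
        filter_mem_eq_inter, inter_eq_right.2 hUP]
    rw [h2, ← prod_fiberwise U' fun p => (e p).1]
    exact (prod_le_pow_card _ _ _ hc).trans_eq (by simp)
  let f : Fin m → Option (Fin 3) := fun j =>
    if h : ∃ p ∈ U', e p = (c, j) then some (k h.choose) else none
  have hf : ∀ p ∈ U', (e p).1 = c → f (e p).2 = some (k p) := fun p hp h => by
    have h2 : ∃ q ∈ U', e q = (c, (e p).2) := ⟨p, hp, Prod.ext h rfl⟩
    have h3 : h2.choose = p := e.injective (h2.choose_spec.2.trans (Prod.ext h.symm rfl))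
    simp only [f, dif_pos h2, h3]
  have hxG : x ∈ G (c, f) := by
    simp only [G, AddSubgroup.mem_iInf]
    rintro p k' ⟨h2, h3⟩
    have h4 : p ∈ U' := by
      by_contra h4
      have h5 : ¬∃ q ∈ U', e q = (c, (e p).2) := fun ⟨q, hq, h5⟩ =>
        h4 (e.injective (h5.trans (Prod.ext h2.symm rfl)) ▸ hq)
      have h6 : f (e p).2 = none := dif_neg h5
      exact Option.some_ne_none _ (h3.symm.trans h6)
    exact Option.some.inj ((hf p h4 h2).symm.trans h3) ▸ hk p (mem_filter.1 h4).2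
  refine ⟨G (c, f), mem_image_of_mem _ (mem_univ _), hxG, h1.trans ?_⟩
  rw [pow_mul]
  refine Nat.pow_le_pow_left ?_ r
  choose a ha hb using fun p : P => (hL p (k p)).2
  set V := U'.filter fun p => (e p).1 = c with hV
  have h2 : ∏ p ∈ V, (p : ℕ) ^ a p ∣ (G (c, f)).index := by
    rw [← Int.natCast_dvd_natCast, Nat.cast_prod]
    refine Finset.prod_dvd_of_coprime (fun p _ q _ hpq => ?_) fun p hp => ?_
    · exact Nat.isCoprime_iff_coprime.2
        (Nat.coprime_pow_primes _ _ (hpr p) (hpr q) fun h => hpq (Subtype.ext h))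
    · refine Int.natCast_dvd_natCast.2 ((ha p).trans (AddSubgroup.index_dvd_of_le ?_))
      obtain ⟨h3, h4⟩ := mem_filter.1 hp
      exact iInf_le_of_le p (iInf_le_of_le (k p) (iInf_le _ ⟨h4, hf p h3 h4⟩))
  have h3 : (G (c, f)).index ≠ 0 := fun h =>
    Int.natAbs_ne_zero.2 hD (Nat.eq_zero_of_zero_dvd (h ▸ s_index_dvd hD (hG (c, f))))
  have h4 : V.card ≤ m := by
    refine (card_le_card_of_injOn (fun p => (e p).2) (fun _ _ => mem_coe.2 (mem_univ _))
      fun p hp q hq h => e.injective (Prod.ext ?_ h)).trans_eq (card_fin m)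
    exact (mem_filter.1 hp).2.trans (mem_filter.1 hq).2.symm
  calc W c ≤ ∏ p ∈ V, (2 * (p : ℕ) ^ a p) ^ 10 := prod_le_prod' fun p _ => hb p
    _ = (2 ^ V.card * ∏ p ∈ V, (p : ℕ) ^ a p) ^ 10 := by rw [prod_pow, prod_mul_distrib, prod_const]
    _ ≤ _ := Nat.pow_le_pow_left (Nat.mul_le_mul (Nat.pow_le_pow_right two_pos h4)
      (Nat.le_of_dvd (Nat.pos_of_ne_zero h3) h2)) 10

theorem s_factorial_le (S : Finset ℕ) (h : ∀ x ∈ S, 0 < x) : S.card.factorial ≤ ∏ x ∈ S, x := by
  induction S using Finset.induction_on_max with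
  | empty => simp
  | insert a s ha ih =>
    have h1 : a ∉ s := fun h => lt_irrefl _ (ha a h)
    rw [card_insert_of_notMem h1, prod_insert h1, Nat.factorial_succ]
    refine Nat.mul_le_mul ?_ (ih fun x hx => h x (mem_insert_of_mem hx))
    have h2 : s.card ≤ (Ioo 0 a).card :=
      card_le_card fun x hx => mem_Ioo.2 ⟨h x (mem_insert_of_mem hx), ha x hx⟩
    have h3 := h a (mem_insert_self _ _)
    rw [Nat.card_Ioo] at h2
    omega

theorem s_omega {B : Matrix ι ι ℤ} (h1 : ∀ i j, |B i j| ≤ 1) (hD : B.det ≠ 0)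
    (hn : 0 < Fintype.card ι) : B.det.natAbs.primeFactors.card ≤ Fintype.card ι := by
  have h2 : |B.det| ≤ (Fintype.card ι).factorial := by
    simpa using Matrix.det_le (A := B) (abv := AbsoluteValue.abs) (x := 1) h1
  have h3 : B.det.natAbs ≤ (Fintype.card ι).factorial := by
    rw [← Int.natCast_natAbs] at h2
    exact_mod_cast h2
  have h4 := (s_factorial_le B.det.natAbs.primeFactors fun x hx =>
    (Nat.prime_of_mem_primeFactors hx).pos).trans
      ((Nat.le_of_dvd (Int.natAbs_pos.2 hD) (Nat.prod_primeFactors_dvd _)).trans h3)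
  by_contra h5
  exact absurd h4 (not_le.2 ((Nat.factorial_lt hn).2 (not_le.1 h5)))

end Vale.Agent.P160F
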