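import Vale.Agent.P160F.SCase
import Vale.Agent.P160F.SFam

/-! P160F, part Side. The arithmetic side cases. -/

open Finset Matrix Module Filter Topology

noncomputable section

namespace Vale.Agent.P160F

open Vale.Agent.P160

theorem side_card {ε : ℝ} (hε : 0 < ε) : ∃ r : ℕ, 0 < r ∧ ∀ᶠ n : ℕ in atTop,
    ((r * 4 ^ (n / r + 1) : ℕ) : ℝ) ≤ 2 ^ (ε * n) := by
  obtain ⟨r, hr⟩ := exists_nat_gt (4 / ε)
  have h0 : (0 : ℝ) < r := (by positivity : 0 < 4 / ε).trans hr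
  refine ⟨r, Nat.cast_pos.1 h0, ?_⟩
  filter_upwards [(tendsto_natCast_atTop_atTop (R := ℝ)).eventually_ge_atTop (2 * (r + 2) / ε)]
    with n hn
  have h1 : ((n / r : ℕ) : ℝ) ≤ ε * n / 4 := by
    refine Nat.cast_div_le.trans ?_
    rw [div_lt_iff₀ hε] at hr
    rw [div_le_iff₀ h0]
    nlinarith [Nat.cast_nonneg (α := ℝ) n]
  rw [div_le_iff₀ hε] at hn
  have h2 : r * 4 ^ (n / r + 1) ≤ 2 ^ (r + 2 * (n / r + 1)) := by
    rw [pow_add 2, pow_mul]
    exact Nat.mul_le_mul_right _ Nat.lt_two_pow_self.le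
  calc ((r * 4 ^ (n / r + 1) : ℕ) : ℝ) ≤ (2 : ℝ) ^ ((r + 2 * (n / r + 1) : ℕ) : ℝ) := by
        rw [Real.rpow_natCast]; exact_mod_cast h2
    _ ≤ _ := by
      refine Real.rpow_le_rpow_of_exponent_le one_le_two ?_
      push_cast
      linarith

theorem side_idx {c : ℝ} (hc : 0 < c) : ∀ᶠ n : ℕ in atTop, ∀ (r m N : ℕ), 0 < r → m ≤ n + 1 →
    (n : ℝ) ^ (2 * c * n * (10 * r : ℕ)) ≤ ((2 ^ m * N) ^ (10 * r) : ℕ) → (n : ℝ) ^ (c * n) ≤ N := by
  filter_upwards [((tendsto_rpow_atTop hc).comp tendsto_natCast_atTop_atTop).eventually_ge_atTop 4,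
    eventually_ge_atTop 1] with n h4 hn r m N hr hm h
  have h0 : (0 : ℝ) < n := Nat.cast_pos.2 hn
  rw [Real.rpow_mul h0.le, Real.rpow_natCast, Nat.cast_pow,
    pow_le_pow_iff_left₀ (by positivity) (by positivity) (by omega), mul_assoc, two_mul,
    Real.rpow_add h0] at h
  have h1 : (2 : ℝ) ^ m ≤ (n : ℝ) ^ (c * n) := by
    rw [Real.rpow_mul h0.le, Real.rpow_natCast]
    calc (2 : ℝ) ^ m ≤ 2 ^ (2 * n) := pow_le_pow_right₀ one_le_two (by omega)
      _ = 4 ^ n := by rw [pow_mul]; norm_num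
      _ ≤ _ := pow_le_pow_left₀ (by norm_num) h4 n
  push_cast at h
  refine le_of_mul_le_mul_left (h.trans ?_) (Real.rpow_pos_of_pos h0 (c * n))
  exact mul_le_mul_of_nonneg_right h1 (Nat.cast_nonneg _)

theorem SIDE {ε η : ℝ} (hε : 0 < ε) (hη : 0 < η) : ∃ c : ℝ, 0 < c ∧ ∀ᶠ n : ℕ in atTop,
    ∃ Fam : Matrix (Fin n) (Fin n) ℤ → Finset (Submodule ℤ (Fin n → ℤ)),
      (∀ B, ((Fam B).card : ℝ) ≤ 2 ^ (ε * n) ∧ ∀ L ∈ Fam B, Big B L false ((n : ℝ) ^ (c * n))) ∧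
      ∀ A : Matrix (Fin (n + 1)) (Fin (n + 1)) ℤ, A.IsSymm → (∀ i j, |A i j| ≤ 1) → Cork A →
        ¬Sparse A η → ∃ i, (del A i).det ≠ 0 ∧
          ((∃ L ∈ Fam (del A i), (fun j => A (i.succAbove j) i) ∈ L) ∨
            (((del A i).det : ℝ) ^ 4 ≤ (n : ℝ) ^ n ∧
              ∀ j, |((del A i).adjugate *ᵥ fun j => A (i.succAbove j) i) j| ≤ |(del A i).det|)) := by
  classical
  obtain ⟨r, hr, hcard⟩ := side_card hε
  have hr' : (0 : ℝ) < r := Nat.cast_pos.2 hr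
  set η' := min η 1 with hη'
  have h0 : 0 < η' := lt_min hη one_pos
  have hc : 0 < η' / (880 * r) := by positivity
  refine ⟨η' / (880 * r), hc, ?_⟩
  filter_upwards [hcard, side_idx hc, eventually_ge_atTop 2] with n hn hidx h2
  have hn1 : (1 : ℝ) < n := by exact_mod_cast h2
  set X := (n : ℝ) ^ (η' / (880 * r) * n) with hX
  let Q : Matrix (Fin n) (Fin n) ℤ → Prop := fun B =>
    B.IsSymm ∧ B.det ≠ 0 ∧ B.det.natAbs.primeFactors.card ≤ r * (n / r + 1)
  choose F hF1 hF2 hF3 using fun (B : Matrix (Fin n) (Fin n) ℤ) (h : Q B) => s_fam h.1 h.2.1 hr h.2.2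
  refine ⟨fun B => if h : Q B then ((F B h).image AddSubgroup.toIntSubmodule).filter
    fun L => Big B L false X else ∅, fun B => ?_, fun A hA h1 hC hS => ?_⟩
  · by_cases h : Q B
    · simp only [dif_pos h]
      refine ⟨le_trans ?_ hn, fun L hL => (mem_filter.1 hL).2⟩
      exact Nat.cast_le.2 ((card_filter_le _ _).trans (card_image_le.trans (hF1 B h)))
    · simp only [dif_neg h]
      exact ⟨by rw [card_empty, Nat.cast_zero]; positivity, fun L hL => absurd hL (notMem_empty _)⟩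
  have hΛ : 1 < (n : ℝ) ^ ((n : ℝ) / 44) := Real.one_lt_rpow hn1 (by positivity)
  obtain ⟨i, hD, h⟩ := s_case hA hC h0 (min_le_right _ _) (fun ⟨p, v, a, b, c, d⟩ =>
    hS ⟨p, v, a, b, c, d.trans_le (by gcongr; exact min_le_left _ _)⟩) hΛ
  refine ⟨i, hD, ?_⟩
  rcases h with ⟨U, hU, hx, hle⟩ | h
  · left
    have hQ : Q (del A i) := ⟨hA.submatrix _, hD, (s_omega (fun _ _ => h1 _ _) hD
      (by rw [Fintype.card_fin]; omega)).trans (by
        rw [Fintype.card_fin]; exact (Nat.lt_mul_div_succ n hr).le)⟩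
    obtain ⟨L, hL, hxL, h3⟩ := hF3 _ hQ _ U hU hx
    have h4 : X ≤ L.index := hidx r _ _ hr (Nat.add_le_add_right (Nat.div_le_self _ _) 1) (by
      refine le_trans (le_of_eq ?_) (hle.trans (Nat.cast_le.2 h3))
      rw [← Real.rpow_mul (by positivity)]
      congr 1
      push_cast
      field_simp
      ring)
    refine ⟨AddSubgroup.toIntSubmodule L, ?_, hxL⟩
    simp only [dif_pos hQ]
    refine mem_filter.2 ⟨mem_image_of_mem _ hL, hF2 _ hQ L hL, ?_⟩
    rw [if_neg Bool.false_ne_true, add_zero, det_mul, Int.cast_mul, ← sq]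
    refine mul_le_mul_of_nonneg_right ?_ (sq_nonneg _)
    exact pow_le_pow_left₀ (by positivity) h4 2
  · refine .inr ⟨?_, h.2⟩
    have h3 := pow_le_pow_left₀ (Nat.cast_nonneg _) h.1 4
    rw [← pow_mul, ← Real.rpow_natCast _ (11 * 4), ← Real.rpow_mul (by positivity),
      Nat.cast_natAbs, Int.cast_abs, (by norm_num : Even 4).pow_abs] at h3
    rw [← Real.rpow_natCast (n : ℝ) n]
    refine h3.trans (le_of_eq ?_)
    congr 1
    push_cast
    ring

end Vale.Agent.P160F
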