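import Vale.Agent.P160F.TRectD

/-! A sparse kernel vector modulo a prime is explained by few rows.
Hint: `T` = support of `v` modulo `p`; for every `i`, `p ∣ ∑ j ∈ T, A i j * v j`.
Step 1 (any field `K`): among vectors `a i : T → K`, `i ∈ Tᶜ`, there is `R ⊆ Tᶜ`, `R.card ≤ T.card`,
whose span contains all `a i` (`exists_linearIndepOn_extension` or `exists_linearIndependent'`,
`LinearIndependent.fintype_card_le_finrank`). Use it for `K = ℚ` (`R₀`) and `K = ZMod p` (`R₁`),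
`R = R₀ ∪ R₁`; then every row outside `T` is in `Dbl A T R 0` and in `Dbl A T R p`.
Step 2: if `gm A T R = 0` there is an integer `u ≠ 0` on `T` with `G u = 0`, so
`∑ i ∈ R, (a i ⬝ u) ^ 2 = 0` and `Prp A T R 0` (take `q = 0`, `zero_dvd_iff`).
Otherwise `G v = 0` modulo `p` with `v ≠ 0` modulo `p`, so `p ∣ gm` (multiply by the adjugate), `q = p`. -/

open Finset Matrix

namespace Vale.Agent.P160F

theorem TRect_cast {N : ℕ} (T : Finset (Fin N)) (K : Type) [Field K] (q : ℕ) [CharP K q]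
    (x u : Fin N → ℤ) : (q : ℤ) ∣ ∑ j ∈ T, x j * u j ↔ ∑ j : T, (x j : K) * u j = 0 := by
  rw [← CharP.intCast_eq_zero_iff K q, ← Finset.sum_coe_sort]
  push_cast
  rfl

theorem TRect_rows {N : ℕ} (A : Matrix (Fin N) (Fin N) ℤ) (T : Finset (Fin N)) (K : Type) [Field K]
    (q : ℕ) [CharP K q] : ∃ R : Finset (Fin N), R.card ≤ T.card ∧ Disjoint R T ∧
      ∀ R', R ⊆ R' → ∀ i, i ∉ T → Dbl A T R' q (A i) := by
  classical
  obtain ⟨b, hb, -, hs, hl⟩ := exists_linearIndepOn_extension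
    (linearIndepOn_empty K fun i (j : T) => (A i j : K)) (Set.empty_subset (T : Set (Fin N))ᶜ)
  refine ⟨b.toFinset, ?_, Finset.disjoint_left.2 fun i hi => hb (Set.mem_toFinset.1 hi),
    fun R' hR i hi u hu => ?_⟩
  · simpa using LinearIndependent.fintype_card_le_finrank hl
  have h1 : Submodule.span K ((fun i (j : T) => (A i j : K)) '' b) ≤
      LinearMap.ker (Fintype.linearCombination K fun j : T => (u j : K)) := by
    rw [Submodule.span_le]
    rintro _ ⟨k, hk, rfl⟩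
    exact (TRect_cast T K q _ _).1 (hu k (hR (Set.mem_toFinset.2 hk)))
  exact (TRect_cast T K q _ _).2 (h1 (hs ⟨i, hi, rfl⟩))

theorem TRect_zero {N : ℕ} {A : Matrix (Fin N) (Fin N) ℤ} {T R : Finset (Fin N)}
    (h : gm A T R = 0) : Prp A T R 0 := by
  obtain ⟨u, hu, h1⟩ := Matrix.exists_mulVec_eq_zero_iff.2 h
  have h2 : ∑ i ∈ R, (∑ a : T, A i a * u a) ^ 2 = 0 := by
    have h3 : u ⬝ᵥ (Matrix.of fun a b : T => ∑ i ∈ R, A i a * A i b) *ᵥ u = 0 := by
      rw [h1, dotProduct_zero]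
    rw [← h3]
    simp only [sq, Finset.sum_mul_sum, dotProduct, mulVec, of_apply, Finset.sum_mul, Finset.mul_sum]
    rw [Finset.sum_comm]
    refine Finset.sum_congr rfl fun a _ => ?_
    rw [Finset.sum_comm]
    exact Finset.sum_congr rfl fun b _ => Finset.sum_congr rfl fun i _ => by ring
  obtain ⟨a, ha⟩ := Function.ne_iff.1 hu
  refine ⟨fun j => if hj : j ∈ T then u ⟨j, hj⟩ else 0, fun i hi => ?_, a, a.2, by simpa using ha⟩
  have h4 := (Finset.sum_eq_zero_iff_of_nonneg fun i _ => sq_nonneg _).1 h2 i hi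
  rw [Nat.cast_zero, zero_dvd_iff, ← Finset.sum_coe_sort]
  simpa using h4

theorem TRect_dvd {N : ℕ} {A : Matrix (Fin N) (Fin N) ℤ} {T R : Finset (Fin N)} {p : ℕ}
    [Fact p.Prime] (h : Prp A T R p) : (p : ℤ) ∣ gm A T R := by
  obtain ⟨u, hu, j, hj, h1⟩ := h
  rw [← ZMod.intCast_zmod_eq_zero_iff_dvd, gm, Int.cast_det, ← Matrix.exists_mulVec_eq_zero_iff]
  refine ⟨fun a => (u a : ZMod p), Function.ne_iff.2 ⟨⟨j, hj⟩, fun h0 =>
    h1 ((ZMod.intCast_zmod_eq_zero_iff_dvd _ _).1 h0)⟩, funext fun a => ?_⟩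
  simp only [mulVec, dotProduct, map_apply, of_apply, Int.cast_sum, Int.cast_mul, Finset.sum_mul,
    mul_assoc, Pi.zero_apply]
  rw [Finset.sum_comm]
  refine Finset.sum_eq_zero fun i hi => ?_
  rw [← Finset.mul_sum, (TRect_cast T (ZMod p) p _ _).1 (hu i hi), mul_zero]

theorem rect_of_sparse {N : ℕ} (A : Matrix (Fin N) (Fin N) ℤ) {η : ℝ} (h : Sparse A η) :
    ∃ T R : Finset (Fin N), (T.card : ℝ) ≤ η * N ∧ R.card ≤ 2 * T.card ∧ Disjoint R T ∧
      Rect A T R := by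
  obtain ⟨p, v, hp, ⟨j, hj⟩, hv, hc⟩ := h
  have := Fact.mk hp
  obtain ⟨T, hT⟩ : ∃ T, T = univ.filter fun i => ¬(p : ℤ) ∣ v i := ⟨_, rfl⟩
  obtain ⟨R₀, h1, h2, h3⟩ := TRect_rows A T ℚ 0
  obtain ⟨R₁, h4, h5, h6⟩ := TRect_rows A T (ZMod p) p
  rw [← hT, Fintype.card_fin] at hc
  refine ⟨T, R₀ ∪ R₁, hc.le, (card_union_le _ _).trans (by omega), disjoint_union_left.2 ⟨h2, h5⟩, ?_⟩
  by_cases h0 : gm A T (R₀ ∪ R₁) = 0
  · exact ⟨0, mem_insert_self _ _, TRect_zero h0, h3 _ subset_union_left⟩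
  have h7 : Prp A T (R₀ ∪ R₁) p := by
    refine ⟨v, fun i _ => ?_, j, by simpa [hT] using hj, hj⟩
    have h8 : (p : ℤ) ∣ ∑ j, A i j * v j := hv i
    rw [← sum_filter_add_sum_filter_not univ fun i => ¬(p : ℤ) ∣ v i, ← hT] at h8
    exact (dvd_add_left (dvd_sum fun k hk => (not_not.1 (mem_filter.1 hk).2).mul_left _)).1 h8
  exact ⟨p, mem_insert_of_mem (Nat.mem_primeFactors.2 ⟨hp, Int.natCast_dvd.1 (TRect_dvd h7),
    Int.natAbs_ne_zero.2 h0⟩), h7, h6 _ subset_union_right⟩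

end Vale.Agent.P160F
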