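import Vale.Agent.P160F.TRectD

/-! The probability of the rectangle event.
Hint: `pr_le_of_fiber` with `g : ↥(T ∪ R)ᶜ × ↥T → Sym2 (Fin N)`, `g (i, j) = s(i, j)` (injective as
`i ∉ T`, `j ∈ T`). Resampling does not change the entries `(i, j)`, `i ∈ R`, `j ∈ T`, hence neither
`gm`, `Kil`, `Prp`. Union over `q` (`pr_exists_mem_le`): at most `1 + 3 N ^ 2` values because
`2 ^ ω(d) ≤ |d| ≤ N ! * N ^ N ≤ 2 ^ (3 N ^ 2)` (`Matrix.det_le`; for `d = 0` there are no prime
factors). For fixed `q` the rows are independent (`Equiv.curry`, `pr_pi`), and each row pays `1 / 2`: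
if `u` is killed and `q ∤ u j`, then `x` and `x` flipped at `j` are not both in `Dbl`
(`pr_equiv` for the flip). Finally `N ≤ (T ∪ R)ᶜ.card + T.card + R.card`. -/

open Finset Matrix

namespace Vale.Agent.P160F

open Vale.Agent.P160

theorem trp_half {α : Type} [Fintype α] (p : α → Prop) (e : α ≃ α)
    (h : ∀ a, p a → ¬p (e a)) : pr p ≤ 1 / 2 := by
  have h1 : pr p + pr (fun a => p (e a)) ≤ 1 := by
    rw [pr, pr, ← add_div, ← Finset.sum_add_distrib]
    refine div_le_one_of_le₀ ?_ (Nat.cast_nonneg _)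
    have : ∀ a ∈ (univ : Finset α), ind (p a) + ind (p (e a)) ≤ 1 := fun a _ => by
      by_cases ha : p a
      · rw [ind_pos ha, ind_neg (h a ha), add_zero]
      · rw [ind_neg ha, zero_add]; exact ind_le_one _
    simpa using Finset.sum_le_sum this
  rw [pr_equiv e p] at h1
  linarith

/-- The flip of one coordinate. -/
def trpFlip {κ : Type} [DecidableEq κ] (j : κ) : (κ → Bool) ≃ (κ → Bool) :=
  Function.Involutive.toPerm (fun x => Function.update x j (!x j)) fun x => by
    simp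

theorem trp_row {κ : Type} [Fintype κ] [DecidableEq κ] (q : ℤ) (u : κ → ℤ) (j : κ)
    (hj : ¬q ∣ u j) :
    pr (fun x : κ → Bool => q ∣ ∑ k, (if x k then 1 else 0) * u k) ≤ 1 / 2 := by
  refine trp_half _ (trpFlip j) fun x h1 h2 => hj ?_
  rw [← Finset.add_sum_erase _ _ (mem_univ j)] at h1 h2
  have e : ∑ k ∈ univ.erase j, (if trpFlip j x k then (1 : ℤ) else 0) * u k =
      ∑ k ∈ univ.erase j, (if x k then (1 : ℤ) else 0) * u k :=
    Finset.sum_congr rfl fun k hk => by
      have : trpFlip j x k = x k := Function.update_of_ne (ne_of_mem_erase hk) _ _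
      rw [this]
  have e2 : trpFlip j x j = !x j := Function.update_self _ _ _
  rw [e, e2] at h2
  have h3 := dvd_sub h1 h2
  cases hx : x j
  · simpa [hx] using h3
  · simpa [hx] using h3

theorem trp_card {N : ℕ} (A : Matrix (Fin N) (Fin N) ℤ) (hA : ∀ i j, A i j = 0 ∨ A i j = 1)
    (T R : Finset (Fin N)) :
    ((insert 0 (gm A T R).natAbs.primeFactors).card : ℝ) ≤ 1 + 3 * (N : ℝ) ^ 2 := by
  have hT : Fintype.card T ≤ N := by
    simpa using Finset.card_le_univ T
  have h1 : |gm A T R| ≤ ((Fintype.card T).factorial : ℕ) • (N : ℤ) ^ Fintype.card T := by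
    refine Matrix.det_le (abv := AbsoluteValue.abs) fun a b => ?_
    change |∑ i ∈ R, A i a * A i b| ≤ (N : ℤ)
    refine (Finset.abs_sum_le_sum_abs _ _).trans ?_
    refine (Finset.sum_le_card_nsmul R _ 1 fun i _ => ?_).trans ?_
    · rcases hA i a with h | h <;> rcases hA i b with h' | h' <;> simp [h, h']
    · simpa using Finset.card_le_univ R
  have h2 : (gm A T R).natAbs ≤ 2 ^ (3 * N ^ 2) := by
    have h3 : (gm A T R).natAbs ≤ (Fintype.card T).factorial * N ^ Fintype.card T := by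
      rw [nsmul_eq_mul, ← Int.natCast_natAbs] at h1
      exact_mod_cast h1
    have h4 : N ^ Fintype.card T ≤ 2 ^ (N ^ 2) := by
      calc N ^ Fintype.card T ≤ (2 ^ N) ^ Fintype.card T :=
            Nat.pow_le_pow_left Nat.lt_two_pow_self.le _
        _ ≤ (2 ^ N) ^ N := Nat.pow_le_pow_right (by positivity) hT
        _ = 2 ^ (N ^ 2) := by rw [← pow_mul, sq]
    have h5 : (Fintype.card T).factorial ≤ N ^ Fintype.card T :=
      (Nat.factorial_le_pow _).trans (Nat.pow_le_pow_left hT _)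
    calc (gm A T R).natAbs ≤ 2 ^ (N ^ 2) * 2 ^ (N ^ 2) :=
          h3.trans (Nat.mul_le_mul (h5.trans h4) h4)
      _ = 2 ^ (2 * N ^ 2) := by rw [← pow_add, two_mul]
      _ ≤ 2 ^ (3 * N ^ 2) := Nat.pow_le_pow_right two_pos (by omega)
  have h6 : (gm A T R).natAbs.primeFactors.card ≤ 3 * N ^ 2 := by
    rcases Nat.eq_zero_or_pos (gm A T R).natAbs with h0 | h0
    · rw [h0]; simp
    · have h7 : 2 ^ (gm A T R).natAbs.primeFactors.card ≤ (gm A T R).natAbs :=
        (Finset.pow_card_le_prod _ (fun p => p) 2 fun p hp =>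
          (Nat.prime_of_mem_primeFactors hp).two_le).trans
          (Nat.le_of_dvd h0 (Nat.prod_primeFactors_dvd _))
      exact (Nat.pow_le_pow_iff_right one_lt_two).1 (h7.trans h2)
  have h8 := (Finset.card_insert_le 0 (gm A T R).natAbs.primeFactors).trans
    (Nat.add_le_add_right h6 1)
  rw [add_comm]
  exact_mod_cast h8

theorem pr_rect {N : ℕ} (T R : Finset (Fin N)) (h : Disjoint R T) :
    pr (fun ω : Sym2 (Fin N) → Bool => Rect (Bm ω) T R) ≤
      (1 + 3 * (N : ℝ) ^ 2) * 2 ^ (T.card + R.card) / 2 ^ N := by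
  have _ := h
  let g : ↥(T ∪ R)ᶜ × ↥T → Sym2 (Fin N) := fun a => s(a.1.1, a.2.1)
  have hn : ∀ i : ↥(T ∪ R)ᶜ, i.1 ∉ T ∧ i.1 ∉ R := fun i => by
    have := i.2
    rwa [mem_compl, mem_union, not_or] at this
  have hg : Function.Injective g := by
    rintro ⟨i, j⟩ ⟨i', j'⟩ hij
    rcases Sym2.eq_iff.1 hij with ⟨h1, h2⟩ | ⟨h1, _⟩
    · exact Prod.ext (Subtype.ext h1) (Subtype.ext h2)
    · exact absurd (h1 ▸ j'.2 : i.1 ∈ T) (hn i).1
  refine pr_le_of_fiber hg _ (by positivity) fun ω => ?_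
  have hR : ∀ y, ∀ i ∈ R, ∀ j ∈ T, Bm (Function.extend g y ω) i j = Bm ω i j := by
    intro y i hi j hj
    have : ¬∃ a, g a = s(i, j) := by
      rintro ⟨⟨i', j'⟩, ha⟩
      rcases Sym2.eq_iff.1 ha with ⟨h1, _⟩ | ⟨h1, _⟩
      · exact (hn i').2 (h1 ▸ hi)
      · exact (hn i').1 (h1 ▸ hj)
    simp only [Bm, of_apply, Function.extend_apply' _ _ _ this]
  have hO : ∀ y (i : ↥(T ∪ R)ᶜ) (j : T),
      Bm (Function.extend g y ω) i j = if y (i, j) then 1 else 0 := by
    intro y i j
    have : Function.extend g y ω s(i.1, j.1) = y (i, j) := hg.extend_apply y ω (i, j)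
    simp only [Bm, of_apply, this]
  have hK : ∀ y q u, Kil (Bm (Function.extend g y ω)) T R q u ↔ Kil (Bm ω) T R q u := by
    intro y q u
    refine forall₂_congr fun i hi => ?_
    rw [Finset.sum_congr rfl fun j hj => by rw [hR y i hi j hj]]
  have hG : ∀ y, gm (Bm (Function.extend g y ω)) T R = gm (Bm ω) T R := by
    intro y
    unfold gm
    congr 2
    funext a b
    exact Finset.sum_congr rfl fun i hi => by rw [hR y i hi a a.2, hR y i hi b b.2]
  have hq : ∀ q ∈ insert 0 (gm (Bm ω) T R).natAbs.primeFactors,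
      pr (fun y : ↥(T ∪ R)ᶜ × ↥T → Bool => Prp (Bm (Function.extend g y ω)) T R q ∧
        ∀ i, i ∉ T → Dbl (Bm (Function.extend g y ω)) T R q (Bm (Function.extend g y ω) i)) ≤
        (1 / 2) ^ (T ∪ R)ᶜ.card := by
    intro q _
    by_cases hp : Prp (Bm ω) T R q
    · obtain ⟨u, hu, j, hj, hqj⟩ := hp
      refine (pr_mono (q := fun y => ∀ i : ↥(T ∪ R)ᶜ, (q : ℤ) ∣ ∑ k : T,
        (if Equiv.curry _ _ _ y i k then 1 else 0) * u k) fun y hy i => ?_).trans ?_
      · have := hy.2 i (hn i).1 u ((hK y q u).2 hu)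
        rw [← Finset.sum_coe_sort] at this
        simpa only [hO, Equiv.curry_apply, Function.curry_apply] using this
      · rw [pr_equiv (Equiv.curry _ _ _) fun f : ↥(T ∪ R)ᶜ → ↥T → Bool =>
          ∀ i, (q : ℤ) ∣ ∑ k : T, (if f i k then 1 else 0) * u k,
          pr_pi fun (_ : ↥(T ∪ R)ᶜ) (x : ↥T → Bool) =>
            (q : ℤ) ∣ ∑ k : T, (if x k then 1 else 0) * u k]
        rw [Finset.prod_const, card_univ, Fintype.card_coe]
        exact pow_le_pow_left₀ (pr_nonneg _) (trp_row _ (fun k : T => u k) ⟨j, hj⟩ hqj) _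
    · rw [pr_of_not]
      · positivity
      · rintro y ⟨⟨u, hu, hj⟩, _⟩
        exact hp ⟨u, (hK y q u).1 hu, hj⟩
  refine (pr_mono fun y hy => ?_).trans ((pr_exists_mem_le _ _ hq).trans ?_)
  · obtain ⟨q, h1, h2⟩ := hy
    exact ⟨q, hG y ▸ h1, h2⟩
  · have hN : N ≤ (T.card + R.card) + (T ∪ R)ᶜ.card := by
      have h1 := Finset.card_add_card_compl (T ∪ R)
      have h2 := Finset.card_union_le T R
      rw [Fintype.card_fin] at h1
      omega
    rw [mul_div_assoc]
    refine mul_le_mul (trp_card _ (Bm_01 ω) T R) ?_ (by positivity) (by positivity)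
    rw [one_div, inv_pow, ← one_div, div_le_div_iff₀ (by positivity) (by positivity), one_mul,
      ← pow_add]
    exact pow_le_pow_right₀ one_le_two hN

end Vale.Agent.P160F
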