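import Vale.Agent.P160F.TBin
import Vale.Agent.P160F.TRect
import Vale.Agent.P160F.TRectP

/-! P160F, part Sparse. Sparse kernel vectors modulo primes.
Hint: `θ` from `binom_small (ε / 4)`, `η = min (θ / 2) (ε / 12)`. By `rect_of_sparse` the event is
covered by the pairs `(T, R)` of sets of size at most `θ n` with `T.card + R.card ≤ 3 η n`;
`pr_exists_mem_le` twice, `pr_rect`, `poly_le_two_pow` for `1 + 3 n ^ 2 ≤ 4 n ^ 2 ≤ 2 ^ (ε n / 4)`. -/

open Finset Matrix Module Filter Topology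

noncomputable section

namespace Vale.Agent.P160F

open Vale.Agent.P160

theorem SPARSE {ε : ℝ} (hε : 0 < ε) : ∃ η : ℝ, 0 < η ∧ ∀ᶠ n : ℕ in atTop,
    pr (fun ω : Sym2 (Fin n) → Bool => Sparse (Bm ω) η) ≤ 2 ^ (-((1 - ε) * n)) := by
  obtain ⟨θ, hθ, -, hb⟩ := binom_small (ε := ε / 4) (by positivity)
  obtain ⟨η, hη, h1, h2⟩ : ∃ η : ℝ, 0 < η ∧ 2 * η ≤ θ ∧ 12 * η ≤ ε :=
    ⟨min (θ / 2) (ε / 12), by positivity, by linarith [min_le_left (θ / 2) (ε / 12)],
      by linarith [min_le_right (θ / 2) (ε / 12)]⟩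
  refine ⟨η, hη, ?_⟩
  filter_upwards [poly_le_two_pow (ε := ε / 4) (by positivity) 4 2, eventually_ge_atTop 1]
    with n hp hn
  have hn1 : (1 : ℝ) ≤ n := by exact_mod_cast hn
  have hn0 : (0 : ℝ) ≤ n := n.cast_nonneg
  set S := univ.filter fun U : Finset (Fin n) => (U.card : ℝ) ≤ θ * n with hS
  have hc : ∀ T R : Finset (Fin n), pr (fun ω : Sym2 (Fin n) → Bool =>
      (Disjoint R T ∧ ((T.card + R.card : ℕ) : ℝ) ≤ ε / 4 * n) ∧ Rect (Bm ω) T R) ≤
        2 ^ (ε / 4 * n) * 2 ^ (ε / 4 * n) / 2 ^ n := fun T R => by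
    rw [pr_const_and]
    refine ind_mul_le (by positivity) fun h => (pr_rect T R h.1).trans ?_
    refine div_le_div_of_nonneg_right (mul_le_mul (le_trans (by nlinarith) hp) ?_ (by positivity)
      (by positivity)) (by positivity)
    rw [← Real.rpow_natCast]
    exact Real.rpow_le_rpow_of_exponent_le one_le_two h.2
  have h3 : pr (fun ω : Sym2 (Fin n) → Bool => Sparse (Bm ω) η) ≤
      S.card * (S.card * (2 ^ (ε / 4 * n) * 2 ^ (ε / 4 * n) / 2 ^ n)) := by
    refine le_trans (pr_mono fun ω h => ?_)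
      (pr_exists_mem_le S _ fun T _ => pr_exists_mem_le S _ fun R _ => hc T R)
    obtain ⟨T, R, k1, k2, k3, k4⟩ := rect_of_sparse _ h
    have k5 : (R.card : ℝ) ≤ 2 * T.card := by exact_mod_cast k2
    have k6 : 0 ≤ η * n := by positivity
    have k7 : 2 * η * n ≤ θ * n := mul_le_mul_of_nonneg_right h1 hn0
    have k8 : 12 * η * n ≤ ε * n := mul_le_mul_of_nonneg_right h2 hn0
    refine ⟨T, mem_filter.2 ⟨mem_univ _, by linarith⟩, R, mem_filter.2 ⟨mem_univ _, by linarith⟩,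
      ⟨k3, ?_⟩, k4⟩
    push_cast
    linarith
  refine h3.trans ((mul_le_mul (hb n) (mul_le_mul_of_nonneg_right (hb n) (by positivity))
    (by positivity) (by positivity)).trans (le_of_eq ?_))
  rw [← Real.rpow_natCast, ← Real.rpow_add two_pos, ← Real.rpow_sub two_pos,
    ← Real.rpow_add two_pos, ← Real.rpow_add two_pos]
  congr 1
  ring

end Vale.Agent.P160F
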