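import Vale.Agent.P160F.MT
import Vale.Agent.P160F.Bulk
import Vale.Agent.P160F.Sparse
import Vale.Agent.P160F.Side

/-! P160F, part Cork. Corank one. -/

open Finset Matrix Module Filter Topology

noncomputable section

namespace Vale.Agent.P160F

open Vale.Agent.P160

theorem Cork_set {α : Type} [Fintype α] (S : Set α) {Z : ℝ} (h : (S.ncard : ℝ) ≤ Z) :
    pr (fun a => a ∈ S) ≤ Z / Fintype.card α := by
  refine (pr_le_card _ S.toFinite.toFinset fun a ha => by simpa using ha).trans ?_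
  rw [← Set.ncard_eq_toFinset_card]
  gcongr

theorem Cork_split {α β : Type} [Fintype α] [Fintype β] [Nonempty β] (R : α → Prop)
    (E : α → β → Prop) {a c : ℝ} (ha : pr R ≤ a) (hc : 0 ≤ c) (h : ∀ ω, ¬R ω → pr (E ω) ≤ c) :
    pr (fun q : α × β => E q.1 q.2) ≤ a + c := by
  refine (pr_mono (q := fun q : α × β => R q.1 ∨ (¬R q.1 ∧ E q.1 q.2))
    fun q hq => (em _).imp_right fun h => ⟨h, hq⟩).trans ((pr_or _ _).trans (add_le_add ?_ ?_))
  · rwa [pr_fst R]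
  · refine pr_prod_le' hc fun ω => ?_
    exact (pr_const_and (¬R ω) (E ω)).trans_le (ind_mul_le hc (h ω))

/-- The candidates for the deleted column. -/
def CorkC {n : ℕ} (F : Finset (Submodule ℤ (Fin n → ℤ))) (B : Matrix (Fin n) (Fin n) ℤ)
    (x : Fin n → ℤ) : Prop :=
  B.det ≠ 0 ∧ ((∃ L ∈ F, x ∈ L) ∨
    ((B.det : ℝ) ^ 4 ≤ (n : ℝ) ^ n ∧ ∀ j, |(B.adjugate *ᵥ x) j| ≤ |B.det|))

theorem Cork_big {n : ℕ} (hn : 0 < n) {B : Matrix (Fin n) (Fin n) ℤ}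
    (h : (B.det : ℝ) ^ 4 ≤ (n : ℝ) ^ n)
    (h' : (n : ℝ) ^ ((3 : ℝ) / 4 * n) ≤ ((B * B + 1).det : ℝ)) :
    Big B ⊤ true ((n : ℝ) ^ ((1 : ℝ) / 8 * n)) := by
  refine ⟨fun _ => trivial, ?_⟩
  have n0 : (0 : ℝ) < n := by exact_mod_cast hn
  have e1 : Nat.card ((Fin n → ℤ) ⧸ (⊤ : Submodule ℤ (Fin n → ℤ))) = 1 := Nat.card_unique
  rw [e1, if_pos rfl, Nat.cast_one, one_pow, one_mul]
  refine le_trans ?_ h'
  have h2 : (B.det : ℝ) ^ 2 ≤ (n : ℝ) ^ ((1 : ℝ) / 2 * n) := by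
    refine le_of_pow_le_pow_left₀ two_ne_zero (by positivity) ?_
    rw [← pow_mul, ← Real.rpow_natCast (_ ^ _), ← Real.rpow_mul n0.le]
    refine h.trans_eq ?_
    rw [← Real.rpow_natCast]
    congr 1
    push_cast
    ring
  refine (mul_le_mul_of_nonneg_left h2 (by positivity)).trans_eq ?_
  rw [← Real.rpow_natCast (_ ^ _), ← Real.rpow_mul n0.le, ← Real.rpow_add n0]
  congr 1
  push_cast
  ring

theorem Cork_fibre {n : ℕ} (hn : 0 < n) {B : Matrix (Fin n) (Fin n) ℤ}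
    {F : Finset (Submodule ℤ (Fin n → ℤ))} {X Z : ℝ} (hZ : 1 ≤ Z) (hF : (F.card : ℝ) ≤ Z)
    (hX : ∀ L ∈ F, Big B L false X) (h1 : ¬Rich B X Z)
    (h2 : ¬Rich B ((n : ℝ) ^ ((1 : ℝ) / 8 * n)) Z)
    (h3 : (n : ℝ) ^ ((3 : ℝ) / 4 * n) ≤ ((B * B + 1).det : ℝ)) :
    pr (fun x : Fin n → Bool => CorkC F B (bz x)) ≤ 2 * Z ^ 2 / 2 ^ n := by
  by_cases hD : B.det = 0
  · rw [pr_of_not fun x h => h.1 hD]
    positivity
  have e : (Fintype.card (Fin n → Bool) : ℝ) = 2 ^ n := by simp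
  have a1 : pr (fun x : Fin n → Bool => ∃ L ∈ F, bz x ∈ L) ≤ Z * (Z / 2 ^ n) := by
    refine (pr_exists_mem_le F (fun L (x : Fin n → Bool) => bz x ∈ L) (c := Z / 2 ^ n)
      fun L hL => ?_).trans (by gcongr)
    rw [← e]
    refine (pr_mono fun x hx => ?_).trans (Cork_set (Tset B L false)
      (not_le.1 fun h => h1 ⟨hD, L, false, hX L hL, h⟩).le)
    exact ⟨hx, fun h => absurd h Bool.false_ne_true⟩
  have a2 : pr (fun x : Fin n → Bool => (B.det : ℝ) ^ 4 ≤ (n : ℝ) ^ n ∧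
      ∀ j, |(B.adjugate *ᵥ bz x) j| ≤ |B.det|) ≤ Z / 2 ^ n := by
    rw [pr_const_and]
    refine ind_mul_le (by positivity) fun h4 => ?_
    rw [← e]
    refine (pr_mono fun x hx => ?_).trans (Cork_set (Tset B ⊤ true)
      (not_le.1 fun h => h2 ⟨hD, ⊤, true, Cork_big hn h4 h3, h⟩).le)
    exact ⟨trivial, fun _ => hx⟩
  refine (pr_mono fun x hx => hx.2).trans ((pr_or _ _).trans ((add_le_add a1 a2).trans ?_))
  rw [← mul_div_assoc, ← add_div]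
  gcongr
  nlinarith

theorem Cork_vertex {n : ℕ} (hn : 0 < n)
    (F : Matrix (Fin n) (Fin n) ℤ → Finset (Submodule ℤ (Fin n → ℤ))) {X Z δ : ℝ} (hZ : 1 ≤ Z)
    (hF : ∀ B, ((F B).card : ℝ) ≤ Z ∧ ∀ L ∈ F B, Big B L false X)
    (h1 : pr (fun ω : Sym2 (Fin n) → Bool => Rich (Bm ω) X Z) ≤ δ)
    (h2 : pr (fun ω : Sym2 (Fin n) → Bool => Rich (Bm ω) ((n : ℝ) ^ ((1 : ℝ) / 8 * n)) Z) ≤ δ)
    (h3 : pr (fun ω : Sym2 (Fin n) → Bool =>
      ((Bm ω * Bm ω + 1).det : ℝ) < (n : ℝ) ^ ((3 : ℝ) / 4 * n)) ≤ δ) (i : Fin (n + 1)) :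
    pr (fun ω : Sym2 (Fin (n + 1)) → Bool => CorkC (F (del (Bm ω) i)) (del (Bm ω) i)
      fun j => Bm ω (i.succAbove j) i) ≤ 3 * δ + 2 * Z ^ 2 / 2 ^ n := by
  have e := pr_vertex i fun ω x => CorkC (F (Bm ω)) (Bm ω) (bz x)
  refine le_trans (le_of_eq (Eq.trans (pr_congr fun ω => ?_) e)) ?_
  · have : (fun j => Bm ω (i.succAbove j) i) = bz fun a => ω s(i, i.succAbove a) := by
      funext j
      simp only [Bm, of_apply, bz, Sym2.eq_swap (b := i)]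
    rw [this]
    rfl
  have := (pr_or _ _).trans (add_le_add ((pr_or _ _).trans (add_le_add h1 h2)) h3)
  refine (Cork_split _ (fun ω (x : Fin n → Bool) => CorkC (F (Bm ω)) (Bm ω) (bz x)) this
    (by positivity) fun ω h => Cork_fibre hn hZ (hF _).1 (hF _).2 (fun h' => h (.inl (.inl h')))
      (fun h' => h (.inl (.inr h'))) (not_lt.1 fun h' => h (.inr h'))).trans_eq ?_
  ring

theorem CORK {ε : ℝ} (hε : 0 < ε) : ∀ᶠ n : ℕ in atTop,
    pr (fun ω : Sym2 (Fin (n + 1)) → Bool => Cork (Bm ω)) ≤ 2 ^ (-((1 - ε) * n)) := by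
  rcases le_total 1 ε with h1 | h1
  · refine Eventually.of_forall fun n => (pr_le_one _).trans (Real.one_le_rpow one_le_two ?_)
    nlinarith [Nat.cast_nonneg (α := ℝ) n]
  obtain ⟨η, hη, hS⟩ := SPARSE (half_pos hε)
  obtain ⟨c, hc, hF⟩ := SIDE (ε := ε / 4) (by positivity) hη
  filter_upwards [(tendsto_add_atTop_nat 1).eventually hS, hF, MT (ε := ε / 4) (by positivity) hc,
    MT (ε := ε / 4) (c := 1 / 8) (by positivity) (by norm_num), BULK,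
    poly_le_two_pow (half_pos hε) 11 1, eventually_gt_atTop 0] with n a1 ⟨F, a2, a3⟩ a4 a5 a6 a7 hn
  have n1 : (1 : ℝ) ≤ n := by exact_mod_cast hn
  have hZ : (1 : ℝ) ≤ 2 ^ (ε / 4 * n) := Real.one_le_rpow one_le_two (by positivity)
  set P : ℝ := 2 ^ (-((1 - ε / 2) * n)) with hP
  have b1 : (2 : ℝ) ^ (-((1 - ε / 2) * ((n + 1 : ℕ) : ℝ))) ≤ P :=
    Real.rpow_le_rpow_of_exponent_le one_le_two (by push_cast; nlinarith)
  have b2 : ((2 : ℝ) ^ (ε / 4 * n)) ^ 2 / 2 ^ n = P := by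
    rw [← Real.rpow_natCast (_ ^ _), ← Real.rpow_mul zero_le_two, ← Real.rpow_natCast 2 n,
      ← Real.rpow_sub two_pos, hP]
    congr 1
    push_cast
    ring
  have b3 : ((1 : ℝ) / 4) ^ n ≤ P := by
    rw [← b2, le_div_iff₀ (by positivity), ← mul_pow]
    exact (pow_le_one₀ (by norm_num) (by norm_num)).trans (one_le_pow₀ hZ)
  have b4 : (2 : ℝ) ^ (-((1 - ε) * n)) = 2 ^ (ε / 2 * n) * P := by
    rw [hP, ← Real.rpow_add two_pos]
    congr 1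
    ring
  refine (pr_mono (q := fun ω => Sparse (Bm ω) η ∨ ∃ i, CorkC (F (del (Bm ω) i)) (del (Bm ω) i)
    fun j => Bm ω (i.succAbove j) i) fun ω h => (em _).imp_right fun h' =>
      a3 _ (Bm_isSymm ω) (abs_Bm_le ω) h h').trans ((pr_or _ _).trans ?_)
  refine (add_le_add (a1.trans b1) ((pr_exists _).trans (Finset.sum_le_sum fun i _ =>
    Cork_vertex hn F hZ a2 (a4.trans b3) (a5.trans b3) (a6.trans b3) i))).trans ?_
  have P0 : 0 ≤ P := by positivity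
  rw [mul_div_assoc, b2, b4, sum_const, card_univ, Fintype.card_fin, nsmul_eq_mul]
  push_cast
  rw [pow_one] at a7
  nlinarith [mul_le_mul_of_nonneg_right a7 P0, mul_le_mul_of_nonneg_right n1 P0]

end Vale.Agent.P160F
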