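import Vale.Agent.P160.Red

/-! P160, sharp rate: definitions. -/

open Finset Matrix Module

noncomputable section

namespace Vale.Agent.P160F

open Vale.Agent.P160

/-- Rational subspaces. -/
abbrev QS (ι : Type) : Type := Submodule ℚ (ι → ℚ)

variable {ι κ : Type}

/-- Integer vectors as rational vectors. -/
def zq (z : ι → ℤ) : ι → ℚ := fun i => (z i : ℚ)

/-- Integer vectors as real vectors. -/
def zr (z : ι → ℤ) : ι → ℝ := fun i => (z i : ℝ)

/-- Zero-one vectors. -/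
def bz (y : ι → Bool) : ι → ℤ := fun i => if y i then 1 else 0

/-- The integer points of a subspace. -/
def lat (U : QS ι) : Submodule ℤ (ι → ℤ) where
  carrier := {z | zq z ∈ U}
  add_mem' {x y} hx hy := by
    have h : zq (x + y) = zq x + zq y := funext fun i => Int.cast_add _ _
    change zq (x + y) ∈ U
    rw [h]; exact U.add_mem hx hy
  zero_mem' := by
    have h : zq (0 : ι → ℤ) = 0 := funext fun i => Int.cast_zero
    change zq 0 ∈ U
    rw [h]; exact U.zero_mem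
  smul_mem' c x hx := by
    have h : zq (c • x) = (c : ℚ) • zq x := funext fun i => Int.cast_mul _ _
    change zq (c • x) ∈ U
    rw [h]; exact U.smul_mem _ hx

/-- The dimension. -/
def dm (U : QS ι) : ℕ := finrank ℚ U

/-- Adjoining an integer vector. -/
def ad (U : QS ι) (z : ι → ℤ) : QS ι := U ⊔ Submodule.span ℚ {zq z}

/-- The coordinate subspace of vectors supported in `F`. -/
def co (F : Finset ι) : QS ι where
  carrier := {x | ∀ i, i ∉ F → x i = 0}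
  add_mem' {x y} hx hy i hi := by rw [Pi.add_apply, hx i hi, hy i hi, add_zero]
  zero_mem' _ _ := rfl
  smul_mem' c x hx i hi := by rw [Pi.smul_apply, hx i hi, smul_zero]

variable [Fintype ι] [Fintype κ]

/-- The orthogonal complement. -/
def pp (U : QS ι) : QS ι where
  carrier := {x | ∀ u ∈ U, u ⬝ᵥ x = 0}
  add_mem' {x y} hx hy u hu := by rw [dotProduct_add, hx u hu, hy u hu, add_zero]
  zero_mem' u _ := dotProduct_zero u
  smul_mem' c x hx u hu := by rw [dotProduct_smul, hx u hu, smul_zero]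

/-- The image under an integer matrix. -/
def mp (M : Matrix ι ι ℤ) (U : QS ι) : QS ι := U.map (M.map (Int.cast : ℤ → ℚ)).mulVecLin

/-- The vector `G z` in Euclidean space. -/
def ev (G : Matrix κ ι ℤ) (z : ι → ℤ) : EuclideanSpace ℝ κ := WithLp.toLp 2 (zr (G *ᵥ z))

/-- `G` is injective. -/
def Inj (G : Matrix κ ι ℤ) : Prop := ∀ z : ι → ℤ, G *ᵥ z = 0 → z = 0

/-- The real span of `G U`. -/
def rs (G : Matrix κ ι ℤ) (U : QS ι) : Submodule ℝ (EuclideanSpace ℝ κ) :=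
  Submodule.span ℝ (ev G '' (lat U : Set (ι → ℤ)))

/-- The distance of `G z` from `G U`. -/
def ds (G : Matrix κ ι ℤ) (U : QS ι) (z : ι → ℤ) : ℝ :=
  Metric.infDist (ev G z) (rs G U : Set (EuclideanSpace ℝ κ))

/-- The height: the covolume of `G (U ∩ ℤ^ι)`. -/
def ht (G : Matrix κ ι ℤ) (U : QS ι) : ℝ :=
  √(gram ℝ fun i => ev G (Module.finBasis ℤ (lat U) i : ι → ℤ)).det

/-- The slopes above `V` inside `A` are at least `1 / S`. -/
def Up (G : Matrix κ ι ℤ) (S : ℝ) (V A : QS ι) : Prop :=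
  ∀ U, V ≤ U → U ≤ A → ht G V ≤ S ^ (dm U - dm V) * ht G U

/-- The slopes of the quotients of `W` are at most `S`. -/
def Dn (G : Matrix κ ι ℤ) (S : ℝ) (W : QS ι) : Prop :=
  ∀ X, X ≤ W → ht G W ≤ S ^ (dm W - dm X) * ht G X

variable [DecidableEq ι]

/-- The standard height. -/
abbrev hs (U : QS ι) : ℝ := ht (1 : Matrix ι ι ℤ) U

/-- The standard distance. -/
abbrev d1 (U : QS ι) (z : ι → ℤ) : ℝ := ds (1 : Matrix ι ι ℤ) U z

/-- The set of cube points attached to a lattice `L` and a flag `s`. -/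
def Tset (B : Matrix ι ι ℤ) (L : Submodule ℤ (ι → ℤ)) (s : Bool) : Set (ι → Bool) :=
  {x | bz x ∈ L ∧ (s = true → ∀ i, |(B.adjugate *ᵥ bz x) i| ≤ |B.det|)}

/-- `L` contains the columns of `B` and the gain is at least `X`. -/
def Big (B : Matrix ι ι ℤ) (L : Submodule ℤ (ι → ℤ)) (s : Bool) (X : ℝ) : Prop :=
  (∀ z, B *ᵥ z ∈ L) ∧ X ^ 2 * (B.det : ℝ) ^ 2 ≤ (Nat.card ((ι → ℤ) ⧸ L) : ℝ) ^ 2 *
    ((B * B + if s then 1 else 0).det : ℝ)

/-- The rich event. -/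
def Rich (B : Matrix ι ι ℤ) (X Z : ℝ) : Prop :=
  B.det ≠ 0 ∧ ∃ L s, Big B L s X ∧ Z ≤ ((Tset B L s).ncard : ℝ)

/-- Containers. -/
structure Cont (K β : ℝ) (ρ : ℕ) (F : Finset ι) (N₀ : QS ι) (N : ι → QS ι) : Prop where
  le : N₀ ≤ co F
  dim : dm N₀ ≤ ρ
  hgt : hs N₀ ≤ K ^ Fintype.card ι
  dn : Dn (1 : Matrix ι ι ℤ) (β ^ 4) N₀
  up : Up (1 : Matrix ι ι ℤ) K N₀ (co F)
  ins : ∀ j ∈ F, N j = N₀
  out : ∀ j ∉ F, ∃ (g : ℤ) (l : ι → ℤ), 1 ≤ g ∧ (g : ℝ) ≤ β ∧ l ∈ lat (co F) ∧ d1 N₀ l ≤ β ∧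
    N j = ad N₀ (g • Pi.single j 1 + l)

/-- A subspace above `B N` of potential below `X`. -/
def Low (B : Matrix ι ι ℤ) (N₀ : QS ι) (N : ι → QS ι) (A X : ℝ) : Prop :=
  B.det ≠ 0 ∧ ∃ Y, mp B N₀ ≤ Y ∧ (∀ j, mp B (N j) ≤ Y) ∧ hs Y * A ^ dm Y < X

/-- Resampling the row and column of the vertex `v`. -/
def upd {n : ℕ} (ω : Sym2 (Fin n) → Bool) (v : Fin n) (y : Fin n → Bool) : Sym2 (Fin n) → Bool :=
  fun e => if h : v ∈ e then y (Sym2.Mem.other' h) else ω e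

/-- Deleting a vertex. -/
def del {n : ℕ} (A : Matrix (Fin (n + 1)) (Fin (n + 1)) ℤ) (i : Fin (n + 1)) :
    Matrix (Fin n) (Fin n) ℤ := A.submatrix i.succAbove i.succAbove

/-- Singular with a nonsingular principal minor of codimension one. -/
def Cork {n : ℕ} (A : Matrix (Fin (n + 1)) (Fin (n + 1)) ℤ) : Prop :=
  A.det = 0 ∧ ∃ i, (del A i).det ≠ 0

/-- A sparse kernel vector modulo some prime. -/
def Sparse (A : Matrix ι ι ℤ) (η : ℝ) : Prop :=
  ∃ (p : ℕ) (v : ι → ℤ), p.Prime ∧ (∃ i, ¬(p : ℤ) ∣ v i) ∧ (∀ i, (p : ℤ) ∣ (A *ᵥ v) i) ∧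
    ((univ.filter fun i => ¬(p : ℤ) ∣ v i).card : ℝ) < η * Fintype.card ι

end Vale.Agent.P160F
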