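import Vale.Agent.P160F.Defs

/-! Vertex exposure. -/

open Finset Vale.Agent.P160

namespace Vale.Agent.P160F

theorem EX_pr_fst {α β : Type} [Fintype α] [Fintype β] [Nonempty β] (p : α → Prop) :
    pr (fun q : α × β => p q.1) = pr p := by
  rw [pr_prod, pr]
  congr 1
  refine Finset.sum_congr rfl fun a _ => ?_
  have h : (Fintype.card β : ℝ) ≠ 0 := Nat.cast_ne_zero.2 Fintype.card_ne_zero
  simp only [pr, Finset.sum_const, Finset.card_univ, nsmul_eq_mul]
  field_simp

theorem pr_comp {κ κ' : Type} [Fintype κ] [DecidableEq κ] [Fintype κ'] [DecidableEq κ']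
    (g : κ → κ') (hg : Function.Injective g) (E : (κ → Bool) → Prop) :
    pr (fun ω : κ' → Bool => E fun k => ω (g k)) = pr E := by
  classical
  let e : κ ≃ {x // x ∈ Set.range g} := Equiv.ofInjective g hg
  let φ := (Equiv.piEquivPiSubtypeProd (fun x => x ∈ Set.range g) fun _ => Bool).trans
    (Equiv.prodCongr (Equiv.arrowCongr e.symm (Equiv.refl Bool)) (Equiv.refl _))
  rw [← EX_pr_fst (β := {x // ¬x ∈ Set.range g} → Bool) E, ← pr_equiv φ]
  rfl

theorem upd_row {n : ℕ} (ω : Sym2 (Fin n) → Bool) (v : Fin n) (y : Fin n → Bool) (a : Fin n) :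
    upd ω v y s(v, a) = y a := by
  have h : v ∈ s(v, a) := Sym2.mem_mk_left _ _
  have h2 := Sym2.other_spec' h
  rw [upd, dif_pos h, Sym2.congr_right.1 h2]

theorem upd_off {n : ℕ} (ω : Sym2 (Fin n) → Bool) {v a b : Fin n} (y : Fin n → Bool) (ha : a ≠ v)
    (hb : b ≠ v) : upd ω v y s(a, b) = ω s(a, b) := by
  have h : v ∉ s(a, b) := by
    rw [Sym2.mem_iff, not_or]; exact ⟨ha.symm, hb.symm⟩
  rw [upd, dif_neg h]

theorem pr_upd {n : ℕ} (v : Fin n) (E : (Sym2 (Fin n) → Bool) → Prop) :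
    pr (fun q : (Sym2 (Fin n) → Bool) × (Fin n → Bool) => E (upd q.1 v q.2)) = pr E := by
  let f : (Sym2 (Fin n) → Bool) × (Fin n → Bool) → (Sym2 (Fin n) → Bool) × (Fin n → Bool) :=
    fun q => (upd q.1 v q.2, fun a => q.1 s(v, a))
  have hf : Function.Involutive f := by
    rintro ⟨ω, y⟩
    refine Prod.ext (funext fun e => ?_) (funext fun a => upd_row ω v y a)
    by_cases h : v ∈ e
    · change upd (upd ω v y) v (fun a => ω s(v, a)) e = ω e
      rw [upd, dif_pos h, Sym2.other_spec' h]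
    · change upd (upd ω v y) v (fun a => ω s(v, a)) e = ω e
      rw [upd, dif_neg h, upd, dif_neg h]
  rw [← EX_pr_fst (β := Fin n → Bool) E]
  exact pr_equiv hf.toPerm fun q => E q.1

theorem exposure_all {n N : ℕ} (t : Fin N → Fin n) (ht : Function.Injective t)
    (Bad : Fin N → (Sym2 (Fin n) → Bool) → Prop) {p : ℝ} (hp0 : 0 ≤ p)
    (hω : ∀ i j, j < i → ∀ ω y, Bad j (upd ω (t i) y) → Bad j ω)
    (hp : ∀ j ω, pr (fun y => Bad j (upd ω (t j) y)) ≤ p) (S : Finset (Fin N)) :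
    pr (fun ω => ∀ j ∈ S, Bad j ω) ≤ p ^ S.card := by
  have _ := ht
  induction S using Finset.induction_on_max with
  | empty => simpa using pr_le_one _
  | insert a S ha ih =>
    have hna : a ∉ S := fun h => lt_irrefl _ (ha a h)
    rw [← pr_upd (t a), Finset.card_insert_of_notMem hna, pow_succ]
    refine (pr_prod_le (r := fun ω => ∀ j ∈ S, Bad j ω) hp0 fun ω => ?_).trans
      (mul_le_mul_of_nonneg_right ih hp0)
    refine (pr_mono (q := fun y => (∀ j ∈ S, Bad j ω) ∧ Bad a (upd ω (t a) y)) fun y hy =>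
      ⟨fun j hj => hω a j (ha j hj) ω y (hy j (Finset.mem_insert_of_mem hj)),
        hy a (Finset.mem_insert_self _ _)⟩).trans ?_
    rw [pr_const_and]
    exact mul_le_mul_of_nonneg_left (hp a ω) (ind_nonneg _)

open Classical in
theorem exposure {n N : ℕ} (t : Fin N → Fin n) (ht : Function.Injective t)
    (Bad : Fin N → (Sym2 (Fin n) → Bool) → Prop) {p : ℝ} (hp0 : 0 ≤ p)
    (hω : ∀ i j, j < i → ∀ ω y, Bad j (upd ω (t i) y) → Bad j ω)
    (hp : ∀ j ω, pr (fun y => Bad j (upd ω (t j) y)) ≤ p) (b : ℕ) :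
    pr (fun ω : Sym2 (Fin n) → Bool => b ≤ (univ.filter fun j => Bad j ω).card) ≤
      2 ^ N * p ^ b := by
  refine (pr_mono (q := fun ω => ∃ S : Finset (Fin N), S.card = b ∧ ∀ j ∈ S, Bad j ω)
    fun ω h => ?_).trans ((pr_exists _).trans ?_)
  · obtain ⟨S, hS, hc⟩ := Finset.exists_subset_card_eq h
    exact ⟨S, hc, fun j hj => (Finset.mem_filter.1 (hS hj)).2⟩
  · have h : ∀ S : Finset (Fin N), pr (fun ω => S.card = b ∧ ∀ j ∈ S, Bad j ω) ≤ p ^ b := by
      intro S
      rw [pr_const_and]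
      exact ind_mul_le (pow_nonneg hp0 _) fun hS => hS ▸ exposure_all t ht Bad hp0 hω hp S
    refine (Finset.sum_le_sum fun S _ => h S).trans_eq ?_
    simp

theorem pr_minor {m n : ℕ} (f : Fin m → Fin n) (hf : Function.Injective f)
    (E : (Sym2 (Fin m) → Bool) → Prop) :
    pr (fun ω : Sym2 (Fin n) → Bool => E fun e => ω (e.map f)) = pr E :=
  pr_comp _ (Sym2.map.injective hf) E

theorem pr_vertex {m : ℕ} (i : Fin (m + 1)) (E : (Sym2 (Fin m) → Bool) → (Fin m → Bool) → Prop) :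
    pr (fun ω : Sym2 (Fin (m + 1)) → Bool =>
      E (fun e => ω (e.map i.succAbove)) fun a => ω s(i, i.succAbove a)) =
    pr fun q : (Sym2 (Fin m) → Bool) × (Fin m → Bool) => E q.1 q.2 := by
  let g : Sym2 (Fin m) ⊕ Fin m → Sym2 (Fin (m + 1)) :=
    Sum.elim (Sym2.map i.succAbove) fun a => s(i, i.succAbove a)
  have key : ∀ (e : Sym2 (Fin m)) (a : Fin m), e.map i.succAbove ≠ s(i, i.succAbove a) := by
    intro e a h
    have : i ∈ e.map i.succAbove := h ▸ Sym2.mem_mk_left _ _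
    obtain ⟨b, -, hb⟩ := Sym2.mem_map.1 this
    exact Fin.succAbove_ne i b hb
  have hg : Function.Injective g := by
    rintro (e | a) (e' | a') h
    · exact congrArg _ (Sym2.map.injective Fin.succAbove_right_injective h)
    · exact absurd h (key e a')
    · exact absurd h.symm (key e' a)
    · exact congrArg _ (Fin.succAbove_right_injective (Sym2.congr_right.1 h))
  rw [← pr_equiv (Equiv.sumArrowEquivProdArrow _ _ Bool)
    fun q : (Sym2 (Fin m) → Bool) × (Fin m → Bool) => E q.1 q.2, ← pr_comp g hg]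
  rfl

end Vale.Agent.P160F
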