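import Vale.Agent.P160F.CCnt

/-! P160F, part Fam. There are few containers. -/

open Finset Matrix Module Filter Topology

noncomputable section

namespace Vale.Agent.P160F

open Vale.Agent.P160

section
variable {ι : Type} [Fintype ι] [DecidableEq ι]

theorem fam_opt {K β s : ℝ} (hK : 1 ≤ K) (hβ : 1 ≤ β) (hs : 0 < s) {ρ : ℕ} {F : Finset ι}
    {N₀ : QS ι} (j : ι) (C : Finset (QS ι)) (hC : ∀ V ∈ C, ∃ N, Cont K β ρ F N₀ N ∧ V = N j) :
    (C.card : ℝ) ≤ β * Real.exp (10 * Real.pi * Fintype.card ι / s ^ 2 +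
      Real.pi * s ^ 2 * (2 * β * K) ^ 2) := by
  classical
  rcases C.eq_empty_or_nonempty with rfl | ⟨V₀, hV₀⟩
  · rw [card_empty, Nat.cast_zero]
    positivity
  obtain ⟨N', c0, -⟩ := hC V₀ hV₀
  by_cases hj : j ∈ F
  · have h : C.card ≤ 1 := card_le_one.2 fun P hP Q hQ => by
      obtain ⟨N, c, rfl⟩ := hC P hP
      obtain ⟨M, c', rfl⟩ := hC Q hQ
      rw [c.ins j hj, c'.ins j hj]
    exact (Nat.cast_le_one.2 h).trans (one_le_mul_of_one_le_of_one_le hβ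
      (Real.one_le_exp (by positivity)))
  have h1 : ∀ V ∈ C, ∃ (g : ℤ) (l : ι → ℤ), 1 ≤ g ∧ (g : ℝ) ≤ β ∧ l ∈ lat (co F) ∧ d1 N₀ l ≤ β ∧
      V = ad N₀ (g • Pi.single j 1 + l) := fun V hV => by
    obtain ⟨N, c, rfl⟩ := hC V hV
    exact c.out j hj
  choose! g l h using h1
  have h2 := rm_rel (inj_one (ι := ι)) (one_pos.trans_le hK) c0.le c0.up (ρ := Fintype.card ι)
    ((clog_dm_le _).trans (Nat.le_add_left _ _)) hs one_pos (C.image l) (d := β) fun w hw => by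
      obtain ⟨V, hV, rfl⟩ := mem_image.1 hw
      exact ⟨(h V hV).2.2.1, (h V hV).2.2.2.1⟩
  rw [Nat.cast_one, one_pow, one_mul, div_one] at h2
  have h3 := card_le_card_of_injOn (s := C)
    (t := Icc (1 : ℤ) ⌊β⌋₊ ×ˢ (C.image l).image (lat N₀).mkQ)
    (fun V => (g V, (lat N₀).mkQ (l V))) (fun V hV => ?_) fun V hV V' hV' e => ?_
  · rw [card_product, Int.card_Icc, add_sub_cancel_right, Int.toNat_natCast] at h3
    refine (Nat.cast_le.2 h3).trans ?_
    rw [Nat.cast_mul]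
    exact mul_le_mul (Nat.floor_le (by linarith)) h2 (Nat.cast_nonneg _) (by linarith)
  · refine mem_coe.2 (mem_product.2 ⟨mem_Icc.2 ⟨(h V hV).1, ?_⟩,
      mem_image_of_mem _ (mem_image_of_mem _ hV)⟩)
    rw [Int.natCast_floor_eq_floor (by linarith)]
    exact Int.le_floor.2 (h V hV).2.1
  · obtain ⟨e1, e2⟩ := Prod.mk.inj e
    rw [(h V hV).2.2.2.2, (h V' hV').2.2.2.2]
    exact ccnt_ad_eq (by rw [map_add, map_add, e1, e2])

theorem fam_card {K β s : ℝ} (hK : 1 ≤ K) (hβ : 1 ≤ β) (hs : 0 < s) {ρ ρ' e₀ : ℕ} (hρ : ρ ≤ ρ')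
    (h4 : (β ^ 4) ^ 2 ≤ (ρ' + 1 : ℕ)) (he : Real.log K * Fintype.card ι ≤ e₀)
    (C : Finset (Finset ι × QS ι × (ι → QS ι))) (hC : ∀ x ∈ C, Cont K β ρ x.1 x.2.1 x.2.2) :
    (C.card : ℝ) ≤ 2 ^ Fintype.card ι *
      (((e₀ + 1) * Real.exp (47 * (ρ' + 1 : ℕ))) ^ Fintype.card ι * Real.exp (e₀ * (ρ' + 1 : ℕ))) *
      (β * Real.exp (10 * Real.pi * Fintype.card ι / s ^ 2 +
        Real.pi * s ^ 2 * (2 * β * K) ^ 2)) ^ Fintype.card ι := by
  classical
  have h1 := ccnt_all (one_le_pow₀ hβ) h4 e₀ (univ : Finset ι) e₀ le_rfl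
    (C.image fun x => pp x.2.1) fun P hP => by
      obtain ⟨x, hx, rfl⟩ := mem_image.1 hP
      have c := hC x hx
      refine ⟨clog_co_univ (ι := ι) ▸ le_top, c.dn.up_pp, ?_, ?_⟩
      · have e1 := dm_pp x.2.1
        have e2 := c.dim
        rw [card_univ]
        omega
      · rw [lh_pp]
        refine (Real.log_le_log (hs_pos _) c.hgt).trans ?_
        rw [Real.log_pow, mul_comm]
        exact he
  rw [card_univ] at h1
  rw [card_eq_sum_card_image (fun x => (x.1, pp x.2.1)) C, Nat.cast_sum]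
  refine (sum_le_card_nsmul _ _ ((β * Real.exp (10 * Real.pi * Fintype.card ι / s ^ 2 +
    Real.pi * s ^ 2 * (2 * β * K) ^ 2)) ^ Fintype.card ι) fun y hy => ?_).trans ?_
  · obtain ⟨⟨F, N₀, N⟩, -, rfl⟩ := mem_image.1 hy
    set D := C.filter fun x => (x.1, pp x.2.1) = (F, pp N₀)
    have h2 : ∀ x ∈ D, x.1 = F ∧ x.2.1 = N₀ := fun x hx => by
      obtain ⟨e1, e2⟩ := Prod.mk.inj (mem_filter.1 hx).2
      exact ⟨e1, by rw [← pp_pp x.2.1, e2, pp_pp]⟩
    have h3 := card_le_card_of_injOn (s := D)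
      (t := Fintype.piFinset fun j => D.image fun x => x.2.2 j) (fun x => x.2.2)
      (fun x hx => mem_coe.2 (Fintype.mem_piFinset.2 fun j => mem_image_of_mem _ hx))
      fun x hx y hy e => Prod.ext ((h2 x hx).1.trans (h2 y hy).1.symm)
        (Prod.ext ((h2 x hx).2.trans (h2 y hy).2.symm) e)
    refine (Nat.cast_le.2 h3).trans ?_
    rw [Fintype.card_piFinset, Nat.cast_prod, ← card_univ, ← prod_const]
    refine prod_le_prod (fun _ _ => Nat.cast_nonneg _) fun j _ => ?_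
    refine fam_opt hK hβ hs (ρ := ρ) (F := F) (N₀ := N₀) j _ fun V hV => ?_
    obtain ⟨x, hx, rfl⟩ := mem_image.1 hV
    exact ⟨x.2.2, (h2 x hx).1 ▸ (h2 x hx).2 ▸ hC x (mem_filter.1 hx).1, rfl⟩
  · rw [nsmul_eq_mul]
    refine mul_le_mul_of_nonneg_right ?_ (by positivity)
    have h3 := card_le_card (s := C.image fun x => (x.1, pp x.2.1))
      (t := univ ×ˢ C.image fun x => pp x.2.1) fun y hy => by
        obtain ⟨x, hx, rfl⟩ := mem_image.1 hy
        exact mem_product.2 ⟨mem_univ _, mem_image_of_mem _ hx⟩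
    refine (Nat.cast_le.2 h3).trans ?_
    rw [card_product, card_univ, Fintype.card_finset, Nat.cast_mul, Nat.cast_pow, Nat.cast_ofNat]
    exact mul_le_mul_of_nonneg_left h1 (by positivity)

end

theorem fam_fin {α : Type*} {p : α → Prop} {b : ℝ}
    (h : ∀ C : Finset α, (∀ x ∈ C, p x) → (C.card : ℝ) ≤ b) :
    ∃ C : Finset α, (C.card : ℝ) ≤ b ∧ ∀ x, p x → x ∈ C := by
  have h1 : {x | p x}.Finite := by
    by_contra h1
    obtain ⟨C, hC, e⟩ := Set.Infinite.exists_subset_card_eq h1 (⌊b⌋₊ + 1)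
    have := h C fun x hx => hC hx
    rw [e, Nat.cast_succ] at this
    linarith [Nat.lt_floor_add_one b]
  exact ⟨h1.toFinset, h _ fun x hx => h1.mem_toFinset.1 hx, fun x hx => h1.mem_toFinset.2 hx⟩

theorem FAM {K δ : ℝ} (hK : 1 ≤ K) (hδ : 0 < δ) : ∃ κ₀ : ℝ, 0 < κ₀ ∧ ∀ β : ℝ, 1 < β →
    ∀ᶠ n : ℕ in atTop, ∀ ρ : ℕ, (ρ : ℝ) ≤ κ₀ * n →
      ∃ 𝓕 : Finset (Finset (Fin n) × QS (Fin n) × (Fin n → QS (Fin n))),
        (𝓕.card : ℝ) ≤ Real.exp (δ * n ^ 2) ∧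
          ∀ F N₀ N, Cont K β ρ F N₀ N → (F, N₀, N) ∈ 𝓕 := by
  have hL := Real.log_nonneg hK
  set L := Real.log K
  have hπ := Real.pi_pos
  refine ⟨δ / (4 * (48 + L)), by positivity, fun β hβ => ?_⟩
  set κ := δ / (4 * (48 + L)) with hκ
  have hκ0 : 0 < κ := by positivity
  have hκ1 : κ * (48 + L) = δ / 4 := by rw [hκ]; field_simp
  set s := √(40 * Real.pi / δ)
  have hs2 : s ^ 2 = 40 * Real.pi / δ := Real.sq_sqrt (by positivity)
  set c := Real.pi * s ^ 2 * (2 * β * K) ^ 2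
  have hc : 0 ≤ c := by positivity
  have ev : ∀ x : ℝ, ∀ᶠ n : ℕ in atTop, x ≤ n := fun x =>
    tendsto_natCast_atTop_atTop.eventually_ge_atTop x
  filter_upwards [ev 1, ev ((β ^ 4) ^ 2 / κ), ev (32 * (L + 2) / δ ^ 2),
    ev (4 * (1 + (48 + L) + β + c) / δ)] with n h1 h2 h3 h4 ρ hρ
  rw [div_le_iff₀ (by positivity)] at h2 h3 h4
  have h5 : ((⌊κ * n⌋₊ + 1 : ℕ) : ℝ) ≤ κ * n + 1 := by
    push_cast
    linarith [Nat.floor_le (a := κ * n) (by positivity)]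
  have h6 : (⌈L * n⌉₊ : ℝ) ≤ L * n + 1 := (Nat.ceil_lt_add_one (by positivity)).le
  obtain ⟨C, hC, hC1⟩ := fam_fin (p := fun x : Finset (Fin n) × QS (Fin n) × (Fin n → QS (Fin n)) =>
    Cont K β ρ x.1 x.2.1 x.2.2) (fam_card hK hβ.le (s := s) (by positivity) (ρ' := ⌊κ * n⌋₊)
      (e₀ := ⌈L * n⌉₊) (Nat.le_floor hρ)
      (by push_cast; linarith [Nat.lt_floor_add_one (κ * n)])
      (by rw [Fintype.card_fin]; exact Nat.le_ceil _))
  refine ⟨C, hC.trans ?_, fun F N₀ N h => hC1 _ h⟩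
  rw [Fintype.card_fin]
  generalize ((⌊κ * n⌋₊ + 1 : ℕ) : ℝ) = r at h5 ⊢
  have he0 : (0 : ℝ) ≤ ⌈L * n⌉₊ := Nat.cast_nonneg _
  generalize (⌈L * n⌉₊ : ℝ) = e at h6 he0 ⊢
  have a1 : (2 : ℝ) ≤ Real.exp 1 := by linarith [Real.add_one_le_exp (1 : ℝ)]
  have a2 : e + 1 ≤ Real.exp (δ / 4 * n) := by
    have := Real.quadratic_le_exp_of_nonneg (x := δ / 4 * n) (by positivity)
    have : 0 ≤ δ / 4 * n := by positivity
    nlinarith
  have a3 : β ≤ Real.exp β := by linarith [Real.add_one_le_exp β]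
  have a4 : 10 * Real.pi * n / s ^ 2 = δ / 4 * n := by rw [hs2]; field_simp; ring
  rw [a4]
  calc _ ≤ Real.exp 1 ^ n * ((Real.exp (δ / 4 * n) * Real.exp (47 * r)) ^ n * Real.exp (e * r)) *
        (Real.exp β * Real.exp (δ / 4 * n + c)) ^ n := by gcongr
    _ ≤ _ := by
      simp only [← Real.exp_add, ← Real.exp_nat_mul]
      refine Real.exp_le_exp.2 ?_
      have b1 : (47 * n + e) * r ≤ (48 + L) * n * (κ * n + 1) := by
        rcases le_total r 0 with h | h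
        · exact (mul_nonpos_of_nonneg_of_nonpos (by positivity) h).trans (by positivity)
        · exact mul_le_mul (by linarith) h5 h (by positivity)
      have b2 : (48 + L) * n * (κ * n + 1) = δ / 4 * n ^ 2 + (48 + L) * n := by
        rw [← hκ1]; ring
      have b3 := mul_le_mul_of_nonneg_right h4 (Nat.cast_nonneg (α := ℝ) n)
      nlinarith

end Vale.Agent.P160F
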