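import Vale.Agent.P160F.Defs

/-! P160F, part Lower. The lower bound.
Hint: write `n = m + 2`, let `φ 0 = 1`, `φ j = j` otherwise. The map `A ↦ (A.submatrix φ φ, A 0)` is
injective on `SymSign n`; the first component is a singular symmetric sign matrix (rows `0` and `1`
agree, `Matrix.det_zero_of_row_eq`), the second takes at most `2 ^ n` values. `SymSign n` is finite
and nonempty (`red_range`). -/

open Finset Matrix Module Filter Topology

noncomputable section

namespace Vale.Agent.P160F

open Vale.Agent.P160

theorem LOWER {n : ℕ} (hn : 2 ≤ n) : (1 / 2 : ℝ) ^ n ≤ singProb n := by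
  obtain ⟨m, rfl⟩ : ∃ m, n = m + 2 := ⟨n - 2, by omega⟩
  have hfin : (SymSign (m + 2)).Finite := by
    rw [red_range]
    exact Set.finite_range _
  have hpos : 0 < (SymSign (m + 2)).ncard := by
    rw [Set.ncard_pos hfin, red_range]
    exact Set.range_nonempty _
  let φ : Fin (m + 2) → Fin (m + 2) := fun j => if j = 0 then 1 else j
  have h1 : (SymSign (m + 2)).ncard ≤ ({A ∈ SymSign (m + 2) | A.det = 0} ×ˢ
      (Set.univ : Set (Fin (m + 2) → Bool))).ncard := by
    refine Set.ncard_le_ncard_of_injOn (fun A => (A.submatrix φ φ, fun j => decide (A 0 j = 1)))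
      (fun A hA => ⟨⟨⟨hA.1.submatrix φ, fun i j => hA.2 _ _⟩, ?_⟩, Set.mem_univ _⟩)
      (fun A hA B hB h => ?_) ((hfin.subset fun A hA => hA.1).prod Set.finite_univ)
    · exact det_zero_of_row_eq (i := 0) (j := 1) Fin.zero_ne_one rfl
    · have h0 : ∀ j, A 0 j = B 0 j := fun j => by
        have h2 : (A 0 j = 1) ↔ (B 0 j = 1) := decide_eq_decide.1 (congrFun (congrArg Prod.snd h) j)
        rcases hA.2 0 j with a | a <;> rcases hB.2 0 j with b | b <;> omega
      ext i j
      by_cases hi : i = 0
      · rw [hi, h0]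
      by_cases hj : j = 0
      · rw [hj, hA.1.apply, hB.1.apply, h0]
      have h2 : A (φ i) (φ j) = B (φ i) (φ j) := congrFun (congrFun (congrArg Prod.fst h) i) j
      simpa only [φ, if_neg hi, if_neg hj] using h2
  rw [Set.ncard_prod, Set.ncard_univ, Nat.card_eq_fintype_card, Fintype.card_fun,
    Fintype.card_bool, Fintype.card_fin] at h1
  rw [singProb, le_div_iff₀ (by exact_mod_cast hpos), one_div, inv_pow,
    inv_mul_le_iff₀ (by positivity), mul_comm]
  exact_mod_cast h1

end Vale.Agent.P160F
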