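import Vale.Agent.P160F.Sing
import Vale.Agent.P160F.Lower

/-! P160F, part Final. The limit.
Hint: `singProb_succ` and `SING` give `singProb (n + 1) ≤ 2 ^ (-((1 - ε) n))`, so eventually
`singProb n ≤ 2 ^ (-((1 - 2 ε) n))` and `singProb n ^ (1 / n) ≤ 2 ^ (-(1 - 2 ε))`; `LOWER` gives
`1 / 2 ≤ singProb n ^ (1 / n)`. Use `tendsto_order` and continuity of `ε ↦ 2 ^ (-(1 - 2 ε))`. -/

open Finset Matrix Module Filter Topology

noncomputable section

namespace Vale.Agent.P160F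

open Vale.Agent.P160

theorem Final_low {n : ℕ} (hn : 2 ≤ n) : 1 / 2 ≤ singProb n ^ ((1 : ℝ) / n) := by
  have h := Real.rpow_le_rpow (by positivity) (LOWER hn) (z := (1 : ℝ) / n) (by positivity)
  rwa [one_div (n : ℝ), Real.pow_rpow_inv_natCast (by norm_num) (by omega), ← one_div (n : ℝ)] at h

theorem Final_up {ε : ℝ} (hε : 0 < ε) :
    ∀ᶠ n : ℕ in atTop, singProb n ^ ((1 : ℝ) / n) ≤ 2 ^ (-(1 - 2 * ε)) := by
  obtain ⟨N, hN⟩ := eventually_atTop.1 ((SING hε).and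
    (tendsto_natCast_atTop_atTop.eventually_ge_atTop (1 / ε)))
  filter_upwards [eventually_ge_atTop (N + 2)] with n hn
  obtain ⟨m, rfl⟩ : ∃ m, n = m + 1 := ⟨n - 1, by omega⟩
  obtain ⟨h1, h2⟩ := hN m (by omega)
  rw [div_le_iff₀ hε] at h2
  have h0 : (0 : ℝ) < (m + 1 : ℕ) := by positivity
  have h3 : singProb (m + 1) ≤ 2 ^ (-(1 - 2 * ε) * (m + 1 : ℕ)) := by
    refine ((singProb_succ m).trans h1).trans (Real.rpow_le_rpow_of_exponent_le one_le_two ?_)
    push_cast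
    linarith
  have h4 : 0 ≤ singProb (m + 1) := le_trans (by positivity) (LOWER (n := m + 1) (by omega))
  refine (Real.rpow_le_rpow h4 h3 (by positivity)).trans (le_of_eq ?_)
  rw [← Real.rpow_mul zero_le_two, mul_assoc, mul_one_div_cancel h0.ne', mul_one]

theorem final : Tendsto (fun n : ℕ => singProb n ^ ((1 : ℝ) / n)) atTop (𝓝 (1 / 2)) := by
  refine tendsto_order.2 ⟨fun a ha => ?_, fun a ha => ?_⟩
  · filter_upwards [eventually_ge_atTop 2] with n hn
    exact ha.trans_le (Final_low hn)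
  · have hc : Continuous fun ε : ℝ => (2 : ℝ) ^ (-(1 - 2 * ε)) :=
      continuous_const.rpow (by fun_prop) fun _ => Or.inl two_ne_zero
    have h1 : ∀ᶠ ε : ℝ in 𝓝[>] 0, (2 : ℝ) ^ (-(1 - 2 * ε)) < a :=
      ((hc.tendsto' 0 (1 / 2) (by norm_num)).eventually_lt_const ha).filter_mono nhdsWithin_le_nhds
    obtain ⟨ε, h2, h3⟩ := (h1.and self_mem_nhdsWithin).exists
    filter_upwards [Final_up h3] with n hn
    exact hn.trans_lt h2

end Vale.Agent.P160F
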