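import Vale.Agent.P160F.HE

/-! P160F, the height API: duality. -/

open Finset Matrix Module

noncomputable section

namespace Vale.Agent.P160F

variable {ι κ κ' : Type}

variable [Fintype ι] [Fintype κ] [Fintype κ'] [DecidableEq ι]

omit [DecidableEq ι] in
theorem hp_cast (z w : ι → ℤ) : zq z ⬝ᵥ zq w = ((z ⬝ᵥ w : ℤ) : ℚ) := by
  simp [zq, dotProduct]

theorem hp_ortho (U : QS ι) : rs (1 : Matrix ι ι ℤ) U ⟂ rs (1 : Matrix ι ι ℤ) (pp U) := by
  refine Submodule.isOrtho_span.2 ?_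
  rintro _ ⟨z, hz, rfl⟩ _ ⟨w, hw, rfl⟩
  have h : zq z ⬝ᵥ zq w = 0 := hw _ hz
  rw [hp_cast, Int.cast_eq_zero] at h
  rw [inner_ev, one_mulVec, one_mulVec, h, Int.cast_zero]

/-- One step: the two distances multiply to at least one. -/
theorem d1_mul_d1 {U V : QS ι} (h : U ≤ V) (hd : dm V = dm U + 1) {z w : ι → ℤ} (hz : z ∈ lat V)
    (hz' : z ∉ lat U) (hw : w ∈ lat (pp U)) (hw' : w ∉ lat (pp V)) :
    1 ≤ d1 U z * d1 (pp V) w := by
  have hV : ad U z = V := eq_of_dm (ad_le h hz) (by rw [dm_ad hz', hd])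
  have hne : z ⬝ᵥ w ≠ 0 := by
    intro h0
    refine hw' fun u hu => ?_
    rw [← hV] at hu
    obtain ⟨a, ha, b, hb, rfl⟩ := Submodule.mem_sup.1 hu
    obtain ⟨c, rfl⟩ := Submodule.mem_span_singleton.1 hb
    rw [add_dotProduct, hw a ha, smul_dotProduct, hp_cast, h0]
    simp
  obtain ⟨p, hp1, -, hp3⟩ := exists_perp (1 : Matrix ι ι ℤ) U z
  obtain ⟨q, hq1, -, hq3⟩ := exists_perp (1 : Matrix ι ι ℤ) (pp V) w
  have hpV : p ∈ rs (1 : Matrix ι ι ℤ) V := by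
    have := (rs (1 : Matrix ι ι ℤ) V).sub_mem (ev_mem_rs 1 hz) (rs_mono 1 h hp1)
    rwa [sub_sub_cancel] at this
  have e1 : inner ℝ (ev (1 : Matrix ι ι ℤ) z - p) (ev (1 : Matrix ι ι ℤ) w) = 0 :=
    (hp_ortho U).inner_eq hp1 (ev_mem_rs 1 hw)
  have e2 : inner ℝ p (ev (1 : Matrix ι ι ℤ) w - q) = 0 := (hp_ortho V).inner_eq hpV hq1
  rw [inner_sub_left, inner_ev, one_mulVec, one_mulVec] at e1
  rw [inner_sub_right] at e2
  have e3 : ((z ⬝ᵥ w : ℤ) : ℝ) = inner ℝ p q := by linarith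
  have e4 : (1 : ℝ) ≤ |((z ⬝ᵥ w : ℤ) : ℝ)| := by exact_mod_cast Int.one_le_abs hne
  rw [d1, d1, hp3, hq3]
  exact e4.trans (e3 ▸ abs_real_inner_le_norm p q)

theorem hs_pp_rel {X U : QS ι} (h : X ≤ U) : hs X * hs (pp U) ≤ hs U * hs (pp X) := by
  refine chain_ind (P := fun U => hs X * hs (pp U) ≤ hs U * hs (pp X)) le_rfl ?_ h
  intro U V _ hUV hd ih
  obtain ⟨z, hz, hz', -, e1, -⟩ := exists_gen (inj_one (ι := ι)) hUV hd
  have hd' : dm (pp U) = dm (pp V) + 1 := by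
    have h1 := dm_pp U
    have h2 := dm_pp V
    omega
  obtain ⟨w, hw, hw', -, e2, -⟩ := exists_gen (inj_one (ι := ι)) (pp_anti hUV) hd'
  have h1 := d1_mul_d1 hUV hd hz hz' hw hw'
  have h2 : 0 ≤ hs X * hs (pp V) := mul_nonneg (ht_nonneg _ _) (ht_nonneg _ _)
  have h3 := mul_le_mul_of_nonneg_right ih (ds_nonneg (1 : Matrix ι ι ℤ) U z)
  have h4 := mul_le_mul_of_nonneg_left h1 h2
  simp only [hs, d1] at *
  rw [e2] at h3
  rw [e1]
  linarith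

/-- H3. -/
theorem hs_pp (U : QS ι) : hs (pp U) = hs U := by
  have ht1 : hs (⊤ : QS ι) = 1 := by
    have e : (co univ : QS ι) = ⊤ := eq_top_iff.2 fun x _ i hi => absurd (mem_univ i) hi
    rw [← e, hs_co]
  have hb : hs (⊥ : QS ι) = 1 := ht_bot _
  have h1 := hs_pp_rel (bot_le (a := U))
  have h2 := hs_pp_rel (le_top (a := U))
  rw [pp_bot, hb, ht1] at h1
  rw [pp_top, hb, ht1] at h2
  linarith

theorem Dn.up_pp {S : ℝ} {W : QS ι} (h : Dn (1 : Matrix ι ι ℤ) S W) :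
    Up (1 : Matrix ι ι ℤ) S (pp W) ⊤ := by
  intro U hU _
  have h1 : pp U ≤ W := by
    have := pp_anti hU
    rwa [pp_pp] at this
  have h2 := h _ h1
  have h3 := dm_pp U
  have h4 := dm_pp W
  have e : dm W - dm (pp U) = dm U - dm (pp W) := by omega
  have e1 : ht (1 : Matrix ι ι ℤ) (pp U) = ht 1 U := hs_pp U
  have e2 : ht (1 : Matrix ι ι ℤ) (pp W) = ht 1 W := hs_pp W
  rwa [e, e1, ← e2] at h2

end Vale.Agent.P160F
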