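import Vale.Agent.P160F.HF
import Vale.Agent.P160F.HP

/-! P160F, the height API (proved in the files `HA` to `HP`). -/
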