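import Vale.Agent.P160F.Defs

/-! P160F, the height API: dimensions and chains. -/

open Finset Matrix Module

noncomputable section

namespace Vale.Agent.P160F

variable {ι κ κ' : Type}

theorem mem_lat {U : QS ι} {z : ι → ℤ} : z ∈ lat U ↔ zq z ∈ U := Iff.rfl

theorem mem_co {F : Finset ι} {x : ι → ℚ} : x ∈ co F ↔ ∀ i, i ∉ F → x i = 0 := Iff.rfl

theorem zq_add (x y : ι → ℤ) : zq (x + y) = zq x + zq y := funext fun _ => Int.cast_add _ _

theorem zq_sub (x y : ι → ℤ) : zq (x - y) = zq x - zq y := funext fun _ => Int.cast_sub _ _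

theorem zq_smul (c : ℤ) (x : ι → ℤ) : zq (c • x) = (c : ℚ) • zq x :=
  funext fun _ => Int.cast_mul _ _

theorem zq_zero : zq (0 : ι → ℤ) = 0 := funext fun _ => Int.cast_zero

theorem lat_mono {U V : QS ι} (h : U ≤ V) : lat U ≤ lat V := fun _ hz => h hz

theorem le_ad (U : QS ι) (z : ι → ℤ) : U ≤ ad U z := le_sup_left

theorem self_mem_ad (U : QS ι) (z : ι → ℤ) : z ∈ lat (ad U z) :=
  Submodule.mem_sup_right (Submodule.mem_span_singleton_self _)

theorem ad_le {U V : QS ι} {z : ι → ℤ} (h : U ≤ V) (hz : z ∈ lat V) : ad U z ≤ V :=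
  sup_le h ((Submodule.span_singleton_le_iff_mem _ _).2 hz)

variable [Fintype ι] [Fintype κ] [Fintype κ']

theorem mem_pp {U : QS ι} {x : ι → ℚ} : x ∈ pp U ↔ ∀ u ∈ U, u ⬝ᵥ x = 0 := Iff.rfl

theorem dm_mono {U V : QS ι} (h : U ≤ V) : dm U ≤ dm V := Submodule.finrank_mono h

theorem eq_of_dm {U V : QS ι} (h : U ≤ V) (hd : dm V ≤ dm U) : U = V :=
  Submodule.eq_of_le_of_finrank_le h hd

/-- Clearing denominators. -/
theorem exists_den (x : ι → ℚ) : ∃ d : ℤ, 0 < d ∧ ∃ z : ι → ℤ, zq z = (d : ℚ) • x := by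
  obtain ⟨d, hd⟩ := IsLocalization.exist_integer_multiples_of_finite (nonZeroDivisors ℤ) x
  have hd0 : (d : ℤ) ≠ 0 := nonZeroDivisors.coe_ne_zero d
  choose z hz using hd
  refine ⟨d * d, mul_self_pos.2 hd0, (d : ℤ) • z, funext fun i => ?_⟩
  have h := hz i
  simp only [eq_intCast, zsmul_eq_mul] at h
  simp only [zq, Pi.smul_apply, smul_eq_mul, Int.cast_mul, h, mul_assoc]

theorem exists_int {U V : QS ι} (h : ¬V ≤ U) : ∃ z ∈ lat V, z ∉ lat U := by
  obtain ⟨x, hx, hx'⟩ := SetLike.not_le_iff_exists.1 h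
  obtain ⟨d, hd, z, hz⟩ := exists_den x
  refine ⟨z, mem_lat.2 (hz ▸ V.smul_mem _ hx), fun h' => hx' ?_⟩
  rw [mem_lat, hz] at h'
  exact (U.smul_mem_iff (Int.cast_ne_zero.2 hd.ne')).1 h'

theorem dm_co (F : Finset ι) : dm (co F) = F.card := by
  classical
  let e : co F ≃ₗ[ℚ] (F → ℚ) :=
    { toFun := fun x i => x.1 i
      map_add' := fun _ _ => rfl
      map_smul' := fun _ _ => rfl
      invFun := fun y => ⟨fun i => if h : i ∈ F then y ⟨i, h⟩ else 0, fun _ hi => dif_neg hi⟩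
      left_inv := fun x => Subtype.ext (funext fun i => by
        by_cases h : i ∈ F
        · exact dif_pos h
        · exact (dif_neg h).trans (x.2 i h).symm)
      right_inv := fun y => funext fun i => dif_pos i.2 }
  rw [dm, e.finrank_eq, finrank_fintype_fun_eq_card, Fintype.card_coe]

theorem dm_ad {U : QS ι} {z : ι → ℤ} (hz : z ∉ lat U) : dm (ad U z) = dm U + 1 := by
  have h0 : zq z ≠ 0 := fun h => hz (mem_lat.2 (h ▸ U.zero_mem))
  have h1 := Submodule.finrank_sup_add_finrank_inf_eq U (Submodule.span ℚ {zq z})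
  have h2 : U ⊓ Submodule.span ℚ {zq z} = ⊥ :=
    disjoint_iff.1 (Submodule.disjoint_span_singleton_of_notMem hz)
  rw [h2, finrank_bot, finrank_span_singleton h0] at h1
  exact h1

theorem dm_sup_inf (U V : QS ι) : dm (U ⊔ V) + dm (U ⊓ V) = dm U + dm V :=
  Submodule.finrank_sup_add_finrank_inf_eq U V

/-- Induction along a chain of subspaces from `X` up. -/
theorem chain_ind {X : QS ι} {P : QS ι → Prop} (h0 : P X)
    (step : ∀ U V, X ≤ U → U ≤ V → dm V = dm U + 1 → P U → P V) {U : QS ι} (h : X ≤ U) : P U := by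
  have key : ∀ k : ℕ, ∀ Y, X ≤ Y → P Y → Y ≤ U → dm U = dm Y + k → P U := by
    intro k
    induction k with
    | zero => exact fun Y _ h2 h3 h4 => eq_of_dm h3 h4.le ▸ h2
    | succ k ih =>
      intro Y h1 h2 h3 h4
      have h5 : ¬U ≤ Y := fun h6 => by
        have := dm_mono h6
        omega
      obtain ⟨z, hz, hz'⟩ := exists_int h5
      have h6 := dm_ad hz'
      exact ih (ad Y z) (h1.trans (le_ad Y z)) (step Y _ h1 (le_ad Y z) h6 h2) (ad_le h3 hz)
        (by omega)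
  have := dm_mono h
  exact key (dm U - dm X) X le_rfl h0 h (by omega)

theorem ha_zq (M : Matrix ι ι ℤ) (z : ι → ℤ) :
    (M.map (Int.cast : ℤ → ℚ)).mulVecLin (zq z) = zq (M *ᵥ z) := by
  funext i
  simp [zq, mulVec, dotProduct]

variable [DecidableEq ι]

theorem ha_inj {M : Matrix ι ι ℤ} (hM : M.det ≠ 0) :
    Function.Injective (M.map (Int.cast : ℤ → ℚ)).mulVecLin := by
  have h : (M.map (Int.cast : ℤ → ℚ)).det ≠ 0 := by
    rw [← Int.cast_det]
    exact Int.cast_ne_zero.2 hM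
  rw [injective_iff_map_eq_zero]
  exact fun x hx => eq_zero_of_mulVec_eq_zero h hx

theorem inj_one : Inj (1 : Matrix ι ι ℤ) := fun z hz => by rwa [one_mulVec] at hz

theorem inj_mul {G : Matrix κ ι ℤ} (hG : Inj G) {M : Matrix ι ι ℤ} (hM : M.det ≠ 0) :
    Inj (G * M) := fun z hz => by
  rw [← mulVec_mulVec] at hz
  exact eq_zero_of_mulVec_eq_zero hM (hG _ hz)

omit [DecidableEq ι] in
theorem mulVec_mem_mp (M : Matrix ι ι ℤ) {U : QS ι} {z : ι → ℤ} (hz : z ∈ lat U) :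
    M *ᵥ z ∈ lat (mp M U) :=
  ⟨zq z, hz, ha_zq M z⟩

theorem mem_of_mulVec_mem_mp {M : Matrix ι ι ℤ} (hM : M.det ≠ 0) {U : QS ι} {z : ι → ℤ}
    (hz : M *ᵥ z ∈ lat (mp M U)) : z ∈ lat U := by
  obtain ⟨x, hx, e⟩ := mem_lat.1 hz
  rw [← ha_zq] at e
  exact mem_lat.2 (ha_inj hM e ▸ hx)

omit [DecidableEq ι] in
theorem mp_ad (M : Matrix ι ι ℤ) (U : QS ι) (z : ι → ℤ) :
    mp M (ad U z) = ad (mp M U) (M *ᵥ z) := by
  rw [mp, ad, Submodule.map_sup, Submodule.map_span, Set.image_singleton, ha_zq]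
  rfl

theorem mp_top {M : Matrix ι ι ℤ} (hM : M.det ≠ 0) : mp M (⊤ : QS ι) = ⊤ := by
  rw [mp, Submodule.map_top, LinearMap.range_eq_top]
  exact LinearMap.injective_iff_surjective.1 (ha_inj hM)

theorem dm_mp {M : Matrix ι ι ℤ} (hM : M.det ≠ 0) (U : QS ι) : dm (mp M U) = dm U :=
  (Submodule.equivMapOfInjective _ (ha_inj hM) U).finrank_eq.symm

end Vale.Agent.P160F
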