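import Vale.Agent.P160F.HA

/-! P160F, the height API: complements, ranks, information sets. -/

open Finset Matrix Module

noncomputable section

namespace Vale.Agent.P160F

variable {ι κ κ' : Type}

variable [Fintype ι] [Fintype κ] [Fintype κ']

theorem pp_anti {U V : QS ι} (h : U ≤ V) : pp V ≤ pp U := fun _ hx u hu => hx u (h hu)

theorem dm_pp (U : QS ι) : dm (pp U) + dm U = Fintype.card ι := by
  have h := LinearMap.BilinForm.finrank_add_finrank_orthogonal'
    (B := (dotProductBilin ℚ ℚ : LinearMap.BilinForm ℚ (ι → ℚ))) U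
  have e1 : LinearMap.BilinForm.orthogonal (dotProductBilin ℚ ℚ : LinearMap.BilinForm ℚ (ι → ℚ)) U
      = pp U := by
    ext x
    exact Iff.rfl
  have e2 : LinearMap.ker (dotProductBilin ℚ ℚ : LinearMap.BilinForm ℚ (ι → ℚ)) = ⊥ := by
    refine LinearMap.ker_eq_bot'.2 fun x hx => ?_
    have h1 : x ⬝ᵥ x = 0 := LinearMap.congr_fun hx x
    exact dotProduct_self_eq_zero.1 h1
  rw [e1, e2, inf_bot_eq, finrank_bot, add_zero, finrank_fintype_fun_eq_card] at h
  unfold dm
  omega

theorem pp_pp (U : QS ι) : pp (pp U) = U := by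
  have h1 := dm_pp U
  have h2 := dm_pp (pp U)
  refine (eq_of_dm (fun u hu x hx => ?_) (by omega)).symm
  rw [dotProduct_comm]
  exact hx u hu

theorem pp_bot : pp (⊥ : QS ι) = ⊤ := by
  refine eq_top_iff.2 fun x _ u hu => ?_
  rw [(Submodule.mem_bot ℚ).1 hu, zero_dotProduct]

theorem pp_top : pp (⊤ : QS ι) = ⊥ := by
  rw [← pp_bot, pp_pp]

/-- The inclusion of the integer points. -/
def HB_inc (U : QS ι) : lat U →ₗ[ℤ] U where
  toFun z := ⟨zq z.1, z.2⟩
  map_add' x y := Subtype.ext (zq_add x.1 y.1)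
  map_smul' c x := Subtype.ext (by
    funext i
    simp [zq])

theorem finrank_lat (U : QS ι) : finrank ℤ (lat U) = dm U := by
  have hk : LinearMap.ker (HB_inc U) = ⊥ := by
    refine LinearMap.ker_eq_bot'.2 fun z hz => Subtype.ext (funext fun i => ?_)
    have h1 : (z.1 i : ℚ) = 0 := congrFun (congrArg Subtype.val hz) i
    exact_mod_cast h1
  apply le_antisymm
  · have h1 := (finBasis ℤ (lat U)).linearIndependent.map' (HB_inc U) hk
    have h2 := (LinearIndependent.iff_fractionRing ℤ ℚ).1 h1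
    simpa [dm] using h2.fintype_card_le_finrank
  · choose d hd z hz using fun i => exists_den ((finBasis ℚ U i : U) : ι → ℚ)
    have hm : ∀ i, z i ∈ lat U := fun i => by
      rw [mem_lat, hz i]
      exact U.smul_mem _ (finBasis ℚ U i).2
    have h1 := (finBasis ℚ U).linearIndependent.units_smul
      fun i => Units.mk0 (d i : ℚ) (by exact_mod_cast (hd i).ne')
    have h2 := (LinearIndependent.iff_fractionRing ℤ ℚ).2 h1
    have h3 : LinearIndependent ℤ fun i => (⟨z i, hm i⟩ : lat U) := by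
      refine LinearIndependent.of_comp (HB_inc U) ?_
      have e : (HB_inc U ∘ fun i => (⟨z i, hm i⟩ : lat U))
          = (fun i => Units.mk0 (d i : ℚ) (by exact_mod_cast (hd i).ne')) • ⇑(finBasis ℚ U) := by
        funext i
        exact Subtype.ext (hz i)
      rw [e]
      exact h2
    simpa [dm] using h3.fintype_card_le_finrank

/-- An information set. -/
theorem exists_info {𝕜 : Type} [Field 𝕜] (W : Submodule 𝕜 (ι → 𝕜)) :
    ∃ I : Finset ι, I.card = finrank 𝕜 W ∧ ∀ x ∈ W, (∀ i ∈ I, x i = 0) → x = 0 := by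
  classical
  obtain ⟨b, -, -, h1, h2⟩ := exists_linearIndepOn_extension (K := 𝕜)
    (v := fun i : ι => ((LinearMap.proj i).comp W.subtype : Dual 𝕜 W))
    (linearIndepOn_empty 𝕜 _) (Set.empty_subset Set.univ)
  have key : ∀ x ∈ W, (∀ i ∈ b.toFinset, x i = 0) → x = 0 := by
    intro x hx h0
    funext j
    have h3 := h1 ⟨j, Set.mem_univ j, rfl⟩
    have h4 : Submodule.span 𝕜 ((fun i : ι => ((LinearMap.proj i).comp W.subtype : Dual 𝕜 W)) '' b)
        ≤ LinearMap.ker (Dual.eval 𝕜 W ⟨x, hx⟩) := by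
      refine Submodule.span_le.2 ?_
      rintro _ ⟨i, hi, rfl⟩
      exact h0 i (Set.mem_toFinset.2 hi)
    exact h4 h3
  refine ⟨b.toFinset, le_antisymm ?_ ?_, key⟩
  · have h3 := LinearIndependent.fintype_card_le_finrank h2
    rwa [Subspace.dual_finrank_eq, ← Set.toFinset_card] at h3
  · have h3 : Function.Injective
        ((LinearMap.pi fun i : b => LinearMap.proj (R := 𝕜) (φ := fun _ : ι => 𝕜) i.1).comp
          W.subtype) := by
      refine LinearMap.ker_eq_bot.1 (LinearMap.ker_eq_bot'.2 fun x hx => ?_)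
      exact Subtype.ext (key x.1 x.2 fun i hi => congrFun hx ⟨i, Set.mem_toFinset.1 hi⟩)
    have h4 := LinearMap.finrank_le_finrank_of_injective h3
    rwa [finrank_fintype_fun_eq_card, ← Set.toFinset_card] at h4

end Vale.Agent.P160F
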