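import Vale.Agent.P160F.HB

/-! P160F, the height API: real spans and distances. -/

open Finset Matrix Module

noncomputable section

namespace Vale.Agent.P160F

variable {ι κ κ' : Type}

variable [Fintype ι] [Fintype κ] [Fintype κ']

omit [Fintype κ] in
theorem ev_add (G : Matrix κ ι ℤ) (z w : ι → ℤ) : ev G (z + w) = ev G z + ev G w := by
  ext i
  simp [ev, zr, mulVec_add]

omit [Fintype κ] in
theorem ev_sub (G : Matrix κ ι ℤ) (z w : ι → ℤ) : ev G (z - w) = ev G z - ev G w := by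
  ext i
  simp [ev, zr, mulVec_sub]

omit [Fintype κ] in
theorem ev_smul (G : Matrix κ ι ℤ) (a : ℤ) (z : ι → ℤ) : ev G (a • z) = (a : ℝ) • ev G z := by
  rw [ev, ev, mulVec_smul]
  ext i
  exact Int.cast_mul _ _

omit [Fintype κ] in
theorem ev_sum (G : Matrix κ ι ℤ) {μ : Type} [Fintype μ] (a : μ → ℤ) (z : μ → ι → ℤ) :
    ev G (∑ i, a i • z i) = ∑ i, (a i : ℝ) • ev G (z i) :=
  (map_sum (AddMonoidHom.mk' (ev G) (ev_add G)) _ _).trans
    (Finset.sum_congr rfl fun i _ => ev_smul G (a i) (z i))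

omit [Fintype κ] in
theorem ev_mul (G : Matrix κ ι ℤ) (M : Matrix ι ι ℤ) (z : ι → ℤ) :
    ev (G * M) z = ev G (M *ᵥ z) := by
  rw [ev, ev, mulVec_mulVec]

omit [Fintype κ] in
theorem ev_eq (G : Matrix κ ι ℤ) (z : ι → ℤ) :
    ev G z = WithLp.toLp 2 (G.map (Int.cast : ℤ → ℝ) *ᵥ zr z) := by
  ext i
  simp [ev, zr, mulVec, dotProduct]

theorem inner_ev (G : Matrix κ ι ℤ) (z w : ι → ℤ) :
    inner ℝ (ev G z) (ev G w) = (((G *ᵥ z) ⬝ᵥ (G *ᵥ w) : ℤ) : ℝ) := by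
  simp [ev, zr, PiLp.inner_apply, dotProduct, mul_comm]

omit [Fintype κ] in
theorem ev_mem_rs (G : Matrix κ ι ℤ) {U : QS ι} {z : ι → ℤ} (hz : z ∈ lat U) : ev G z ∈ rs G U :=
  Submodule.subset_span ⟨z, hz, rfl⟩

omit [Fintype κ] in
theorem rs_mono (G : Matrix κ ι ℤ) {U V : QS ι} (h : U ≤ V) : rs G U ≤ rs G V :=
  Submodule.span_mono (Set.image_mono (lat_mono h))

omit [Fintype κ] in
theorem rs_basis (G : Matrix κ ι ℤ) {U : QS ι} {μ : Type} [Fintype μ] (b : Basis μ ℤ (lat U)) :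
    rs G U = Submodule.span ℝ (Set.range fun i => ev G (b i : ι → ℤ)) := by
  refine le_antisymm (Submodule.span_le.2 ?_) (Submodule.span_le.2 ?_)
  · rintro _ ⟨z, hz, rfl⟩
    have e : z = ∑ i, b.repr ⟨z, hz⟩ i • (b i : ι → ℤ) := by
      have h := congrArg Subtype.val (b.sum_repr ⟨z, hz⟩)
      rw [Submodule.coe_sum] at h
      exact h.symm
    rw [e, ev_sum]
    exact Submodule.sum_mem _ fun i _ =>
      Submodule.smul_mem _ _ (Submodule.subset_span ⟨i, rfl⟩)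
  · rintro _ ⟨i, rfl⟩
    exact ev_mem_rs G (b i).2

omit [Fintype κ] in
theorem hc_den (G : Matrix κ ι ℤ) {S : Submodule ℝ (EuclideanSpace ℝ κ)} {d : ℤ} (hd : d ≠ 0)
    {w : ι → ℤ} (h : ev G (d • w) ∈ S) : ev G w ∈ S := by
  rw [ev_smul] at h
  exact (S.smul_mem_iff (Int.cast_ne_zero.2 hd)).1 h

theorem hc_zq_mul (M : Matrix ι ι ℤ) (z : ι → ℤ) :
    zq (M *ᵥ z) = M.map (Int.cast : ℤ → ℚ) *ᵥ zq z := by
  ext i
  simp [zq, mulVec, dotProduct]

omit [Fintype κ] in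
theorem rs_ad (G : Matrix κ ι ℤ) (U : QS ι) (z : ι → ℤ) :
    rs G (ad U z) = rs G U ⊔ Submodule.span ℝ {ev G z} := by
  refine le_antisymm (Submodule.span_le.2 ?_) (sup_le (rs_mono G (le_ad U z))
    ((Submodule.span_singleton_le_iff_mem _ _).2 (ev_mem_rs G (self_mem_ad U z))))
  rintro _ ⟨w, hw, rfl⟩
  obtain ⟨u, hu, v, hv, e⟩ := Submodule.mem_sup.1 (mem_lat.1 hw)
  obtain ⟨a, rfl⟩ := Submodule.mem_span_singleton.1 hv
  have h1 : (a.den : ℤ) • w - a.num • z ∈ lat U := by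
    rw [mem_lat, zq_sub, zq_smul, zq_smul, ← e, smul_add, smul_smul, Int.cast_natCast,
      Rat.den_mul_eq_num, add_sub_cancel_right]
    exact U.smul_mem _ hu
  refine hc_den G (d := a.den) (Int.natCast_ne_zero.2 a.den_nz) ?_
  rw [← sub_add_cancel ((a.den : ℤ) • w) (a.num • z), ev_add, ev_smul]
  exact Submodule.add_mem_sup (ev_mem_rs G h1)
    (Submodule.smul_mem _ _ (Submodule.mem_span_singleton_self _))

omit [Fintype κ] in
/-- Real spans do not see the lattice. -/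
theorem rs_mul (G : Matrix κ ι ℤ) (M : Matrix ι ι ℤ) (U : QS ι) :
    rs (G * M) U = rs G (mp M U) := by
  refine le_antisymm (Submodule.span_le.2 ?_) (Submodule.span_le.2 ?_)
  · rintro _ ⟨z, hz, rfl⟩
    rw [ev_mul]
    exact ev_mem_rs G (mulVec_mem_mp M hz)
  · rintro _ ⟨w, hw, rfl⟩
    obtain ⟨x, hx, e⟩ := Submodule.mem_map.1 (mem_lat.1 hw)
    obtain ⟨d, hd, z, hz⟩ := exists_den x
    have h1 : z ∈ lat U := by
      rw [mem_lat, hz]
      exact U.smul_mem _ hx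
    have h2 : zq (d • w) = zq (M *ᵥ z) := by
      rw [zq_smul, hc_zq_mul, hz, mulVec_smul, ← e, mulVecLin_apply]
    have h3 : d • w = M *ᵥ z := funext fun i => Int.cast_injective (α := ℚ) (congrFun h2 i)
    refine hc_den G hd.ne' ?_
    rw [h3, ← ev_mul]
    exact ev_mem_rs _ h1

omit [Fintype κ] in
/-- Elements of the real span are images of real points of the standard real span. -/
theorem mem_rs_iff [DecidableEq ι] (G : Matrix κ ι ℤ) (U : QS ι) (y : EuclideanSpace ℝ κ) :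
    y ∈ rs G U ↔ ∃ x ∈ rs (1 : Matrix ι ι ℤ) U,
      y = WithLp.toLp 2 (G.map (Int.cast : ℤ → ℝ) *ᵥ WithLp.ofLp x) := by
  let L : EuclideanSpace ℝ ι →ₗ[ℝ] EuclideanSpace ℝ κ :=
    (WithLp.linearEquiv 2 ℝ (κ → ℝ)).symm.toLinearMap ∘ₗ
      (G.map (Int.cast : ℤ → ℝ)).mulVecLin ∘ₗ (WithLp.linearEquiv 2 ℝ (ι → ℝ)).toLinearMap
  have hL : ∀ x, L x = WithLp.toLp 2 (G.map (Int.cast : ℤ → ℝ) *ᵥ WithLp.ofLp x) := fun _ => rfl
  have e : rs G U = (rs (1 : Matrix ι ι ℤ) U).map L := by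
    rw [rs, rs, Submodule.map_span, Set.image_image]
    refine congrArg _ (Set.image_congr fun z _ => ?_)
    rw [hL, ev_eq, ev, one_mulVec]
  rw [e, Submodule.mem_map]
  exact ⟨fun ⟨x, hx, h⟩ => ⟨x, hx, h.symm⟩, fun ⟨x, hx, h⟩ => ⟨x, hx, h.symm⟩⟩

theorem finrank_rs_le (G : Matrix κ ι ℤ) (U : QS ι) : finrank ℝ (rs G U) ≤ dm U := by
  rw [rs_basis G (Module.finBasis ℤ (lat U))]
  refine (finrank_range_le_card _).trans ?_
  rw [Fintype.card_fin, finrank_lat]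

theorem hc_eq (S : Submodule ℝ (EuclideanSpace ℝ κ)) {v w : EuclideanSpace ℝ κ}
    (h1 : v - w ∈ S) (h2 : w ∈ Sᗮ) : Metric.infDist v (S : Set (EuclideanSpace ℝ κ)) = ‖w‖ := by
  refine le_antisymm ((Metric.infDist_le_dist_of_mem h1).trans_eq ?_)
    ((Metric.le_infDist ⟨0, S.zero_mem⟩).2 fun y hy => ?_)
  · rw [dist_eq_norm, sub_sub_cancel]
  · have h3 := norm_add_sq_eq_norm_sq_add_norm_sq_of_inner_eq_zero (𝕜 := ℝ) (v - w - y) w
      (Submodule.inner_right_of_mem_orthogonal (S.sub_mem h1 hy) h2)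
    rw [show v - w - y + w = v - y by abel] at h3
    rw [dist_eq_norm]
    exact abs_le_of_sq_le_sq' (by nlinarith [norm_nonneg (v - w - y)]) (norm_nonneg _) |>.2

theorem hc_perp (S : Submodule ℝ (EuclideanSpace ℝ κ)) (v : EuclideanSpace ℝ κ) :
    ∃ w, v - w ∈ S ∧ w ∈ Sᗮ :=
  ⟨v - S.starProjection v, by
    rw [sub_sub_cancel]
    exact S.starProjection_apply_mem v, S.sub_starProjection_mem_orthogonal v⟩

theorem ds_nonneg (G : Matrix κ ι ℤ) (U : QS ι) (z : ι → ℤ) : 0 ≤ ds G U z :=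
  Metric.infDist_nonneg

theorem ds_anti (G : Matrix κ ι ℤ) {U V : QS ι} (h : U ≤ V) (z : ι → ℤ) : ds G V z ≤ ds G U z :=
  Metric.infDist_le_infDist_of_subset (rs_mono G h) ⟨0, Submodule.zero_mem _⟩

theorem ds_congr (G : Matrix κ ι ℤ) {U : QS ι} {z w : ι → ℤ} (h : z - w ∈ lat U) :
    ds G U z = ds G U w := by
  obtain ⟨u, h1, h2⟩ := hc_perp (rs G U) (ev G w)
  have h3 : ev G z - u ∈ rs G U := by
    rw [show ev G z - u = ev G (z - w) + (ev G w - u) by rw [ev_sub]; abel]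
    exact Submodule.add_mem _ (ev_mem_rs G h) h1
  rw [ds, ds, hc_eq _ h1 h2, hc_eq _ h3 h2]

theorem ds_smul (G : Matrix κ ι ℤ) (U : QS ι) (a : ℤ) (z : ι → ℤ) :
    ds G U (a • z) = |(a : ℝ)| * ds G U z := by
  obtain ⟨u, h1, h2⟩ := hc_perp (rs G U) (ev G z)
  have h3 : ev G (a • z) - (a : ℝ) • u ∈ rs G U := by
    rw [ev_smul, ← smul_sub]
    exact Submodule.smul_mem _ _ h1
  rw [ds, ds, hc_eq _ h1 h2, hc_eq _ h3 (Submodule.smul_mem _ _ h2), norm_smul, Real.norm_eq_abs]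

theorem ds_add_le (G : Matrix κ ι ℤ) (U : QS ι) (z w : ι → ℤ) :
    ds G U (z + w) ≤ ds G U z + ds G U w := by
  obtain ⟨u, h1, h2⟩ := hc_perp (rs G U) (ev G z)
  obtain ⟨v, h3, h4⟩ := hc_perp (rs G U) (ev G w)
  have h5 : ev G (z + w) - (u + v) ∈ rs G U := by
    rw [show ev G (z + w) - (u + v) = ev G z - u + (ev G w - v) by rw [ev_add]; abel]
    exact Submodule.add_mem _ h1 h3
  rw [ds, ds, ds, hc_eq _ h1 h2, hc_eq _ h3 h4, hc_eq _ h5 (Submodule.add_mem _ h2 h4)]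
  exact norm_add_le _ _

theorem ds_le_norm (G : Matrix κ ι ℤ) (U : QS ι) (z : ι → ℤ) : ds G U z ≤ ‖ev G z‖ :=
  (Metric.infDist_le_dist_of_mem (Submodule.zero_mem _)).trans_eq (dist_zero_right _)

/-- The distance is the norm of the orthogonal component. -/
theorem ds_eq_norm (G : Matrix κ ι ℤ) (U : QS ι) (z : ι → ℤ) {w : EuclideanSpace ℝ κ}
    (h1 : ev G z - w ∈ rs G U) (h2 : w ∈ (rs G U)ᗮ) : ds G U z = ‖w‖ :=
  hc_eq _ h1 h2

theorem exists_perp (G : Matrix κ ι ℤ) (U : QS ι) (z : ι → ℤ) :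
    ∃ w : EuclideanSpace ℝ κ, ev G z - w ∈ rs G U ∧ w ∈ (rs G U)ᗮ ∧ ds G U z = ‖w‖ :=
  let ⟨w, h1, h2⟩ := hc_perp (rs G U) (ev G z)
  ⟨w, h1, h2, hc_eq _ h1 h2⟩

theorem ds_le_of_mem (G : Matrix κ ι ℤ) (U : QS ι) (z : ι → ℤ) {y : EuclideanSpace ℝ κ}
    (hy : y ∈ rs G U) : ds G U z ≤ ‖ev G z - y‖ :=
  (Metric.infDist_le_dist_of_mem hy).trans_eq (dist_eq_norm _ _)

theorem ds_mul (G : Matrix κ ι ℤ) (M : Matrix ι ι ℤ) (U : QS ι) (z : ι → ℤ) :
    ds (G * M) U z = ds G (mp M U) (M *ᵥ z) := by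
  rw [ds, ds, rs_mul, ev_mul]

end Vale.Agent.P160F
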