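import Mathlib

/-! P160F, the height API: Gram determinants. -/

open Finset Matrix Module

noncomputable section

namespace Vale.Agent.P160F

variable {E : Type} [NormedAddCommGroup E] [InnerProductSpace ℝ E]
  {μ ν : Type} [Fintype μ] [DecidableEq μ] [Fintype ν] [DecidableEq ν]

/-- Change of generators. -/
theorem gram_det_mul (v u : μ → E) (T : Matrix μ μ ℝ) (h : ∀ j, u j = ∑ i, T i j • v i) :
    (gram ℝ u).det = T.det ^ 2 * (gram ℝ v).det :=
  by
  have h1 : gram ℝ u = Tᵀ * gram ℝ v * T := by
    ext a b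
    simp only [gram_apply, h a, h b, mul_apply, transpose_apply, inner_sum, sum_inner,
      real_inner_smul_left, real_inner_smul_right, Finset.sum_mul, Finset.mul_sum]
    refine Finset.sum_congr rfl fun i _ => ?_
    exact Finset.sum_congr rfl fun j _ => by ring
  rw [h1, det_mul, det_mul, det_transpose]
  ring

theorem gram_det_equiv (v : μ → E) (e : ν ≃ μ) : (gram ℝ (v ∘ e)).det = (gram ℝ v).det :=
  by
  have h1 : gram ℝ (v ∘ e) = (gram ℝ v).submatrix e e := by
    ext a b
    simp [gram_apply]
  rw [h1, det_submatrix_equiv_self]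

theorem gram_det_nonneg (v : μ → E) : 0 ≤ (gram ℝ v).det :=
  (posSemidef_gram ℝ v).det_nonneg

/-- Splitting off the orthogonal components. -/
theorem gram_det_sum (u : μ → E) (z w : ν → E)
    (h1 : ∀ j, z j - w j ∈ Submodule.span ℝ (Set.range u))
    (h2 : ∀ j, w j ∈ (Submodule.span ℝ (Set.range u))ᗮ) :
    (gram ℝ (Sum.elim u z)).det = (gram ℝ u).det * (gram ℝ w).det :=
  by
  choose c hc using fun j => (Submodule.mem_span_range_iff_exists_fun ℝ).1 (h1 j)
  have h3 : ∀ i j, inner ℝ (u i) (w j) = 0 := fun i j =>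
    Submodule.inner_right_of_mem_orthogonal (Submodule.subset_span (Set.mem_range_self i)) (h2 j)
  have h4 : gram ℝ (Sum.elim u w) = fromBlocks (gram ℝ u) 0 0 (gram ℝ w) := by
    ext a b
    rcases a with a | a <;> rcases b with b | b
    · simp [gram_apply]
    · simp [gram_apply, h3]
    · simp only [gram_apply, Sum.elim_inr, Sum.elim_inl, fromBlocks_apply₂₁, Matrix.zero_apply]
      rw [real_inner_comm, h3]
    · simp [gram_apply]
  rw [gram_det_mul (Sum.elim u w) (Sum.elim u z)
    (fromBlocks 1 (Matrix.of fun i j => c j i) 0 1) ?_, h4, det_fromBlocks_zero₂₁,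
    det_fromBlocks_zero₂₁]
  · simp
  · intro j
    rcases j with j | j
    · simp [Fintype.sum_sum_type, one_apply]
    · simp [Fintype.sum_sum_type, one_apply, hc]

end Vale.Agent.P160F
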