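import Vale.Agent.P160F.HC
import Vale.Agent.P160F.HG0

/-! P160F, the height API: heights from bases. -/

open Finset Matrix Module

noncomputable section

namespace Vale.Agent.P160F

variable {ι κ κ' : Type}

variable [Fintype ι] [Fintype κ] [Fintype κ']

theorem ht_nonneg (G : Matrix κ ι ℤ) (U : QS ι) : 0 ≤ ht G U := Real.sqrt_nonneg _

theorem hd_gram (G : Matrix κ ι ℤ) {μ : Type} [Fintype μ] [DecidableEq μ] (v : μ → ι → ℤ) :
    (gram ℝ fun i => ev G (v i)).det =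
      ((Matrix.of fun i j => (G *ᵥ v i) ⬝ᵥ (G *ᵥ v j)).det : ℤ) := by
  rw [Int.cast_det]
  congr 1
  ext i j
  exact inner_ev G (v i) (v j)

/-- Integer Gram determinants. -/
theorem gram_ev_int (G : Matrix κ ι ℤ) {μ : Type} [Fintype μ] [DecidableEq μ] (v : μ → ι → ℤ) :
    ∃ a : ℕ, (gram ℝ fun i => ev G (v i)).det = a := by
  have h := gram_det_nonneg fun i => ev G (v i)
  rw [hd_gram] at h ⊢
  obtain ⟨a, ha⟩ := Int.eq_ofNat_of_zero_le (Int.cast_nonneg_iff.1 h)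
  exact ⟨a, by rw [ha, Int.cast_natCast]⟩

theorem gram_ev_ne {G : Matrix κ ι ℤ} (hG : Inj G) {μ : Type} [Fintype μ] [DecidableEq μ]
    {v : μ → ι → ℤ} (hv : LinearIndependent ℤ v) : (gram ℝ fun i => ev G (v i)).det ≠ 0 := by
  rw [hd_gram, Int.cast_ne_zero]
  intro h
  obtain ⟨c, hc, h0⟩ := Matrix.exists_mulVec_eq_zero_iff.2 h
  refine hc (funext (Fintype.linearIndependent_iff.1 hv c (hG _ (dotProduct_self_eq_zero.1 ?_))))
  have h1 : ∀ i, (G *ᵥ v i) ⬝ᵥ (G *ᵥ ∑ j, c j • v j) = 0 := fun i => by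
    rw [mulVec_sum, dotProduct_sum]
    refine Eq.trans (Finset.sum_congr rfl fun j _ => ?_) (congrFun h0 i)
    rw [mulVec_smul, dotProduct_smul, smul_eq_mul, mul_comm]
    rfl
  nth_rewrite 1 [mulVec_sum]
  rw [sum_dotProduct]
  exact Finset.sum_eq_zero fun i _ => by rw [mulVec_smul, smul_dotProduct, h1, smul_zero]

theorem hd_mul (G : Matrix κ ι ℤ) {U : QS ι} {μ : Type} [Fintype μ] [DecidableEq μ]
    (b : Basis μ ℤ (lat U)) (v : μ → ι → ℤ) (hv : ∀ i, v i ∈ lat U) : ∃ t : ℤ,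
    (gram ℝ fun i => ev G (v i)).det = (t : ℝ) ^ 2 * (gram ℝ fun i => ev G (b i : ι → ℤ)).det := by
  refine ⟨(Matrix.of fun i j => b.repr ⟨v j, hv j⟩ i).det, ?_⟩
  rw [Int.cast_det]
  refine gram_det_mul _ _ _ fun j => ?_
  have h := congrArg Subtype.val (b.sum_repr ⟨v j, hv j⟩)
  simp only [Submodule.coe_sum, Submodule.coe_smul] at h
  exact (congrArg (ev G) h.symm).trans (ev_sum G _ _)

theorem hd_le (G : Matrix κ ι ℤ) {U : QS ι} {μ : Type} [Fintype μ] [DecidableEq μ]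
    (b : Basis μ ℤ (lat U)) (v : μ → ι → ℤ) (hv : ∀ i, v i ∈ lat U)
    (hd : (gram ℝ fun i => ev G (v i)).det ≠ 0) :
    (gram ℝ fun i => ev G (b i : ι → ℤ)).det ≤ (gram ℝ fun i => ev G (v i)).det := by
  obtain ⟨t, ht⟩ := hd_mul G b v hv
  have h0 : t ≠ 0 := fun h => hd (by simp [ht, h])
  have h1 : (1 : ℤ) ≤ t ^ 2 := (one_le_sq_iff_one_le_abs t).2 (Int.one_le_abs h0)
  rw [ht]
  exact le_mul_of_one_le_left (gram_det_nonneg _) (by exact_mod_cast h1)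

theorem hd_eq (G : Matrix κ ι ℤ) {U : QS ι} {μ : Type} [Fintype μ] [DecidableEq μ]
    (b b' : Basis μ ℤ (lat U)) :
    (gram ℝ fun i => ev G (b i : ι → ℤ)).det = (gram ℝ fun i => ev G (b' i : ι → ℤ)).det := by
  have key : ∀ c c' : Basis μ ℤ (lat U), (gram ℝ fun i => ev G (c i : ι → ℤ)).det ≤
      (gram ℝ fun i => ev G (c' i : ι → ℤ)).det := fun c c' => by
    by_cases h : (gram ℝ fun i => ev G (c' i : ι → ℤ)).det = 0
    · obtain ⟨t, ht⟩ := hd_mul G c' (fun i => c i) fun i => (c i).2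
      rw [ht, h, mul_zero]
    · exact hd_le G c _ (fun i => (c' i).2) h
  exact le_antisymm (key b b') (key b' b)

/-- The height can be computed from any basis. -/
theorem ht_sq {G : Matrix κ ι ℤ} {U : QS ι} {μ : Type} [Fintype μ] [DecidableEq μ]
    (b : Basis μ ℤ (lat U)) : ht G U ^ 2 = (gram ℝ fun i => ev G (b i : ι → ℤ)).det := by
  rw [ht, Real.sq_sqrt (gram_det_nonneg _),
    hd_eq G _ (b.reindex (b.indexEquiv (finBasis ℤ (lat U)))),
    ← gram_det_equiv _ (b.indexEquiv (finBasis ℤ (lat U))).symm]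
  simp only [Basis.reindex_apply, Function.comp_def]

/-- A full rank sublattice has larger covolume. -/
theorem ht_sq_le {G : Matrix κ ι ℤ} {U : QS ι} {μ : Type} [Fintype μ] [DecidableEq μ]
    (v : μ → ι → ℤ) (hv : ∀ i, v i ∈ lat U) (hc : Fintype.card μ = dm U)
    (hd : (gram ℝ fun i => ev G (v i)).det ≠ 0) :
    ht G U ^ 2 ≤ (gram ℝ fun i => ev G (v i)).det := by
  rw [ht_sq ((finBasis ℤ (lat U)).reindex
    (Fintype.equivFinOfCardEq (hc.trans (finrank_lat U).symm)).symm)]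
  exact hd_le G _ v hv hd

theorem ht_sq_nat (G : Matrix κ ι ℤ) (U : QS ι) : ∃ a : ℕ, ht G U ^ 2 = a := by
  rw [ht_sq (finBasis ℤ (lat U))]
  exact gram_ev_int G _

theorem one_le_ht {G : Matrix κ ι ℤ} (hG : Inj G) (U : QS ι) : 1 ≤ ht G U := by
  obtain ⟨a, ha⟩ := ht_sq_nat G U
  have h := gram_ev_ne hG ((finBasis ℤ (lat U)).linearIndependent.map' (lat U).subtype
    (Submodule.ker_subtype _))
  have h0 : a ≠ 0 := fun e => h ((ht_sq (finBasis ℤ (lat U))).symm.trans (by simp [ha, e]))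
  refine (one_le_sq_iff₀ (ht_nonneg G U)).1 ?_
  rw [ha]
  exact_mod_cast Nat.one_le_iff_ne_zero.2 h0

theorem ht_pos {G : Matrix κ ι ℤ} (hG : Inj G) (U : QS ι) : 0 < ht G U :=
  lt_of_lt_of_le one_pos (one_le_ht hG U)

theorem ht_bot (G : Matrix κ ι ℤ) : ht G (⊥ : QS ι) = 1 := by
  have h : finrank ℤ (lat (⊥ : QS ι)) = 0 := (finrank_lat _).trans (finrank_bot _ _)
  have : IsEmpty (Fin (finrank ℤ (lat (⊥ : QS ι)))) := by
    rw [h]
    infer_instance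
  rw [ht, det_isEmpty, Real.sqrt_one]

/-- Minima are attained. -/
theorem exists_min {G : Matrix κ ι ℤ} (hG : Inj G) (P : QS ι → Prop) (hP : ∃ U, P U) {c : ℝ}
    (hc : 0 < c) : ∃ U, P U ∧ ∀ V, P V → ht G U * c ^ dm U ≤ ht G V * c ^ dm V := by
  choose a ha using ht_sq_nat G
  have h1 : ∀ d, (∃ U, P U ∧ dm U = d) →
      ∃ U, (P U ∧ dm U = d) ∧ ∀ V, P V ∧ dm V = d → ¬a V < a U :=
    fun d hd => (measure a).wf.has_min {U | P U ∧ dm U = d} hd
  choose! W hW hW' using h1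
  obtain ⟨U₀, hU₀⟩ := hP
  obtain ⟨d, hd, hmin⟩ := Set.exists_min_image {d | ∃ U, P U ∧ dm U = d}
    (fun d => ht G (W d) * c ^ d)
    ((Set.finite_Iic (dm (⊤ : QS ι))).subset fun d ⟨U, _, hU⟩ => hU ▸ dm_mono le_top)
    ⟨_, U₀, hU₀, rfl⟩
  refine ⟨W d, (hW d hd).1, fun V hV => ?_⟩
  rw [(hW d hd).2]
  refine (hmin _ ⟨V, hV, rfl⟩).trans (mul_le_mul_of_nonneg_right ?_ (pow_pos hc _).le)
  refine (pow_le_pow_iff_left₀ (ht_nonneg _ _) (ht_nonneg _ _) two_ne_zero).1 ?_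
  rw [ha, ha]
  exact_mod_cast not_lt.1 (hW' _ ⟨V, hV, rfl⟩ V ⟨hV, rfl⟩)

variable [DecidableEq ι]

theorem hs_co (F : Finset ι) : hs (co F) = 1 := by
  have h1 : (gram ℝ fun i : F => ev (1 : Matrix ι ι ℤ) (Pi.single i.1 1)).det = 1 := by
    have e : (Matrix.of fun i j : F => ((1 : Matrix ι ι ℤ) *ᵥ Pi.single i.1 1) ⬝ᵥ
        ((1 : Matrix ι ι ℤ) *ᵥ Pi.single j.1 1)) = 1 := by
      ext i j
      rw [Matrix.of_apply, one_mulVec, one_mulVec, single_dotProduct, one_mul, Pi.single_apply,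
        Matrix.one_apply]
      simp only [Subtype.ext_iff]
    rw [hd_gram, e, det_one, Int.cast_one]
  have h2 := ht_sq_le (G := (1 : Matrix ι ι ℤ)) (U := co F) (fun i : F => Pi.single i.1 1)
    (fun i k hk => by
      have : k ≠ i.1 := fun e => hk (e ▸ i.2)
      simp [zq, this]) (by rw [dm_co, Fintype.card_coe]) (by rw [h1]; exact one_ne_zero)
  rw [h1] at h2
  exact le_antisymm ((sq_le_one_iff₀ (ht_nonneg _ _)).1 h2) (one_le_ht inj_one _)

theorem ht_top (G : Matrix κ ι ℤ) : ht G ⊤ ^ 2 = ((Gᵀ * G).det : ℝ) := by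
  have h : lat (⊤ : QS ι) = ⊤ := eq_top_iff.2 fun _ _ => mem_lat.2 Submodule.mem_top
  rw [ht_sq ((Pi.basisFun ℤ ι).map (LinearEquiv.ofTop _ h).symm), hd_gram]
  congr 2
  ext i j
  simp [Matrix.mul_apply, dotProduct]

end Vale.Agent.P160F
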