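import Vale.Agent.P160F.HD

/-! P160F, the height API: adjoining vectors. -/

open Finset Matrix Module

noncomputable section

namespace Vale.Agent.P160F

variable {ι κ κ' : Type}

variable [Fintype ι] [Fintype κ] [Fintype κ']

/-- The lattice part of H2. -/
theorem exists_gen_lat {U V : QS ι} (h : U ≤ V) (hd : dm V = dm U + 1) :
    ∃ z ∈ lat V, z ∉ lat U ∧ V = ad U z ∧ ∀ w ∈ lat V, ∃ a : ℤ, w - a • z ∈ lat U :=
  by
  have hlt : ¬pp U ≤ pp V := fun hh => by
    have h1 := dm_mono hh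
    have h2 := dm_pp U
    have h3 := dm_pp V
    omega
  obtain ⟨y, hyU, hyV⟩ := exists_int hlt
  have cast : ∀ w : ι → ℤ, zq w ⬝ᵥ zq y = ((w ⬝ᵥ y : ℤ) : ℚ) := fun w => by
    simp [zq, dotProduct]
  let K : QS ι := V ⊓ pp (Submodule.span ℚ {zq y})
  have hK : ∀ x, x ∈ K ↔ x ∈ V ∧ x ⬝ᵥ zq y = 0 := fun x => by
    refine and_congr Iff.rfl ⟨fun hx => ?_, fun hx u hu => ?_⟩
    · rw [dotProduct_comm]; exact hx _ (Submodule.mem_span_singleton_self _)
    · obtain ⟨c, rfl⟩ := Submodule.mem_span_singleton.1 hu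
      rw [smul_dotProduct, dotProduct_comm, hx, smul_zero]
  have hVK : ¬V ≤ K := fun hh => hyV fun u hu => ((hK u).1 (hh hu)).2
  have hUK : U = K := by
    refine eq_of_dm (fun x hx => (hK x).2 ⟨h hx, hyU x hx⟩) ?_
    have h1 : dm K < dm V :=
      Submodule.finrank_lt_finrank_of_lt (lt_of_le_of_ne inf_le_left fun e => hVK e.ge)
    omega
  have key : ∀ w ∈ lat V, w ⬝ᵥ y = 0 → w ∈ lat U := fun w hw h0 => by
    rw [mem_lat, hUK, hK, cast, h0]
    exact ⟨hw, Int.cast_zero⟩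
  let φ : (ι → ℤ) →ₗ[ℤ] ℤ :=
    { toFun := fun w => w ⬝ᵥ y
      map_add' := fun a b => add_dotProduct a b y
      map_smul' := fun c a => smul_dotProduct c a y }
  obtain ⟨g, hg⟩ := (IsPrincipalIdealRing.principal ((lat V).map φ : Ideal ℤ)).principal
  have hgm : g ∈ (lat V).map φ := by
    rw [hg]; exact Submodule.mem_span_singleton_self _
  obtain ⟨z, hz, hzg⟩ := Submodule.mem_map.1 hgm
  have hall : ∀ w ∈ lat V, ∃ a : ℤ, w - a • z ∈ lat U := fun w hw => by
    have h1 : φ w ∈ (lat V).map φ := Submodule.mem_map_of_mem hw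
    rw [hg] at h1
    obtain ⟨a, ha⟩ := Submodule.mem_span_singleton.1 h1
    refine ⟨a, key _ ((lat V).sub_mem hw ((lat V).smul_mem a hz)) ?_⟩
    change φ (w - a • z) = 0
    rw [map_sub, map_smul, hzg, ha, sub_self]
  have hzU : z ∉ lat U := fun hzU => by
    obtain ⟨w, hw, hw'⟩ := exists_int (U := U) (V := V) fun hh => hVK (hUK ▸ hh)
    obtain ⟨a, ha⟩ := hall w hw
    apply hw'
    have h2 := (lat U).add_mem ha ((lat U).smul_mem a hzU)
    rwa [sub_add_cancel] at h2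
  refine ⟨z, hz, hzU, (eq_of_dm (ad_le h hz) ?_).symm, hall⟩
  rw [dm_ad hzU, hd]

/-- The height after adjoining a generator. -/
theorem ht_gen (G : Matrix κ ι ℤ) {U V : QS ι} (h : U ≤ V) (hd : dm V = dm U + 1) {z : ι → ℤ}
    (hz : z ∈ lat V) (hw : ∀ w ∈ lat V, ∃ a : ℤ, w - a • z ∈ lat U) :
    ht G V = ht G U * ds G U z :=
  by
  classical
  let b := Module.finBasis ℤ (lat U)
  let v : Fin (finrank ℤ (lat U)) ⊕ Unit → lat V :=
    Sum.elim (fun i => ⟨b i, lat_mono h (b i).2⟩) fun _ => ⟨z, hz⟩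
  have hspan : ⊤ ≤ Submodule.span ℤ (Set.range v) := by
    rintro ⟨w, hwV⟩ -
    obtain ⟨a, ha⟩ := hw w hwV
    have e : (⟨w, hwV⟩ : lat V) =
        ∑ i, b.repr ⟨_, ha⟩ i • v (Sum.inl i) + a • v (Sum.inr ()) := by
      apply Subtype.ext
      have h1 := congrArg Subtype.val (b.sum_repr ⟨_, ha⟩)
      simp only [Submodule.coe_sum, Submodule.coe_smul] at h1
      simp only [Submodule.coe_add, Submodule.coe_sum, Submodule.coe_smul, v, Sum.elim_inl,
        Sum.elim_inr]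
      rw [h1, sub_add_cancel]
    rw [e]
    exact Submodule.add_mem _ (Submodule.sum_mem _ fun i _ => Submodule.smul_mem _ _
      (Submodule.subset_span ⟨_, rfl⟩)) (Submodule.smul_mem _ _ (Submodule.subset_span ⟨_, rfl⟩))
  have hcard : Fintype.card (Fin (finrank ℤ (lat U)) ⊕ Unit) = finrank ℤ (lat V) := by
    rw [Fintype.card_sum, Fintype.card_fin, Fintype.card_unit, finrank_lat, finrank_lat, hd]
  have h1 := ht_sq (G := G) (basisOfTopLeSpanOfCardEqFinrank v hspan hcard)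
  rw [coe_basisOfTopLeSpanOfCardEqFinrank] at h1
  obtain ⟨p, hp1, hp2, hp3⟩ := exists_perp G U z
  rw [rs_basis G b] at hp1 hp2
  have h2 := gram_det_sum (fun i => ev G (b i : ι → ℤ)) (fun _ : Unit => ev G z) (fun _ => p)
    (fun _ => hp1) fun _ => hp2
  have e : (fun i => ev G (v i : ι → ℤ)) =
      Sum.elim (fun i => ev G (b i : ι → ℤ)) fun _ : Unit => ev G z := by
    funext i
    cases i <;> rfl
  rw [e, h2, ← ht_sq b, det_unique, gram_apply, real_inner_self_eq_norm_sq, ← hp3,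
    ← mul_pow] at h1
  exact (pow_left_inj₀ (ht_nonneg G V) (mul_nonneg (ht_nonneg G U) (ds_nonneg G U z))
    two_ne_zero).1 h1

/-- H2, the new generator. -/
theorem exists_gen {G : Matrix κ ι ℤ} (_hG : Inj G) {U V : QS ι} (h : U ≤ V)
    (hd : dm V = dm U + 1) : ∃ z ∈ lat V, z ∉ lat U ∧ V = ad U z ∧ ht G V = ht G U * ds G U z ∧
      ∀ w ∈ lat V, ∃ a : ℤ, w - a • z ∈ lat U := by
  obtain ⟨z, h1, h2, h3, h4⟩ := exists_gen_lat h hd
  exact ⟨z, h1, h2, h3, ht_gen G h hd h1 h4, h4⟩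

/-- H2, upper bound. -/
theorem ht_ad_le {G : Matrix κ ι ℤ} (hG : Inj G) {U : QS ι} {z : ι → ℤ} (hz : z ∉ lat U) :
    ht G (ad U z) ≤ ht G U * ds G U z :=
  by
  obtain ⟨y, -, -, -, h4, h5⟩ := exists_gen hG (le_ad U z) (dm_ad hz)
  obtain ⟨a, ha⟩ := h5 z (self_mem_ad U z)
  have ha0 : a ≠ 0 := by
    rintro rfl
    rw [zero_smul, sub_zero] at ha
    exact hz ha
  have h1 : (1 : ℝ) ≤ |(a : ℝ)| := by exact_mod_cast Int.one_le_abs ha0
  rw [h4, ds_congr G ha, ds_smul]
  exact mul_le_mul_of_nonneg_left (le_mul_of_one_le_left (ds_nonneg G U y) h1) (ht_nonneg G U)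

/-- Several vectors at once; `w i` is the component of `G (z i)` orthogonal to `G U`. -/
theorem ht_sup_le {G : Matrix κ ι ℤ} (hG : Inj G) (U : QS ι) {k : ℕ} (z : Fin k → ι → ℤ)
    (w : Fin k → EuclideanSpace ℝ κ) (hw : ∀ i, ev G (z i) - w i ∈ rs G U ∧ w i ∈ (rs G U)ᗮ)
    (hl : (gram ℝ w).det ≠ 0) :
    dm (U ⊔ Submodule.span ℚ (Set.range fun i => zq (z i))) = dm U + k ∧
      ht G (U ⊔ Submodule.span ℚ (Set.range fun i => zq (z i))) ^ 2 ≤
        ht G U ^ 2 * (gram ℝ w).det :=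
  by
  classical
  set V := U ⊔ Submodule.span ℚ (Set.range fun i => zq (z i)) with hV
  let b := Module.finBasis ℤ (lat U)
  let v : Fin (finrank ℤ (lat U)) ⊕ Fin k → ι → ℤ := Sum.elim (fun i => b i) z
  have hv : ∀ i, v i ∈ lat V := by
    rintro (i | i)
    · exact lat_mono le_sup_left (b i).2
    · exact Submodule.mem_sup_right (Submodule.subset_span ⟨i, rfl⟩)
  have h2 := gram_det_sum (fun i => ev G (b i : ι → ℤ)) (fun i => ev G (z i)) w
    (fun i => rs_basis G b ▸ (hw i).1) fun i => rs_basis G b ▸ (hw i).2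
  have e : (fun i => ev G (v i)) =
      Sum.elim (fun i => ev G (b i : ι → ℤ)) fun i => ev G (z i) := by
    funext i
    cases i <;> rfl
  rw [← e, ← ht_sq b] at h2
  have hne : (gram ℝ fun i => ev G (v i)).det ≠ 0 := by
    rw [h2]; exact mul_ne_zero (pow_ne_zero 2 (ht_pos hG U).ne') hl
  have hc : Fintype.card (Fin (finrank ℤ (lat U)) ⊕ Fin k) = dm U + k := by
    rw [Fintype.card_sum, Fintype.card_fin, Fintype.card_fin, finrank_lat]
  have hdm : dm V = dm U + k := by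
    apply le_antisymm
    · have h3 := dm_sup_inf U (Submodule.span ℚ (Set.range fun i => zq (z i)))
      have h4 : dm (Submodule.span ℚ (Set.range fun i => zq (z i))) ≤ k := by
        have h5 := finrank_range_le_card (R := ℚ) fun i => zq (z i)
        rwa [Fintype.card_fin] at h5
      rw [← hV] at h3
      omega
    · have h3 := linearIndependent_of_det_gram_ne_zero hne
      have h4 : LinearIndependent ℝ fun i => (⟨ev G (v i), ev_mem_rs G (hv i)⟩ : rs G V) :=
        LinearIndependent.of_comp (rs G V).subtype h3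
      have h5 := h4.fintype_card_le_finrank
      rw [hc] at h5
      exact h5.trans (finrank_rs_le G V)
  refine ⟨hdm, ?_⟩
  rw [← h2]
  exact ht_sq_le v hv (hc.trans hdm.symm) hne

end Vale.Agent.P160F
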