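import Vale.Agent.P160F.HE

/-! P160F, the height API: chain arguments. -/

open Finset Matrix Module

noncomputable section

namespace Vale.Agent.P160F

variable {ι κ κ' : Type}

variable [Fintype ι] [Fintype κ] [Fintype κ']

/-- H1. -/
theorem ht_submod {G : Matrix κ ι ℤ} (hG : Inj G) (U V : QS ι) :
    ht G (U ⊔ V) * ht G (U ⊓ V) ≤ ht G U * ht G V := by
  refine chain_ind (X := U ⊓ V) (P := fun W => W ≤ U → ht G (W ⊔ V) * ht G (U ⊓ V) ≤
    ht G W * ht G V) (fun _ => ?_) (fun W W' h1 h2 h3 ih h4 => ?_) inf_le_left le_rfl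
  · rw [sup_eq_right.2 inf_le_right, mul_comm]
  obtain ⟨z, z1, z2, z3, z4, -⟩ := exists_gen hG h2 h3
  have z5 : z ∉ lat (W ⊔ V) := fun hz => z2 (by
    have h5 : zq z ∈ (W ⊔ V) ⊓ U := ⟨hz, h4 z1⟩
    rwa [sup_inf_assoc_of_le _ (h2.trans h4), sup_eq_left.2 (inf_comm U V ▸ h1)] at h5)
  have e : W' ⊔ V = ad (W ⊔ V) z := by rw [z3, ad, ad, sup_right_comm]
  have h6 := (ht_ad_le hG z5).trans
    (mul_le_mul_of_nonneg_left (ds_anti G le_sup_left z) (ht_nonneg G _))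
  have h7 := mul_le_mul_of_nonneg_right h6 (ht_nonneg G (U ⊓ V))
  have h8 := mul_le_mul_of_nonneg_right (ih (h2.trans h4)) (ds_nonneg G W z)
  rw [e, z4]
  linarith

/-- Comparison of two norms, relative form. -/
theorem ht_cmp {G : Matrix κ ι ℤ} {G' : Matrix κ' ι ℤ} (hG : Inj G) (hG' : Inj G') {a c : ℝ}
    (ha : 0 < a) (hc : 0 < c)
    (h : ∀ x : ι → ℝ, a * ‖(WithLp.toLp 2 (G'.map (Int.cast : ℤ → ℝ) *ᵥ x) : EuclideanSpace ℝ κ')‖ ≤
      c * ‖(WithLp.toLp 2 (G.map (Int.cast : ℤ → ℝ) *ᵥ x) : EuclideanSpace ℝ κ)‖)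
    {X U : QS ι} (hX : X ≤ U) :
    a ^ (dm U - dm X) * ht G' U * ht G X ≤ c ^ (dm U - dm X) * ht G U * ht G' X := by
  classical
  refine chain_ind (P := fun U => a ^ (dm U - dm X) * ht G' U * ht G X ≤
    c ^ (dm U - dm X) * ht G U * ht G' X) ?_ (fun W W' h1 h2 h3 ih => ?_) hX
  · simp [mul_comm]
  obtain ⟨z, z1, -, -, z4⟩ := exists_gen_lat h2 h3
  have k : a * ds G' W z ≤ c * ds G W z := by
    obtain ⟨w, w1, -, w3⟩ := exists_perp G W z
    obtain ⟨x, x1, x2⟩ := (mem_rs_iff G W _).1 w1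
    have h5 := ds_le_of_mem G' W z ((mem_rs_iff G' W _).2 ⟨x, x1, rfl⟩)
    have h6 := h (zr z - WithLp.ofLp x)
    rw [mulVec_sub, mulVec_sub, WithLp.toLp_sub, WithLp.toLp_sub, ← ev_eq, ← ev_eq, ← x2,
      sub_sub_cancel, ← w3] at h6
    exact (mul_le_mul_of_nonneg_left h5 ha.le).trans h6
  have e : dm W' - dm X = dm W - dm X + 1 := by have := dm_mono h1; omega
  have h7 := mul_le_mul ih k (mul_nonneg ha.le (ds_nonneg _ _ _))
    (mul_nonneg (mul_nonneg (pow_pos hc _).le (ht_pos hG _).le) (ht_pos hG' _).le)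
  rw [e, ht_gen G h2 h3 z1 z4, ht_gen G' h2 h3 z1 z4, pow_succ, pow_succ]
  linarith

variable [DecidableEq ι]

/-- Passing to a superlattice, relative form. -/
theorem ht_mp_rel {G : Matrix κ ι ℤ} (hG : Inj G) {M : Matrix ι ι ℤ} (hM : M.det ≠ 0) {X U : QS ι}
    (hX : X ≤ U) : ht G (mp M U) * ht (G * M) X ≤ ht (G * M) U * ht G (mp M X) := by
  refine chain_ind (P := fun U => ht G (mp M U) * ht (G * M) X ≤ ht (G * M) U * ht G (mp M X))
    (mul_comm _ _).le (fun W W' _ h2 h3 ih => ?_) hX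
  obtain ⟨z, -, z2, z3, z4, -⟩ := exists_gen (inj_mul hG hM) h2 h3
  have h6 := ht_ad_le hG fun hz => z2 (mem_of_mulVec_mem_mp hM hz)
  rw [← mp_ad, ← z3, ← ds_mul] at h6
  have h7 := mul_le_mul_of_nonneg_right h6 (ht_nonneg (G * M) X)
  have h8 := mul_le_mul_of_nonneg_right ih (ds_nonneg (G * M) W z)
  rw [z4]
  linarith

/-- H5, the index bound. -/
theorem ht_mp_idx {G : Matrix κ ι ℤ} (hG : Inj G) {M : Matrix ι ι ℤ} (hM : M.det ≠ 0) (U : QS ι) :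
    ht (G * M) U ≤ |(M.det : ℝ)| * ht G (mp M U) := by
  have h1 := ht_mp_rel hG hM (X := U) (U := ⊤) le_top
  have h2 : ht (G * M) ⊤ = |(M.det : ℝ)| * ht G ⊤ := by
    rw [← sq_eq_sq₀ (ht_nonneg _ _) (mul_nonneg (abs_nonneg _) (ht_nonneg _ _)), mul_pow, sq_abs,
      ht_top, ht_top, transpose_mul, Matrix.mul_assoc, ← Matrix.mul_assoc Gᵀ, det_mul, det_mul,
      det_transpose]
    push_cast
    ring
  rw [mp_top hM, h2] at h1
  refine le_of_mul_le_mul_left ?_ (ht_pos hG ⊤)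
  linarith

end Vale.Agent.P160F
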