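import Vale.Agent.P160F.H

/-! P160F, part Key. Duality. -/

open Finset Matrix Module Filter Topology

noncomputable section

namespace Vale.Agent.P160F

open Vale.Agent.P160

variable {ι : Type} [Fintype ι] [DecidableEq ι]


/-- The norm `D ^ 2 (|z| ^ 2 + s |B⁻¹ z| ^ 2)` on the lattice `M ℤ^ι`. -/
def Gm (B M : Matrix ι ι ℤ) (s : Bool) : Matrix (ι ⊕ ι) ι ℤ :=
  Matrix.fromRows (B.det • M) (if s then B.adjugate * M else 0)

/-- One orthogonal direction more. -/
theorem Key_drop {U V : QS ι} (h : U ≤ V) {p : EuclideanSpace ℝ ι}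
    (hpV : p ∈ rs (1 : Matrix ι ι ℤ) V) (hpU : p ∈ (rs (1 : Matrix ι ι ℤ) U)ᗮ) (g : ι → ℤ) :
    inner ℝ (ev (1 : Matrix ι ι ℤ) g) p ^ 2 ≤ ‖p‖ ^ 2 * (d1 U g ^ 2 - d1 V g ^ 2) := by
  obtain ⟨q, hq1, -, hq3⟩ := exists_perp (1 : Matrix ι ι ℤ) U g
  have e : inner ℝ (ev (1 : Matrix ι ι ℤ) g) p = inner ℝ q p := by
    have h0 := Submodule.inner_right_of_mem_orthogonal hq1 hpU
    rw [inner_sub_left] at h0
    linarith
  by_cases hp : p = 0
  · subst hp
    simp
  have hn : 0 < ‖p‖ ^ 2 := pow_pos (norm_pos_iff.2 hp) 2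
  set t := inner ℝ q p / ‖p‖ ^ 2 with ht
  have h1 := ds_le_of_mem (1 : Matrix ι ι ℤ) V g
    ((rs _ V).add_mem (rs_mono _ h hq1) ((rs _ V).smul_mem t hpV))
  have e2 : ev (1 : Matrix ι ι ℤ) g - (ev (1 : Matrix ι ι ℤ) g - q + t • p) = q - t • p := by abel
  rw [e2] at h1
  have h2 : d1 V g ^ 2 ≤ ‖q - t • p‖ ^ 2 := pow_le_pow_left₀ (ds_nonneg _ _ _) h1 2
  rw [norm_sub_sq_real, inner_smul_right, norm_smul, mul_pow, Real.norm_eq_abs, sq_abs] at h2
  have e3 : inner ℝ q p = t * ‖p‖ ^ 2 := by rw [ht, div_mul_cancel₀ _ hn.ne']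
  change _ ≤ _ * (ds 1 U g ^ 2 - _)
  rw [e, hq3, e3]
  rw [e3] at h2
  nlinarith

theorem Key_step {κ : Type} [Fintype κ] (G : Matrix κ ι ℤ) {U V : QS ι} (h : U ≤ V) {z : ι → ℤ}
    (hz : z ∈ lat V) :
    ds G U z ^ 2 ≤ d1 U z ^ 2 * (∑ k, d1 U (G k) ^ 2 - ∑ k, d1 V (G k) ^ 2) := by
  obtain ⟨p, hp1, hp2, hp3⟩ := exists_perp (1 : Matrix ι ι ℤ) U z
  have hpV : p ∈ rs (1 : Matrix ι ι ℤ) V := by
    have h0 := (rs _ V).sub_mem (ev_mem_rs (1 : Matrix ι ι ℤ) hz) (rs_mono _ h hp1)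
    rwa [sub_sub_cancel] at h0
  have h1 := ds_le_of_mem G U z ((mem_rs_iff G U _).2 ⟨_, hp1, rfl⟩)
  have h2 : ds G U z ^ 2 ≤ _ := pow_le_pow_left₀ (ds_nonneg _ _ _) h1 2
  refine h2.trans ?_
  change _ ≤ ds 1 U z ^ 2 * _
  rw [hp3, ← Finset.sum_sub_distrib, Finset.mul_sum, EuclideanSpace.real_norm_sq_eq]
  refine Finset.sum_le_sum fun k _ => le_of_eq_of_le ?_ (Key_drop h hpV hp2 (G k))
  congr 1
  simp [ev, zr, mulVec, dotProduct, PiLp.inner_apply, mul_sub, Finset.sum_sub_distrib, mul_comm]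

/-- Fischer's inequality and the inequality of means, along a chain. -/
theorem Key_vol {κ : Type} [Fintype κ] (G : Matrix κ ι ℤ) (V : QS ι) {l : ℝ}
    (hl : 0 < l) : hs V ^ 2 * ht G ⊤ ^ 2 ≤ ht G V ^ 2 * l ^ (Fintype.card ι - dm V) *
      Real.exp ((∑ k, ∑ i, (G k i : ℝ) ^ 2) / l) := by
  have key : hs V ^ 2 * ht G ⊤ ^ 2 * Real.exp ((∑ k, d1 ⊤ (G k) ^ 2) / l) ≤
      ht G V ^ 2 * hs (⊤ : QS ι) ^ 2 * l ^ (dm (⊤ : QS ι) - dm V) *
        Real.exp ((∑ k, d1 V (G k) ^ 2) / l) := by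
    refine chain_ind (X := V) (P := fun U => hs V ^ 2 * ht G U ^ 2 *
      Real.exp ((∑ k, d1 U (G k) ^ 2) / l) ≤ ht G V ^ 2 * hs U ^ 2 * l ^ (dm U - dm V) *
        Real.exp ((∑ k, d1 V (G k) ^ 2) / l)) ?_ ?_ le_top
    · rw [Nat.sub_self, pow_zero, mul_one, mul_comm (hs V ^ 2)]
    · intro U W hVU hUW hd ih
      obtain ⟨z, hz, -, -, h4⟩ := exists_gen_lat hUW hd
      have hs1 := Key_step G hUW hz
      set a := ∑ k, d1 U (G k) ^ 2
      set b := ∑ k, d1 W (G k) ^ 2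
      have h1 : a - b ≤ l * Real.exp ((a - b) / l) := by
        have h2 := Real.add_one_le_exp ((a - b) / l)
        rw [← div_le_iff₀' hl]
        linarith
      have h2 : ds G U z ^ 2 * Real.exp (b / l) ≤ d1 U z ^ 2 * l * Real.exp (a / l) := by
        have e : Real.exp (a / l) = Real.exp ((a - b) / l) * Real.exp (b / l) := by
          rw [← Real.exp_add]; congr 1; ring
        rw [e, ← mul_assoc, mul_assoc _ l]
        exact mul_le_mul_of_nonneg_right
          (hs1.trans (mul_le_mul_of_nonneg_left h1 (sq_nonneg _))) (Real.exp_pos _).le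
      have e : dm W - dm V = dm U - dm V + 1 := by
        have := dm_mono hVU
        omega
      have e1 : hs W = hs U * d1 U z := ht_gen 1 hUW hd hz h4
      rw [ht_gen G hUW hd hz h4, e1, e, pow_succ l]
      calc hs V ^ 2 * (ht G U * ds G U z) ^ 2 * Real.exp (b / l)
          = hs V ^ 2 * ht G U ^ 2 * (ds G U z ^ 2 * Real.exp (b / l)) := by ring
        _ ≤ hs V ^ 2 * ht G U ^ 2 * (d1 U z ^ 2 * l * Real.exp (a / l)) :=
          mul_le_mul_of_nonneg_left h2 (by positivity)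
        _ = hs V ^ 2 * ht G U ^ 2 * Real.exp (a / l) * (d1 U z ^ 2 * l) := by ring
        _ ≤ _ := (mul_le_mul_of_nonneg_right ih (by positivity)).trans_eq (by ring)
  have htop : hs (⊤ : QS ι) ^ 2 = 1 := by
    rw [hs, ht_top]; simp
  have hdm : dm (⊤ : QS ι) = Fintype.card ι := by simp [dm]
  rw [htop, mul_one, hdm] at key
  have h1 : 1 ≤ Real.exp ((∑ k, d1 ⊤ (G k) ^ 2) / l) := Real.one_le_exp (by positivity)
  refine (le_mul_of_one_le_right (by positivity) h1).trans (key.trans ?_)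
  refine mul_le_mul_of_nonneg_left (Real.exp_le_exp.2 (div_le_div_of_nonneg_right
    (Finset.sum_le_sum fun k _ => ?_) hl.le)) (by positivity)
  refine (pow_le_pow_left₀ (ds_nonneg _ _ _) (ds_le_norm _ _ _) 2).trans_eq ?_
  rw [EuclideanSpace.real_norm_sq_eq]
  simp [ev, zr]

theorem Key_mp {B M N : Matrix ι ι ℤ} (hB : B.IsSymm) (hM : M.det ≠ 0) (hN : N.det ≠ 0)
    (hMN : M * N = B) (U : QS ι) : mp N (pp (mp B (pp (mp M U)))) = U := by
  have hD : B.det ≠ 0 := by rw [← hMN, det_mul]; exact mul_ne_zero hM hN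
  refine eq_of_dm ?_ ?_
  · by_contra hh
    obtain ⟨z, hz, hz'⟩ := exists_int hh
    obtain ⟨x, hx, hxz⟩ := Submodule.mem_map.1 hz
    apply hz'
    apply mem_of_mulVec_mem_mp hM
    rw [← pp_pp (mp M U)]
    intro u hu
    have h1 := hx _ (Submodule.mem_map_of_mem hu)
    have e : zq (M *ᵥ z) = B.map (Int.cast : ℤ → ℚ) *ᵥ x := by
      have e1 : zq (M *ᵥ z) = M.map (Int.cast : ℤ → ℚ) *ᵥ zq z := by
        funext i; simp [zq, mulVec, dotProduct]
      rw [e1, ← hxz, mulVecLin_apply, mulVec_mulVec, ← hMN]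
      congr 1
      ext i j; simp [mul_apply]
    have hs : (B.map (Int.cast : ℤ → ℚ))ᵀ = B.map (Int.cast : ℤ → ℚ) := by
      rw [← transpose_map, hB.eq]
    rw [e, dotProduct_mulVec, ← mulVec_transpose, hs]
    exact h1
  · have h1 := dm_pp (mp B (pp (mp M U)))
    have h2 := dm_pp (mp M U)
    rw [dm_mp hD] at h1
    rw [dm_mp hM] at h2
    rw [dm_mp hN]
    omega

theorem KEY {B M N : Matrix ι ι ℤ} (hB : B.IsSymm) (h1 : ∀ i j, |B i j| ≤ 1) (hD : B.det ≠ 0)
    (hMN : M * N = B) (s : Bool) (U : QS ι) {K : ℝ} (hK : 1 ≤ K)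
    (hU : ht (Gm B M s) U ≤ (|(B.det : ℝ)| * K) ^ dm U) :
    hs (mp B (pp (mp M U))) ^ 2 * ((B * B + if s then 1 else 0).det : ℝ) ≤
      (N.det : ℝ) ^ 2 * K ^ (2 * Fintype.card ι) * (2 * Real.exp 1) ^ Fintype.card ι *
        (Fintype.card ι : ℝ) ^ (Fintype.card ι - dm U) :=
  by
  have hMN' : M.det * N.det = B.det := by rw [← det_mul, hMN]
  have hM : M.det ≠ 0 := fun h => hD (by rw [← hMN', h, zero_mul])
  have hN : N.det ≠ 0 := fun h => hD (by rw [← hMN', h, mul_zero])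
  set V := pp (mp B (pp (mp M U))) with hV
  have hVU : mp N V = U := Key_mp hB hM hN hMN U
  have hr : dm V = dm U := by rw [← hVU, dm_mp hN]
  let G : Matrix (ι ⊕ ι) ι ℤ := Matrix.fromRows B (if s then 1 else 0)
  have hinj : ∀ {A C : Matrix ι ι ℤ}, A.det ≠ 0 → Inj (Matrix.fromRows A C) := by
    intro A C hA z hz
    have h0 := inj_mul inj_one hA z
    rw [Matrix.one_mul] at h0
    apply h0
    funext i
    have h2 := congrFun hz (Sum.inl i)
    rwa [fromRows_mulVec] at h2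
  have hG : Inj G := hinj hD
  have hGm : Inj (Gm B M s) := hinj (by
    rw [det_smul]; exact mul_ne_zero (pow_ne_zero _ hD) hM)
  have e : Gm B M s * N = B.det • G := by
    rw [Gm, fromRows_mul, Matrix.smul_mul, hMN]
    ext (i | i) j
    · rfl
    · cases s
      · simp [G]
      · change (B.adjugate * M * N) i j = (B.det • (1 : Matrix ι ι ℤ)) i j
        rw [Matrix.mul_assoc, hMN, adjugate_mul]
  have hDp : 0 < |(B.det : ℝ)| := abs_pos.2 (Int.cast_ne_zero.2 hD)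
  have h2 := ht_cmp (G := B.det • G) (G' := G) (e ▸ inj_mul hGm hN) hG hDp one_pos
    (fun x => by
      have e1 : (B.det • G).map (Int.cast : ℤ → ℝ) = (B.det : ℝ) • G.map (Int.cast : ℤ → ℝ) := by
        ext i j; simp
      rw [e1, smul_mulVec, WithLp.toLp_smul, norm_smul, one_mul, Real.norm_eq_abs])
    (bot_le (a := V))
  have hb : dm (⊥ : QS ι) = 0 := finrank_bot ℚ _
  rw [ht_bot, ht_bot, hb, one_pow, mul_one, mul_one, one_mul, Nat.sub_zero, ← e, hr] at h2
  have h3 := ht_mp_idx hGm hN V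
  rw [hVU] at h3
  have h4 : ht G V ≤ |(N.det : ℝ)| * K ^ dm U := by
    have h5 := h2.trans (h3.trans (mul_le_mul_of_nonneg_left hU (abs_nonneg _)))
    rw [mul_pow, mul_left_comm] at h5
    exact le_of_mul_le_mul_left h5 (pow_pos hDp _)
  have hrn : dm U ≤ Fintype.card ι := by
    have := dm_pp U
    omega
  have h5 : ht G V ^ 2 ≤ (N.det : ℝ) ^ 2 * K ^ (2 * Fintype.card ι) := by
    refine (pow_le_pow_left₀ (ht_nonneg G V) h4 2).trans ?_
    rw [mul_pow, sq_abs, ← pow_mul]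
    exact mul_le_mul_of_nonneg_left (pow_le_pow_right₀ hK (by omega)) (sq_nonneg _)
  have e2 : Gᵀ * G = B * B + if s then 1 else 0 := by
    simp only [G]
    rw [transpose_fromRows, fromCols_mul_fromRows, hB.eq]
    cases s <;> simp
  rw [← hs_pp, ← hV, ← e2, ← ht_top]
  rcases Nat.eq_zero_or_pos (Fintype.card ι) with h0 | h0
  · have h6 := Key_vol G V one_pos
    have : IsEmpty ι := Fintype.card_eq_zero_iff.1 h0
    rw [h0] at h5 h6 ⊢
    simp only [Finset.univ_eq_empty, Finset.sum_empty, Finset.sum_const_zero, zero_div,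
      Real.exp_zero, one_pow, mul_one] at h6
    simpa using h6.trans h5
  have hn : (0 : ℝ) < Fintype.card ι := Nat.cast_pos.2 h0
  have hn1 : (1 : ℝ) ≤ Fintype.card ι := Nat.one_le_cast.2 h0
  have h6 := Key_vol G V (l := 2 * Fintype.card ι) (by positivity)
  have h7 : ∑ k, ∑ i, (G k i : ℝ) ^ 2 ≤ 2 * Fintype.card ι * Fintype.card ι := by
    have h8 : ∀ k i, (G k i : ℝ) ^ 2 ≤ 1 := by
      have h9 : ∀ k i, |G k i| ≤ 1 := by
        rintro (k | k) i
        · exact h1 k i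
        · cases s
          · simp [G]
          · by_cases h : k = i <;> simp [G, one_apply, h]
      intro k i
      rw [sq_le_one_iff_abs_le_one]
      exact_mod_cast h9 k i
    refine (Finset.sum_le_sum fun k _ => Finset.sum_le_sum fun i _ => h8 k i).trans_eq ?_
    simp [two_mul]
  have h8 : Real.exp ((∑ k, ∑ i, (G k i : ℝ) ^ 2) / (2 * Fintype.card ι)) ≤
      Real.exp 1 ^ Fintype.card ι := by
    rw [← Real.exp_nat_mul, mul_one, Real.exp_le_exp, div_le_iff₀ (by positivity)]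
    linarith
  have h9 : (2 * Fintype.card ι : ℝ) ^ (Fintype.card ι - dm V) ≤
      2 ^ Fintype.card ι * (Fintype.card ι : ℝ) ^ (Fintype.card ι - dm U) := by
    rw [mul_pow, hr]
    exact mul_le_mul_of_nonneg_right (pow_le_pow_right₀ one_le_two (Nat.sub_le _ _))
      (by positivity)
  refine h6.trans ((mul_le_mul (mul_le_mul h5 h9 (by positivity) (by positivity)) h8
    (by positivity) (by positivity)).trans_eq ?_)
  rw [mul_pow]
  ring

end Vale.Agent.P160F
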