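import Vale.Agent.P160F.H

/-! P160F, part OD. Odlyzko bound modulo a prime. -/

open Finset Matrix Module Filter Topology

noncomputable section

namespace Vale.Agent.P160F

open Vale.Agent.P160

variable {ι : Type} [Fintype ι] [DecidableEq ι]

theorem OD_field {K : Type} [Field K] (M : Submodule K (ι → K)) (S : Finset (ι → Bool))
    (h : ∀ y ∈ S, ∀ y' ∈ S, (fun i => ((bz y i - bz y' i : ℤ) : K)) ∈ M) :
    S.card ≤ 2 ^ finrank K M := by
  obtain ⟨I, hI, hz⟩ := exists_info M
  have hc : S.card ≤ (univ : Finset (I → Bool)).card :=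
    Finset.card_le_card_of_injOn (fun y (i : I) => y i) (fun _ _ => mem_univ _)
      fun y hy y' hy' he => funext fun i => by
        have h0 := congrFun (hz _ (h y hy y' hy') fun j hj => by
          simp [bz, show y j = y' j from congrFun he ⟨j, hj⟩]) i
        cases hi : y i <;> cases hi' : y' i <;> simp_all [bz]
  simpa [hI] using hc

theorem OD (Y : QS ι) {p : ℕ} (hp : p.Prime) (S : Finset (ι → Bool))
    (h : ∀ y ∈ S, ∀ y' ∈ S, ∃ u ∈ lat Y, ∀ i, (p : ℤ) ∣ bz y i - bz y' i - u i) :
    S.card ≤ 2 ^ dm Y := by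
  have := Fact.mk hp
  let b := Module.finBasis ℤ (lat Y)
  let c : (ι → ℤ) →+ ι → ZMod p :=
    { toFun := fun z i => (z i : ZMod p)
      map_zero' := funext fun _ => Int.cast_zero
      map_add' := fun _ _ => funext fun _ => Int.cast_add _ _ }
  let M := Submodule.span (ZMod p) (Set.range fun k => c (b k : ι → ℤ))
  have hM : finrank (ZMod p) M ≤ dm Y := by
    rw [← finrank_lat]
    exact (finrank_range_le_card (R := ZMod p) fun k => c (b k : ι → ℤ)).trans
      (Fintype.card_fin _).le
  refine (OD_field M S fun y hy y' hy' => ?_).trans (Nat.pow_le_pow_right two_pos hM)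
  obtain ⟨u, hu, hd⟩ := h y hy y' hy'
  have e1 : (fun i => ((bz y i - bz y' i : ℤ) : ZMod p)) = c u := funext fun i =>
    ((ZMod.intCast_eq_intCast_iff_dvd_sub _ _ _).2 (hd i)).symm
  have e2 : u = ∑ k, b.repr ⟨u, hu⟩ k • (b k : ι → ℤ) := by
    have h3 := congrArg Subtype.val (b.sum_repr ⟨u, hu⟩)
    rw [Submodule.coe_sum] at h3
    exact h3.symm
  rw [e1, e2, map_sum]
  refine M.sum_mem fun k _ => ?_
  rw [map_zsmul]
  exact zsmul_mem (Submodule.subset_span (Set.mem_range_self k)) _

end Vale.Agent.P160F
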