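import Vale.Agent.P160F.H
import Vale.Agent.P160F.SB
import Vale.Agent.P160F.OD

/-! P160F, part PB4. The probability of a bad step.
Let `c = g • bz y + σ ∉ lat Y`; `exists_gen inj_one` for `Y ≤ ad Y c` gives `z`, `c - ι • z ∈ lat Y`, `hs (ad Y c) = hs Y * d1 Y z`,
`d1 Y c = |ι| * d1 Y z` (`ds_congr`, `ds_smul`), `1 ≤ t * d1 Y z` by `Up`, so `|ι| ≤ R t`. If `|ι| ≤ g` (or `c ∈ lat Y`) then
`infDist (bz y + σ / g) (rs 1 Y) = d1 Y c / g ≤ θ`. Otherwise `ι ∤ g`; for fixed `ι` two solutions have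
`g • (bz y - bz y') - ι • w ∈ lat Y`; divide by `gcd g ι` (`lat Y` is saturated), take a prime `p ∣ ι / gcd`, invert
`g / gcd` modulo `p`, apply `OD`. -/

open Finset Matrix Module Filter Topology

noncomputable section

namespace Vale.Agent.P160F

open Vale.Agent.P160

variable {ι : Type} [Fintype ι] [DecidableEq ι]


omit [Fintype ι] [DecidableEq ι] in
theorem PB4_sat {Y : QS ι} {d : ℤ} (hd : d ≠ 0) {x : ι → ℤ} (h : d • x ∈ lat Y) : x ∈ lat Y := by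
  rw [mem_lat, zq_smul] at h
  exact mem_lat.2 ((Y.smul_mem_iff (Int.cast_ne_zero.2 hd)).1 h)

theorem PB4_card (Y : QS ι) {g a : ℤ} (hg : 1 ≤ g) (σ : ι → ℤ) :
    pr (fun y : ι → Bool => g < |a| ∧ ∃ z, g • bz y + σ - a • z ∈ lat Y) ≤
      2 ^ dm Y / 2 ^ Fintype.card ι := by
  classical
  by_cases ha : g < |a|
  swap
  · rw [pr_of_not fun y h => ha h.1]
    positivity
  have hd : 0 < Int.gcd g a := Int.gcd_pos_of_ne_zero_left a (by omega)
  obtain ⟨d, g', a', hd0, hc, rfl, rfl⟩ := Int.exists_gcd_one' hd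
  have hd1 : (0 : ℤ) < d := by exact_mod_cast hd0
  have h1 : a'.natAbs ≠ 1 := by
    intro h
    have h2 : |a'| = 1 := by rw [← Int.natCast_natAbs, h, Nat.cast_one]
    rw [abs_mul, h2, one_mul, abs_of_pos hd1] at ha
    have h3 : 0 < g' := (mul_pos_iff_of_pos_right hd1).1 (by omega)
    nlinarith
  obtain ⟨p, hp, hpa⟩ := Nat.exists_prime_and_dvd h1
  have hpa' : (p : ℤ) ∣ a' := Int.natCast_dvd.2 hpa
  obtain ⟨u, v, huv⟩ := Int.isCoprime_iff_gcd_eq_one.2 hc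
  have h4 := OD Y hp (univ.filter fun y : ι → Bool =>
    g' * d < |a' * d| ∧ ∃ z, (g' * d) • bz y + σ - (a' * d) • z ∈ lat Y) (by
      intro y hy y' hy'
      obtain ⟨-, z, hz⟩ := (mem_filter.1 hy).2
      obtain ⟨-, z', hz'⟩ := (mem_filter.1 hy').2
      have h5 : (d : ℤ) • (g' • (bz y - bz y') - a' • (z - z')) ∈ lat Y := by
        have e : (d : ℤ) • (g' • (bz y - bz y') - a' • (z - z')) =
            ((g' * d) • bz y + σ - (a' * d) • z) - ((g' * d) • bz y' + σ - (a' * d) • z') := by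
          module
        rw [e]
        exact (lat Y).sub_mem hz hz'
      refine ⟨_, (lat Y).smul_mem u (PB4_sat hd1.ne' h5), fun i => hpa'.trans
        ⟨v * (bz y i - bz y' i) + u * (z i - z' i), ?_⟩⟩
      simp only [Pi.smul_apply, Pi.sub_apply, smul_eq_mul]
      linear_combination (-(bz y i - bz y' i)) * huv)
  rw [pr, Fintype.card_fun, Fintype.card_bool, Nat.cast_pow, Nat.cast_ofNat, sum_ind]
  exact div_le_div_of_nonneg_right (by exact_mod_cast h4) (by positivity)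

theorem PB4_dist {Y : QS ι} {θ : ℝ} {g : ℤ} (hg : 1 ≤ g) {x σ : ι → ℤ}
    (h : d1 Y (g • x + σ) ≤ g * θ) :
    Metric.infDist (WithLp.toLp 2 (zr x) + (g : ℝ)⁻¹ • WithLp.toLp 2 (zr σ))
      (rs (1 : Matrix ι ι ℤ) Y : Set (EuclideanSpace ℝ ι)) ≤ θ := by
  have hg0 : (0 : ℝ) < g := by exact_mod_cast (by omega : 0 < g)
  obtain ⟨w, h1, -, h2⟩ := exists_perp (1 : Matrix ι ι ℤ) Y (g • x + σ)
  have e : ∀ z : ι → ℤ, ev (1 : Matrix ι ι ℤ) z = WithLp.toLp 2 (zr z) := fun z => by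
    rw [ev, one_mulVec]
  refine (Metric.infDist_le_dist_of_mem ((rs 1 Y).smul_mem (g : ℝ)⁻¹ h1)).trans ?_
  rw [ev_add, ev_smul, e, e, dist_eq_norm, smul_sub, smul_add, smul_smul, inv_mul_cancel₀ hg0.ne',
    one_smul, sub_sub_cancel, norm_smul, Real.norm_of_nonneg (inv_pos.2 hg0).le,
    inv_mul_le_iff₀ hg0, ← h2]
  exact h

theorem step_det {Y : QS ι} {t R θ : ℝ} (ht0 : 0 < t) (hθ : 0 ≤ θ)
    (hU : Up (1 : Matrix ι ι ℤ) t Y ⊤) {g : ℤ} (hg : 1 ≤ g) (σ : ι → ℤ)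
    (hR : ∀ y, d1 Y (g • bz y + σ) ≤ R) :
    pr (fun y : ι → Bool => g • bz y + σ ∈ lat Y ∨ hs (ad Y (g • bz y + σ)) < θ * hs Y) ≤
      pr (fun y : ι → Bool => Metric.infDist
        (WithLp.toLp 2 (zr (bz y)) + (g : ℝ)⁻¹ • WithLp.toLp 2 (zr σ))
        (rs (1 : Matrix ι ι ℤ) Y : Set (EuclideanSpace ℝ ι)) ≤ θ) +
      (2 * (R * t) + 1) * 2 ^ dm Y / 2 ^ Fintype.card ι := by
  have hR0 : 0 ≤ R * t := mul_nonneg ((ds_nonneg _ _ _).trans (hR fun _ => true)) ht0.le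
  have hg0 : (0 : ℝ) ≤ g := by exact_mod_cast (by omega : 0 ≤ g)
  have hY : 0 < hs Y := ht_pos inj_one Y
  obtain ⟨M, hM⟩ : ∃ M : ℕ, ⌊R * t⌋₊ = M := ⟨_, rfl⟩
  refine le_trans (pr_mono (q := fun y => _ ∨ ∃ a : (Finset.Icc (-(M : ℤ)) M),
    g < |(a : ℤ)| ∧ ∃ z, g • bz y + σ - (a : ℤ) • z ∈ lat Y) fun y hy => ?_)
    ((pr_or _ _).trans (add_le_add le_rfl ((pr_exists _).trans ?_)))
  · by_cases hc : g • bz y + σ ∈ lat Y
    · refine Or.inl (PB4_dist hg ((ds_le_of_mem _ _ _ (ev_mem_rs _ hc)).trans ?_))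
      rw [sub_self, norm_zero]
      exact mul_nonneg hg0 hθ
    obtain ⟨z, -, -, -, h1, h2⟩ := exists_gen inj_one (le_ad Y _) (dm_ad hc)
    obtain ⟨a, ha⟩ := h2 _ (self_mem_ad Y _)
    have h3 : d1 Y (g • bz y + σ) = |(a : ℝ)| * d1 Y z := (ds_congr _ ha).trans (ds_smul _ _ _ _)
    have h4 : d1 Y z < θ := by
      have h := hy.resolve_left hc
      rw [hs, h1, mul_comm θ] at h
      exact lt_of_mul_lt_mul_left h hY.le
    have h5 : 1 ≤ t * d1 Y z := by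
      have h := hU _ (le_ad Y (g • bz y + σ)) le_top
      rw [dm_ad hc, Nat.add_sub_cancel_left, pow_one, h1, mul_left_comm] at h
      exact le_of_mul_le_mul_left (by rwa [mul_one]) hY
    by_cases h6 : g < |a|
    · have h7 : |(a : ℝ)| ≤ R * t := by
        have h8 := mul_le_mul_of_nonneg_left h5 (abs_nonneg (a : ℝ))
        have h9 := mul_le_mul_of_nonneg_right (h3.ge.trans (hR y)) ht0.le
        linarith
      have h10 : a.natAbs ≤ M := hM ▸ Nat.le_floor (by rwa [Nat.cast_natAbs, Int.cast_abs])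
      exact Or.inr ⟨⟨a, mem_Icc.2 (by omega)⟩, h6, z, ha⟩
    · have h7 : |(a : ℝ)| ≤ g := by exact_mod_cast not_lt.1 h6
      exact Or.inl (PB4_dist hg (h3.le.trans (mul_le_mul h7 h4.le (ds_nonneg _ _ _) hg0)))
  · refine (sum_le_sum fun a _ => PB4_card Y hg σ).trans ?_
    rw [sum_const, card_univ, Fintype.card_coe, Int.card_Icc, nsmul_eq_mul, mul_div_assoc]
    refine mul_le_mul_of_nonneg_right ?_ (by positivity)
    have e : ((M : ℤ) + 1 - -(M : ℤ)).toNat = 2 * M + 1 := by omega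
    have h1 : (M : ℝ) ≤ R * t := hM ▸ Nat.floor_le hR0
    rw [e]
    push_cast
    linarith

theorem step_pr {ε : ℝ} (hε : 0 < ε) : ∃ η c : ℝ, 0 < η ∧ η ≤ 1 ∧ 0 < c ∧ ∀ (a : ℕ) (β : ℝ),
    ∀ᶠ n : ℕ in atTop, ∀ (Y : QS (Fin n)) (g : ℤ) (σ : Fin n → ℤ), 1 ≤ g →
      Up (1 : Matrix (Fin n) (Fin n) ℤ) ((n : ℝ) ^ a) Y ⊤ → (dm Y : ℝ) + ε * n ≤ n →
      (∀ y, d1 Y (g • bz y + σ) ≤ n * (2 * β)) →
      pr (fun y : Fin n → Bool => g • bz y + σ ∈ lat Y ∨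
        hs (ad Y (g • bz y + σ)) < √(η * n) * hs Y) ≤ Real.exp (-(c * n)) := by
  obtain ⟨η, c, hη, hη1, hc, h⟩ := SB hε
  have hl : 0 < ε * Real.log 2 := mul_pos hε (Real.log_pos one_lt_two)
  obtain ⟨m, hm, hm1, hm2⟩ : ∃ m : ℝ, 0 < m ∧ m ≤ c ∧ m ≤ ε * Real.log 2 :=
    ⟨_, lt_min hc hl, min_le_left _ _, min_le_right _ _⟩
  refine ⟨η, m / 2, hη, hη1, half_pos hm, fun a β => ?_⟩
  have hK : 0 < (2 + 4 * |β|)⁻¹ := by positivity
  have h1 := tendsto_natCast_atTop_atTop.eventually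
    ((isLittleO_pow_exp_pos_mul_atTop (a + 1) (half_pos hm)).bound hK)
  filter_upwards [h, h1, eventually_ge_atTop 1] with n hn h2 hn1 Y g σ hg hU hd hR
  have hn0 : (1 : ℝ) ≤ n := by exact_mod_cast hn1
  have h3 := step_det (by positivity) (Real.sqrt_nonneg (η * n)) hU hg σ hR
  have h4 := hn (rs 1 Y) ((g : ℝ)⁻¹ • WithLp.toLp 2 (zr σ))
    (le_trans (add_le_add (Nat.cast_le.2 (finrank_rs_le _ Y)) le_rfl) hd)
  have h5 : Real.exp (-(c * n)) ≤ Real.exp (-(m * n)) :=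
    Real.exp_le_exp.2 (neg_le_neg (mul_le_mul_of_nonneg_right hm1 (by linarith)))
  have h6 : (2 : ℝ) ^ dm Y / 2 ^ n ≤ Real.exp (-(m * n)) := by
    rw [← Real.exp_log two_pos, ← Real.exp_nat_mul, ← Real.exp_nat_mul, ← Real.exp_sub,
      Real.exp_le_exp]
    have h7 := mul_le_mul_of_nonneg_right hd (Real.log_pos one_lt_two).le
    have h8 := mul_le_mul_of_nonneg_right hm2 (by linarith : (0 : ℝ) ≤ n)
    linarith
  rw [Real.norm_of_nonneg (by positivity), Real.norm_of_nonneg (Real.exp_pos _).le,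
    le_inv_mul_iff₀ (by positivity)] at h2
  have h9 : (1 : ℝ) ≤ n ^ (a + 1) := one_le_pow₀ hn0
  have h10 : 2 * (n * (2 * β) * (n : ℝ) ^ a) + 1 ≤ Real.exp (m / 2 * n) - 1 := by
    have h11 := mul_le_mul_of_nonneg_right (le_abs_self β) (by positivity : (0 : ℝ) ≤ n ^ (a + 1))
    rw [pow_succ] at h2 h9 h11
    linarith
  have h12 : (0 : ℝ) ≤ Real.exp (m / 2 * n) - 1 := by
    linarith [Real.one_le_exp (by positivity : 0 ≤ m / 2 * n)]
  have h13 := mul_le_mul h10 h6 (by positivity) h12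
  have h14 : Real.exp (m / 2 * n) * Real.exp (-(m * n)) = Real.exp (-(m / 2 * n)) := by
    rw [← Real.exp_add]
    congr 1
    ring
  rw [Fintype.card_fin, mul_div_assoc] at h3
  linarith

end Vale.Agent.P160F
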