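import Vale.Agent.P160F.PBDefs

/-! P160F, part PB2. The exposed subspaces: linear algebra.
Vectors of `N₀ ⊔ sup N i` (`i ∉ F`, `i < u`) vanish at `v` when `v ∉ F`, `u ≤ v` (`Cont.le`, `Cont.out`), so two matrices that
agree outside row and column `v` (`Bm_upd_of_ne`) send them to vectors that differ only in the coordinate `v`. -/

open Finset Matrix Module Filter Topology

noncomputable section

namespace Vale.Agent.P160F

open Vale.Agent.P160

variable {n : ℕ} {K β : ℝ} {ρ : ℕ} {F : Finset (Fin n)} {N₀ : QS (Fin n)} {N : Fin n → QS (Fin n)}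


theorem PB2_mono {A B : Finset (Fin n)} (h : A ⊆ B) : co A ≤ co B :=
  fun _ hx i hi => hx i fun hA => hi (h hA)

theorem PB2_dm (U V : QS (Fin n)) : dm (U ⊔ V) ≤ dm U + dm V := by
  rw [← dm_sup_inf]
  exact Nat.le_add_right _ _

theorem PB2_ad (U : QS (Fin n)) (z : Fin n → ℤ) : dm (ad U z) ≤ dm U + 1 := by
  by_cases hz : z ∈ lat U
  · exact (dm_mono (ad_le le_rfl hz)).trans (Nat.le_succ _)
  · exact (dm_ad hz).le

theorem PB2_sup (hC : Cont K β ρ F N₀ N) (S : Finset (Fin n)) (hS : ∀ i ∈ S, i ∉ F) :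
    dm (N₀ ⊔ S.sup N) ≤ ρ + S.card := by
  induction S using Finset.induction_on with
  | empty => simpa using hC.dim
  | insert a S ha ih =>
    obtain ⟨g, l, -, -, -, -, e⟩ := hC.out a (hS a (mem_insert_self _ _))
    have h1 := ih fun i hi => hS i (mem_insert_of_mem hi)
    have h2 : N₀ ⊔ (insert a S).sup N ≤ ad (N₀ ⊔ S.sup N) (g • Pi.single a 1 + l) := by
      rw [sup_insert, e]
      exact sup_le (le_sup_left.trans (le_ad _ _)) (sup_le
        (ad_le (le_sup_left.trans (le_ad _ _)) (self_mem_ad _ _)) (le_sup_right.trans (le_ad _ _)))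
    have h3 := (dm_mono h2).trans (PB2_ad _ _)
    rw [card_insert_of_notMem ha]
    omega

theorem PB2_van (hC : Cont K β ρ F N₀ N) {v : Fin n} (hv : v ∉ F) {u : ℕ} (hu : u ≤ v) :
    N₀ ⊔ (univ.filter fun i : Fin n => i ∉ F ∧ (i : ℕ) < u).sup N ≤ co {v}ᶜ := by
  have h0 : co F ≤ co {v}ᶜ := PB2_mono fun i hi => by
    rw [mem_compl, mem_singleton]
    rintro rfl
    exact hv hi
  refine sup_le (hC.le.trans h0) (Finset.sup_le fun i hi => ?_)
  obtain ⟨h1, h2⟩ := (mem_filter.1 hi).2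
  obtain ⟨g, l, -, -, hl, -, e⟩ := hC.out i h1
  rw [e]
  refine ad_le (hC.le.trans h0) (add_mem (Submodule.smul_mem _ _ fun j hj => ?_) (lat_mono h0 hl))
  have h3 : j = v := by simpa using hj
  have h4 : j ≠ i := by
    rintro rfl
    omega
  simp [zq, Pi.single_eq_of_ne h4]

theorem PB2_le (hC : Cont K β ρ F N₀ N) {B B' : Matrix (Fin n) (Fin n) ℤ} {v : Fin n} (hv : v ∉ F)
    (h : ∀ i j, i ≠ v → j ≠ v → B i j = B' i j) {u : ℕ} (hu : u ≤ v) :
    Yst B F N₀ N u ≤ Yst B' F N₀ N u := by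
  refine sup_le ?_ le_sup_right
  rintro _ ⟨x, hx, rfl⟩
  have h0 : x v = 0 := PB2_van hC hv hu hx v (by simp)
  rw [← add_sub_cancel ((B'.map (Int.cast : ℤ → ℚ)).mulVecLin x)
    ((B.map (Int.cast : ℤ → ℚ)).mulVecLin x)]
  refine Submodule.add_mem_sup ⟨x, hx, rfl⟩ fun i hi => ?_
  have h1 : i ≠ v := by
    rintro rfl
    exact hi (mem_filter.2 ⟨mem_univ _, hv, hu⟩)
  simp only [Pi.sub_apply, mulVecLin_apply, mulVec, dotProduct, Matrix.map_apply]
  rw [sub_eq_zero]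
  refine sum_congr rfl fun j _ => ?_
  by_cases hj : j = v
  · rw [hj, h0, mul_zero, mul_zero]
  · rw [h i j h1 hj]

theorem Yst_zero (B : Matrix (Fin n) (Fin n) ℤ) : co Fᶜ ≤ Yst B F N₀ N 0 := 
  (PB2_mono fun i hi => mem_filter.2 ⟨mem_univ _, mem_compl.1 hi, Nat.zero_le _⟩).trans le_sup_right

theorem Yst_succ_mem (B : Matrix (Fin n) (Fin n) ℤ) {v : Fin n} (hv : v ∈ F) :
    Yst B F N₀ N (v + 1) = Yst B F N₀ N v := by
  have h : ∀ i : Fin n, i ∉ F → (i : ℕ) ≠ v := fun i hi e => hi (Fin.ext e ▸ hv)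
  have e1 : (univ.filter fun i : Fin n => i ∉ F ∧ (i : ℕ) < v + 1) =
      univ.filter fun i : Fin n => i ∉ F ∧ (i : ℕ) < v :=
    filter_congr fun i _ => and_congr_right fun hi => by have := h i hi; omega
  have e2 : (univ.filter fun i : Fin n => i ∉ F ∧ (v : ℕ) + 1 ≤ i) =
      univ.filter fun i : Fin n => i ∉ F ∧ (v : ℕ) ≤ i :=
    filter_congr fun i _ => and_congr_right fun hi => by have := h i hi; omega
  rw [Yst, Yst, e1, e2]

theorem Yst_succ (B : Matrix (Fin n) (Fin n) ℤ) {v : Fin n} (hv : v ∉ F) {r : Fin n → ℤ}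
    (hr : N v = ad N₀ r) : ad (Yst B F N₀ N v) (B *ᵥ r) ≤ Yst B F N₀ N (v + 1) ⊔ co {v} := by
  refine ad_le (sup_le (le_sup_of_le_left (le_sup_of_le_left (Submodule.map_mono
    (sup_le_sup_left (Finset.sup_mono fun i hi => ?_) _)))) fun x hx => ?_) ?_
  · exact mem_filter.2 ⟨mem_univ _, (mem_filter.1 hi).2.1, (mem_filter.1 hi).2.2.trans
      (Nat.lt_succ_self _)⟩
  · rw [← sub_add_cancel x (Pi.single v (x v))]
    refine Submodule.add_mem_sup (Submodule.mem_sup_right fun i hi => ?_) fun i hi => ?_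
    · by_cases e : i = v
      · simp [e]
      · rw [Pi.sub_apply, Pi.single_eq_of_ne e, sub_zero]
        refine hx i fun h1 => hi (mem_filter.2 ⟨mem_univ _, (mem_filter.1 h1).2.1, ?_⟩)
        have h2 := (mem_filter.1 h1).2.2
        have h3 : (i : ℕ) ≠ v := fun e' => e (Fin.ext e')
        omega
    · exact Pi.single_eq_of_ne (by simpa using hi) _
  · refine lat_mono (le_sup_of_le_left le_sup_left) (mulVec_mem_mp B (lat_mono
      (le_sup_of_le_right (Finset.le_sup (f := N) (b := v) ?_)) (hr ▸ self_mem_ad N₀ r)))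
    exact mem_filter.2 ⟨mem_univ _, hv, Nat.lt_succ_self _⟩

theorem Yst_last (B : Matrix (Fin n) (Fin n) ℤ) {Y : QS (Fin n)} (h0 : mp B N₀ ≤ Y)
    (h : ∀ j, mp B (N j) ≤ Y) : Yst B F N₀ N n ≤ Y := by
  refine sup_le (Submodule.map_le_iff_le_comap.2 (sup_le (Submodule.map_le_iff_le_comap.1 h0)
    (Finset.sup_le fun j _ => Submodule.map_le_iff_le_comap.1 (h j)))) fun x hx => ?_
  have e : x = 0 := funext fun i => hx i fun h1 => absurd (mem_filter.1 h1).2.2 (not_le.2 i.2)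
  rw [e]
  exact Y.zero_mem

theorem Yst_dim (hC : Cont K β ρ F N₀ N) (B : Matrix (Fin n) (Fin n) ℤ) (τ : ℕ) :
    dm (Yst B F N₀ N τ) ≤ ρ + (n - F.card) := by
  have h1 := PB2_sup hC (univ.filter fun i : Fin n => i ∉ F ∧ (i : ℕ) < τ)
    fun i hi => (mem_filter.1 hi).2.1
  have h2 : dm (mp B (N₀ ⊔ (univ.filter fun i : Fin n => i ∉ F ∧ (i : ℕ) < τ).sup N)) ≤ _ :=
    (Submodule.finrank_map_le _ _).trans h1
  have h3 := card_filter_add_card_filter_not (s := Fᶜ) fun i : Fin n => (i : ℕ) < τ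
  have e1 : (Fᶜ.filter fun i : Fin n => (i : ℕ) < τ) =
      univ.filter fun i : Fin n => i ∉ F ∧ (i : ℕ) < τ := by
    ext i
    simp
  have e2 : (Fᶜ.filter fun i : Fin n => ¬(i : ℕ) < τ) =
      univ.filter fun i : Fin n => i ∉ F ∧ τ ≤ (i : ℕ) := by
    ext i
    simp
  rw [e1, e2, card_compl, Fintype.card_fin] at h3
  refine (PB2_dm _ _).trans ?_
  rw [dm_co]
  omega

theorem Yst_upd (hC : Cont K β ρ F N₀ N) (ω : Sym2 (Fin n) → Bool) {v : Fin n} (hv : v ∉ F)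
    (y : Fin n → Bool) {u : ℕ} (hu : u ≤ v) :
    Yst (Bm (upd ω v y)) F N₀ N u = Yst (Bm ω) F N₀ N u := 
  le_antisymm (PB2_le hC hv (fun _ _ hi hj => Bm_upd_of_ne ω v y hi hj) hu)
    (PB2_le hC hv (fun _ _ hi hj => (Bm_upd_of_ne ω v y hi hj).symm) hu)

theorem Yst_col (ω : Sym2 (Fin n) → Bool) {v : Fin n} (hv : v ∉ F) (y : Fin n → Bool) {u : ℕ}
    (hu : u ≤ v) (B : Matrix (Fin n) (Fin n) ℤ) {x : Fin n → ℤ} (hx : x v = 0) :
    Bm (upd ω v y) *ᵥ x - Bm ω *ᵥ x ∈ lat (Yst B F N₀ N u) := by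
  refine lat_mono le_sup_right fun i hi => ?_
  have h1 : i ≠ v := by
    rintro rfl
    exact hi (mem_filter.2 ⟨mem_univ _, hv, hu⟩)
  simp only [zq, Pi.sub_apply, mulVec, dotProduct, Int.cast_eq_zero]
  rw [sub_eq_zero]
  refine sum_congr rfl fun j _ => ?_
  by_cases hj : j = v
  · rw [hj, hx, mul_zero, mul_zero]
  · rw [Bm_upd_of_ne ω v y h1 hj]

theorem Bm_upd_single (ω : Sym2 (Fin n) → Bool) (v : Fin n) (y : Fin n → Bool) :
    Bm (upd ω v y) *ᵥ Pi.single v 1 = bz y := by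
  funext i
  rw [mulVec_single_one]
  exact Bm_upd_col ω v y i

end Vale.Agent.P160F
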