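import Vale.Agent.P160F.PB1
import Vale.Agent.P160F.PB2

/-! P160F, part PB5. Accumulation of the potential. -/

open Finset Matrix Module Filter Topology

noncomputable section

namespace Vale.Agent.P160F

open Vale.Agent.P160

variable {n : ℕ} {K β : ℝ} {ρ : ℕ} {F : Finset (Fin n)} {N₀ : QS (Fin n)} {N : Fin n → QS (Fin n)}


theorem PB5_card (p : Fin n → Prop) [DecidablePred p] (v : Fin n) :
    (univ.filter fun i : Fin n => p i ∧ (i : ℕ) < v + 1).card =
      (univ.filter fun i : Fin n => p i ∧ (i : ℕ) < v).card + if p v then 1 else 0 := by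
  by_cases h : p v
  · rw [if_pos h, ← Finset.card_insert_of_notMem (a := v) (by simp)]
    congr 1
    ext i
    simp only [mem_filter, mem_univ, true_and, mem_insert, Fin.ext_iff]
    constructor
    · rintro ⟨h1, h2⟩
      by_cases h3 : (i : ℕ) = v
      · exact Or.inl h3
      · exact Or.inr ⟨h1, by omega⟩
    · rintro (h1 | ⟨h1, h2⟩)
      · exact ⟨(Fin.ext h1 : i = v) ▸ h, by omega⟩
      · exact ⟨h1, by omega⟩
  · rw [if_neg h, add_zero]
    congr 1
    ext i
    simp only [mem_filter, mem_univ, true_and]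
    constructor
    · rintro ⟨h1, h2⟩
      have h3 : (i : ℕ) ≠ v := fun e => h ((Fin.ext e : i = v) ▸ h1)
      exact ⟨h1, by omega⟩
    · rintro ⟨h1, h2⟩
      exact ⟨h1, by omega⟩

open Classical in
theorem pot_final {t θ : ℝ} (ht1 : 1 ≤ t) (hθ1 : 1 ≤ θ) (hθ : θ ≤ t) {d : ℕ}
    (B : Matrix (Fin n) (Fin n) ℤ) {r : Fin n → Fin n → ℤ} (hr : ∀ v, v ∉ F → N v = ad N₀ (r v))
    (hd : ∀ τ, dm (yp t (Yst B F N₀ N τ)) + d ≤ n) {Y : QS (Fin n)} (h0 : mp B N₀ ≤ Y)
    (h : ∀ j, mp B (N j) ≤ Y) :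
    (t ^ 3 * θ) ^ (n - F.card) ≤ (t ^ 3 * θ) ^ (univ.filter fun v : Fin n =>
      v ∉ F ∧ BadY t θ d (Yst B F N₀ N v) (B *ᵥ r v)).card * (hs Y * (t ^ 3) ^ dm Y) := by
  have ht0 : 0 < t := one_pos.trans_le ht1
  have hθ0 : 0 < θ := one_pos.trans_le hθ1
  have hA : 1 ≤ t ^ 3 := one_le_pow₀ ht1
  have hA0 : 0 < t ^ 3 := one_pos.trans_le hA
  have hQ : 0 < t ^ 3 * θ := mul_pos hA0 hθ0
  have key : ∀ τ, τ ≤ n → ∀ V, Yst B F N₀ N τ ≤ V →
      (t ^ 3) ^ (n - F.card) * θ ^ (univ.filter fun i : Fin n => i ∉ F ∧ (i : ℕ) < τ).card /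
        (t ^ 3 * θ) ^ (univ.filter fun i : Fin n =>
          (i ∉ F ∧ BadY t θ d (Yst B F N₀ N i) (B *ᵥ r i)) ∧ (i : ℕ) < τ).card ≤
        hs V * (t ^ 3) ^ dm V := by
    intro τ
    induction τ with
    | zero =>
      intro _ V hV
      simp only [Nat.not_lt_zero, and_false, Finset.filter_false, Finset.card_empty, pow_zero,
        mul_one, div_one]
      have h1 : n - F.card ≤ dm V := by
        have h2 := Submodule.finrank_mono ((Yst_zero B).trans hV)
        have h3 := dm_co Fᶜ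
        rw [Finset.card_compl, Fintype.card_fin] at h3
        exact h3 ▸ h2
      exact (pow_le_pow_right₀ hA h1).trans
        (le_mul_of_one_le_left (pow_nonneg hA0.le _) (one_le_ht inj_one V))
    | succ τ ih =>
      intro hτ V hV
      obtain ⟨v, rfl⟩ : ∃ v : Fin n, (v : ℕ) = τ := ⟨⟨τ, hτ⟩, rfl⟩
      have ih' := ih v.isLt.le
      rw [PB5_card (fun i => i ∉ F) v,
        PB5_card (fun i => i ∉ F ∧ BadY t θ d (Yst B F N₀ N i) (B *ᵥ r i)) v]
      by_cases hv : v ∈ F
      · rw [if_neg (not_not.2 hv), if_neg fun h' => h'.1 hv, add_zero, add_zero]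
        exact ih' V (Yst_succ_mem B hv ▸ hV)
      · rw [if_pos hv]
        have hs1 := Yst_succ B hv (hr v hv)
        generalize (univ.filter fun i : Fin n => i ∉ F ∧ (i : ℕ) < v).card = j at ih' ⊢
        generalize (univ.filter fun i : Fin n =>
          (i ∉ F ∧ BadY t θ d (Yst B F N₀ N i) (B *ᵥ r i)) ∧ (i : ℕ) < v).card = b at ih' ⊢
        by_cases hb : BadY t θ d (Yst B F N₀ N v) (B *ᵥ r v)
        · rw [if_pos ⟨hv, hb⟩]
          have h1 := pot_drop hA (fun V' hV' => ih' V' (le_sup_left.trans (hs1.trans hV'))) V hV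
          have e : (t ^ 3) ^ (n - F.card) * θ ^ (j + 1) / (t ^ 3 * θ) ^ (b + 1) =
              (t ^ 3) ^ (n - F.card) * θ ^ j / (t ^ 3 * θ) ^ b / t ^ 3 := by
            rw [pow_succ θ, pow_succ (t ^ 3 * θ)]
            field_simp
          rw [e, div_le_iff₀' hA0]
          exact h1
        · rw [if_neg fun h' => hb h'.2, add_zero]
          have hb' : ¬(B *ᵥ r v ∈ lat (yp t (Yst B F N₀ N v)) ∨
              hs (ad (yp t (Yst B F N₀ N v)) (B *ᵥ r v)) < θ * hs (yp t (Yst B F N₀ N v))) :=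
            fun h' => hb ⟨(hd v).trans_eq (Fintype.card_fin n).symm, h'⟩
          rw [not_or, not_lt] at hb'
          have h1 := pot_drop hA
            (fun V' hV' => pot_good ht1 hθ0 hθ ih' hb'.1 hb'.2 V' (hs1.trans hV')) V hV
          rw [mul_comm _ (t ^ 3), mul_le_mul_iff_right₀ hA0] at h1
          rw [pow_succ θ, ← mul_assoc, mul_div_right_comm]
          exact h1
  have h1 := key n le_rfl Y (Yst_last B h0 h)
  have e1 : (univ.filter fun i : Fin n => i ∉ F ∧ (i : ℕ) < n).card = n - F.card := by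
    have e := Finset.card_compl F
    rw [Fintype.card_fin] at e
    rw [← e]
    congr 1
    ext i
    simp
  simp only [Fin.is_lt, and_true] at h1 e1
  rw [e1, ← mul_pow, div_le_iff₀' (pow_pos hQ _)] at h1
  exact h1

end Vale.Agent.P160F
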