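import Vale.Agent.P160F.PB3
import Vale.Agent.P160F.PB4
import Vale.Agent.P160F.PB5

/-! P160F, part PB. Growth of the height potential. -/

open Finset Matrix Module Filter Topology

noncomputable section

namespace Vale.Agent.P160F

open Vale.Agent.P160

section aux

variable {n : ℕ} {K β : ℝ} {ρ : ℕ} {F : Finset (Fin n)} {N₀ : QS (Fin n)} {N : Fin n → QS (Fin n)}

theorem PB_mp_le (B : Matrix (Fin n) (Fin n) ℤ) (τ : ℕ) : mp B N₀ ≤ Yst B F N₀ N τ :=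
  (Submodule.map_mono le_sup_left).trans le_sup_left

theorem PB_expose (hC : Cont K β ρ F N₀ N) {t θ p : ℝ} (ht0 : 0 < t) (hp : 0 ≤ p) {d : ℕ}
    (hs1 : ∀ (Y : QS (Fin n)) (g : ℤ) (σ : Fin n → ℤ), 1 ≤ g →
      Up (1 : Matrix (Fin n) (Fin n) ℤ) t Y ⊤ → dm Y + d ≤ n →
      (∀ y, d1 Y (g • bz y + σ) ≤ n * (2 * β)) →
      pr (fun y : Fin n → Bool => g • bz y + σ ∈ lat Y ∨ hs (ad Y (g • bz y + σ)) < θ * hs Y) ≤ p) :
    ∃ r : Fin n → Fin n → ℤ, (∀ v, v ∉ F → N v = ad N₀ (r v)) ∧ ∀ b : ℕ,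
      pr (fun ω => ∃ S, S ⊆ Fᶜ ∧ S.card = b ∧ ∀ v ∈ S,
        BadY t θ d (Yst (Bm ω) F N₀ N v) (Bm ω *ᵥ r v)) ≤ 2 ^ n * p ^ b := by
  choose! g l hg1 hg hl hd hN using hC.out
  refine ⟨fun v => g v • Pi.single v 1 + l v, hN, fun b => EXP Fᶜ _ hp ?_ ?_ b⟩
  · intro u hu v hv huv ω y
    rw [Finset.mem_compl] at hu hv
    rw [Yst_upd hC ω hv y huv.le]
    refine BadY_congr ht0 (Yst_col ω hv y huv.le _ ?_)
    have h1 : ((l u v : ℤ) : ℚ) = 0 := hl u hu v hv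
    have h2 : l u v = 0 := by exact_mod_cast h1
    simp [h2, huv.ne']
  · intro v hv ω
    rw [Finset.mem_compl] at hv
    have h1 : ((l v v : ℤ) : ℚ) = 0 := hl v hv v hv
    have h2 : l v v = 0 := by exact_mod_cast h1
    have h3 : ∀ y, Bm (upd ω v y) *ᵥ (g v • Pi.single v 1 + l v) - (g v • bz y + Bm ω *ᵥ l v) ∈
        lat (Yst (Bm ω) F N₀ N v) := fun y => by
      rw [Matrix.mulVec_add, Matrix.mulVec_smul, Bm_upd_single, add_sub_add_left_eq_sub]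
      exact Yst_col ω hv y le_rfl _ h2
    have h4 : ∀ y, BadY t θ d (Yst (Bm (upd ω v y)) F N₀ N v)
        (Bm (upd ω v y) *ᵥ (g v • Pi.single v 1 + l v)) ↔
        BadY t θ d (Yst (Bm ω) F N₀ N v) (g v • bz y + Bm ω *ᵥ l v) := fun y => by
      rw [Yst_upd hC ω hv y le_rfl]
      exact BadY_congr ht0 (h3 y)
    rw [pr_congr h4]
    by_cases hG : dm (yp t (Yst (Bm ω) F N₀ N v)) + d ≤ n
    · refine (pr_mono fun y hy => hy.2).trans (hs1 _ _ _ (hg1 v hv) (yp_up ht0 _) hG fun y => ?_)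
      have h5 := (yp_spec ht0 (Yst (Bm ω) F N₀ N v)).1
      have h6 : mp (Bm (upd ω v y)) N₀ ≤ yp t (Yst (Bm ω) F N₀ N v) :=
        ((PB_mp_le _ v).trans (Yst_upd hC ω hv y le_rfl).le).trans h5
      have h7 := d1_mulVec (abs_Bm_le _) h6 (g v • Pi.single v 1 + l v)
      rw [d1, ds_congr _ (h5 (h3 y))] at h7
      exact h7.trans (mul_le_mul_of_nonneg_left (d1_rel_le (hg1 v hv) (hg v hv) (hd v hv) v)
        (Nat.cast_nonneg _))
    · rw [pr_of_not fun y hy => hG (hy.1.trans_eq (Fintype.card_fin n))]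
      exact hp

theorem PB_guard {ε : ℝ} (hε : 0 < ε) {a : ℕ} (ha : 12 / ε ≤ a) (hK : 1 ≤ K) (hβ : 1 ≤ β)
    (hC : Cont K β ρ F N₀ N) (hn : 2 ≤ n) (h1 : K * (2 * β) ≤ n) (h2 : 5 ≤ ε * n)
    (hρ : (ρ : ℝ) ≤ ε / 8 * n) (hF : ε * n ≤ F.card) {B : Matrix (Fin n) (Fin n) ℤ}
    (hB : ∀ i j, |B i j| ≤ 1) (hD : B.det ≠ 0) (τ : ℕ) :
    dm (yp ((n : ℝ) ^ a) (Yst B F N₀ N τ)) + ⌈ε / 2 * n⌉₊ ≤ n := by
  have hn1 : (1 : ℝ) < n := by exact_mod_cast hn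
  have hn0 : (0 : ℝ) < n := one_pos.trans hn1
  have h3 := (yp_dim (pow_pos hn0 a) (Yst B F N₀ N τ)).trans (Yst_hs hβ hC hB hD τ)
  have h4 : ((n : ℝ) * K * (2 * β)) ^ n ≤ (n : ℝ) ^ (2 * n) := by
    rw [pow_mul, sq, mul_assoc]
    exact pow_le_pow_left₀ (by positivity) (mul_le_mul_of_nonneg_left h1 hn0.le) n
  have h5 := h3.trans h4
  rw [← pow_mul, pow_le_pow_iff_right₀ hn1] at h5
  have h6 := Yst_dim hC B τ
  have h7 : F.card ≤ n := by simpa using F.card_le_univ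
  generalize dm (yp ((n : ℝ) ^ a) (Yst B F N₀ N τ)) = x at h5 ⊢
  generalize dm (Yst B F N₀ N τ) = y at h5 h6
  have h8 : (x : ℝ) ≤ y + ((x - y : ℕ) : ℝ) := by exact_mod_cast (by omega : x ≤ y + (x - y))
  have h9 : (a : ℝ) * ((x - y : ℕ) : ℝ) ≤ 2 * n := by exact_mod_cast h5
  have h10 : (y : ℝ) ≤ ρ + (n - F.card) := by
    rw [← Nat.cast_sub h7]; exact_mod_cast h6
  have h11 : (⌈ε / 2 * n⌉₊ : ℝ) ≤ ε / 2 * n + 1 := (Nat.ceil_lt_add_one (by positivity)).le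
  have h12 : ((x - y : ℕ) : ℝ) ≤ ε / 6 * n := by
    rw [div_le_iff₀ hε] at ha
    have h13 : (0 : ℝ) ≤ ((x - y : ℕ) : ℝ) := Nat.cast_nonneg _
    nlinarith [mul_le_mul_of_nonneg_right ha h13, mul_le_mul_of_nonneg_right h9 hε.le]
  have h14 : (x : ℝ) + ⌈ε / 2 * n⌉₊ ≤ n := by linarith
  exact_mod_cast h14

theorem PB_count {c η X : ℝ} (hη : 0 < η) (hη1 : η ≤ 1) {a m b : ℕ} (hn : 2 ≤ n) (hm : m ≤ n)
    (h1 : 1 ≤ √η * (n : ℝ) ^ (c / 2))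
    (h2 : ((n : ℝ) ^ a * √(η * n)) ^ m ≤ ((n : ℝ) ^ a * √(η * n)) ^ b * X)
    (h3 : X < ((n : ℝ) ^ a * √n) ^ m / (n : ℝ) ^ (c * n)) : c * n / (2 * (a + 1)) ≤ b := by
  have hn1 : (1 : ℝ) < n := by exact_mod_cast hn
  have hn0 : (0 : ℝ) < n := one_pos.trans hn1
  have hs0 : 0 < √η := Real.sqrt_pos.2 hη
  have hs1 : √η ≤ 1 := Real.sqrt_le_one.2 hη1
  have hq : 0 < ((n : ℝ) ^ a * √n) ^ m := by positivity
  have e : ((n : ℝ) ^ a * √(η * n)) ^ m = √η ^ m * ((n : ℝ) ^ a * √n) ^ m := by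
    rw [Real.sqrt_mul hη.le, ← mul_pow]; ring
  have h4 : ((n : ℝ) ^ a * √(η * n)) ^ b ≤ (n : ℝ) ^ ((a + 1) * b) := by
    rw [pow_mul, pow_succ]
    refine pow_le_pow_left₀ (by positivity) (mul_le_mul_of_nonneg_left ?_ (by positivity)) b
    rw [Real.sqrt_le_left hn0.le]
    nlinarith
  have h5 : √η ^ m * ((n : ℝ) ^ a * √n) ^ m ≤
      (n : ℝ) ^ ((a + 1) * b) / (n : ℝ) ^ (c * n) * ((n : ℝ) ^ a * √n) ^ m := by
    rw [← e, div_mul_eq_mul_div, mul_div_assoc]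
    exact h2.trans ((mul_le_mul_of_nonneg_left h3.le (by positivity)).trans
      (mul_le_mul_of_nonneg_right h4 (by positivity)))
  rw [mul_le_mul_iff_left₀ hq, le_div_iff₀ (by positivity)] at h5
  have h6 : (n : ℝ) ^ (c / 2 * n) ≤ √η ^ m * (n : ℝ) ^ (c * n) := by
    have e2 : (n : ℝ) ^ (c * n) = ((n : ℝ) ^ (c / 2)) ^ n * (n : ℝ) ^ (c / 2 * n) := by
      rw [← Real.rpow_natCast, ← Real.rpow_mul hn0.le, ← Real.rpow_add hn0]
      congr 1; ring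
    rw [e2, ← mul_assoc]
    refine le_mul_of_one_le_left (by positivity) ?_
    refine (one_le_pow₀ h1 (n := n)).trans ?_
    rw [mul_pow]
    exact mul_le_mul_of_nonneg_right (pow_le_pow_of_le_one hs0.le hs1 hm) (by positivity)
  have h7 := h6.trans h5
  rw [← Real.rpow_natCast, Real.rpow_le_rpow_left_iff hn1] at h7
  rw [div_le_iff₀ (by positivity)]
  push_cast at h7
  linarith

end aux

theorem PB {ε c K : ℝ} (hε : 0 < ε) (hc : 0 < c) (hK : 1 ≤ K) : ∃ (a : ℕ) (κ₁ c₃ : ℝ), 0 < κ₁ ∧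
    0 < c₃ ∧ ∀ β : ℝ, 1 < β → ∀ᶠ n : ℕ in atTop, ∀ (ρ : ℕ) (F : Finset (Fin n)) (N₀ : QS (Fin n))
      (N : Fin n → QS (Fin n)), (ρ : ℝ) ≤ κ₁ * n → Cont K β ρ F N₀ N → ε * n ≤ F.card →
      pr (fun ω : Sym2 (Fin n) → Bool => Low (Bm ω) N₀ N ((n : ℝ) ^ a)
        (((n : ℝ) ^ a * √n) ^ (n - F.card) / (n : ℝ) ^ (c * n))) ≤
        Real.exp (-(c₃ * n ^ 2)) := by
  classical
  obtain ⟨η, c₀, hη, hη1, hc₀, hstep⟩ := step_pr (half_pos hε)
  obtain ⟨a, ha⟩ := exists_nat_ge (max (12 / ε) 1)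
  have ha1 : 1 ≤ a := by exact_mod_cast (le_max_right _ _).trans ha
  refine ⟨3 * a, ε / 8, c₀ * c / (4 * (3 * a + 1)), by positivity, by positivity, fun β hβ => ?_⟩
  have t1 : Tendsto (fun n : ℕ => (n : ℝ)) atTop atTop := tendsto_natCast_atTop_atTop
  have t2 : Tendsto (fun n : ℕ => √η * (n : ℝ) ^ (c / 2)) atTop atTop :=
    ((tendsto_rpow_atTop (half_pos hc)).comp t1).const_mul_atTop (Real.sqrt_pos.2 hη)
  filter_upwards [hstep a β, eventually_ge_atTop 2, t1.eventually_ge_atTop (K * (2 * β)),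
    (t1.const_mul_atTop hε).eventually_ge_atTop 5, t2.eventually_ge_atTop 1,
    (t1.const_mul_atTop hη).eventually_ge_atTop 1,
    (t1.const_mul_atTop (show 0 < c₀ * c / (4 * (3 * a + 1)) by positivity)).eventually_ge_atTop 1]
    with n h1 h2 h3 h4 h5 h6 h7 ρ F N₀ N hρ hC hF
  have hn1 : (1 : ℝ) ≤ n := by exact_mod_cast (by omega : 1 ≤ n)
  have ht1 : (1 : ℝ) ≤ (n : ℝ) ^ a := one_le_pow₀ hn1
  obtain ⟨r, hr, hb⟩ := PB_expose hC (t := (n : ℝ) ^ a) (θ := √(η * n)) (one_pos.trans_le ht1)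
    (Real.exp_pos (-(c₀ * n))).le (d := ⌈ε / 2 * n⌉₊) fun Y g σ hg hU hd hR => by
      refine h1 Y g σ hg hU ?_ hR
      have h8 : (dm Y : ℝ) + ⌈ε / 2 * n⌉₊ ≤ n := by exact_mod_cast hd
      linarith [Nat.le_ceil (ε / 2 * n)]
  refine (pr_mono fun ω hω => ?_).trans ((hb ⌈c * n / (2 * (3 * a + 1))⌉₊).trans ?_)
  · obtain ⟨hD, Y, h0, hY, hlt⟩ := hω
    have hθ : √(η * n) ≤ (n : ℝ) ^ a := by
      refine le_trans ?_ (le_self_pow₀ hn1 (by omega))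
      rw [Real.sqrt_le_left (by positivity)]
      nlinarith
    have h9 := pot_final ht1 (Real.one_le_sqrt.2 h6) hθ (Bm ω) hr
      (PB_guard hε ((le_max_left _ _).trans ha) hK hβ.le hC h2 h3 h4 hρ hF (abs_Bm_le ω) hD) h0 hY
    rw [← pow_mul, mul_comm a 3] at h9
    have h10 := PB_count hη hη1 h2 (Nat.sub_le _ _) h5 h9 hlt
    push_cast at h10
    obtain ⟨S, hS, hc'⟩ := Finset.exists_subset_card_eq (Nat.ceil_le.2 h10)
    exact ⟨S, fun v hv => Finset.mem_compl.2 (Finset.mem_filter.1 (hS hv)).2.1, hc',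
      fun v hv => (Finset.mem_filter.1 (hS hv)).2.2⟩
  · rw [← Real.exp_nat_mul]
    have h8 : (2 : ℝ) ^ n ≤ Real.exp n := by
      rw [← Real.exp_one_pow]
      exact pow_le_pow_left₀ zero_le_two (by linarith [Real.add_one_le_exp 1]) n
    refine (mul_le_mul_of_nonneg_right h8 (Real.exp_pos _).le).trans ?_
    rw [← Real.exp_add, Real.exp_le_exp]
    have h9 := Nat.le_ceil (c * n / (2 * (3 * a + 1)))
    have h10 := mul_le_mul_of_nonneg_right h9 (show 0 ≤ c₀ * n by positivity)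
    have h11 := mul_le_mul_of_nonneg_right h7 (show (0 : ℝ) ≤ n by positivity)
    have e : c * n / (2 * (3 * a + 1)) * (c₀ * n) = 2 * (c₀ * c / (4 * (3 * a + 1)) * n * n) := by
      field_simp; ring
    rw [e] at h10
    nlinarith

end Vale.Agent.P160F
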