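import Vale.Agent.P160F.A1
import Vale.Agent.P160F.Key

/-! P160F, part Wit. The witness subspace of a rich matrix. -/

open Finset Matrix Module Filter Topology

noncomputable section

namespace Vale.Agent.P160F

open Vale.Agent.P160

/-- A basis matrix of a lattice containing the columns of a nonsingular matrix. -/
theorem Wit_basis {n : ℕ} {B : Matrix (Fin n) (Fin n) ℤ} (hD : B.det ≠ 0)
    {L : Submodule ℤ (Fin n → ℤ)} (hL : ∀ z, B *ᵥ z ∈ L) :
    ∃ M : Matrix (Fin n) (Fin n) ℤ, M.det.natAbs = Nat.card ((Fin n → ℤ) ⧸ L) ∧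
      (∀ y ∈ L, ∃ t, M *ᵥ t = y) ∧ ∃ N, M * N = B := by
  have hinj : Function.Injective (B.mulVecLin.codRestrict L hL) := by
    rw [← LinearMap.ker_eq_bot, LinearMap.ker_eq_bot']
    intro z hz
    have h0 := inj_mul inj_one hD z
    rw [Matrix.one_mul] at h0
    exact h0 (congrArg Subtype.val hz)
  have hr : finrank ℤ L = n := by
    apply le_antisymm
    · simpa using Submodule.finrank_le L
    · simpa using LinearMap.finrank_le_finrank_of_injective hinj
  let b : Basis (Fin n) ℤ L := (Module.finBasis ℤ L).reindex (finCongr hr)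
  let M : Matrix (Fin n) (Fin n) ℤ := Matrix.of fun i j => (b j : Fin n → ℤ) i
  have hM : ∀ y (hy : y ∈ L), M *ᵥ (b.repr ⟨y, hy⟩) = y := fun y hy => by
    funext i
    have h1 := congrFun (congrArg Subtype.val (b.sum_repr ⟨y, hy⟩)) i
    simp only [Submodule.coe_sum, Submodule.coe_smul, Finset.sum_apply, Pi.smul_apply,
      smul_eq_mul] at h1
    rw [← h1]
    simp [M, mulVec, dotProduct, mul_comm]
  refine ⟨M, ?_, fun y hy => ⟨_, hM y hy⟩,
    Matrix.of fun i j => b.repr ⟨_, hL (Pi.single j 1)⟩ i, ?_⟩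
  · rw [← Submodule.natAbs_det_basis_change (Pi.basisFun ℤ (Fin n)) L b, Pi.basisFun_det_apply,
      ← det_transpose]
    rfl
  · ext i j
    exact (congrFun (hM _ (hL (Pi.single j 1))) i).trans (congrFun (mulVec_single_one B j) i)

theorem WIT : ∃ C : ℝ, 1 ≤ C ∧ ∀ (n : ℕ) (B : Matrix (Fin n) (Fin n) ℤ) (X Z : ℝ) (k : ℕ),
    B.IsSymm → (∀ i j, |B i j| ≤ 1) → 0 ≤ X → 0 ≤ Z → Rich B X Z →
    ∃ W : QS (Fin n), Dn (1 : Matrix (Fin n) (Fin n) ℤ) (2 ^ k) W ∧
      Z ^ k ≤ C ^ n * 2 ^ (k * dm W) ∧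
      hs (mp B (pp W)) * X ≤ (3 * 2 ^ k) ^ n * √n ^ (n - dm W) :=
  by
  obtain ⟨C, hC, hA⟩ := A1
  refine ⟨C, hC, ?_⟩
  rintro n B X Z k hB h1 hX hZ ⟨hD, L, s, ⟨hL, hbig⟩, hT⟩
  classical
  obtain ⟨M, hMc, hML, N, hMN⟩ := Wit_basis hD hL
  have hMN' : M.det * N.det = B.det := by rw [← det_mul, hMN]
  have hM : M.det ≠ 0 := fun h => hD (by rw [← hMN', h, zero_mul])
  have hDp : 0 < |(B.det : ℝ)| := abs_pos.2 (Int.cast_ne_zero.2 hD)
  choose! f hf using hML
  have hbz : Function.Injective (bz : (Fin n → Bool) → Fin n → ℤ) := fun x y h => by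
    funext i
    have h2 := congrFun h i
    simp only [bz] at h2
    cases hx : x i <;> cases hy : y i <;> simp_all
  let S := (Tset B L s).toFinset
  have hS : ∀ x ∈ S, x ∈ Tset B L s := fun x hx => Set.mem_toFinset.1 hx
  have hcard : (S.image fun x => f (bz x)).card = (Tset B L s).ncard := by
    rw [Finset.card_image_of_injOn, Set.ncard_eq_toFinset_card']
    intro x hx y hy hxy
    apply hbz
    rw [← hf _ (hS x hx).1, ← hf _ (hS y hy).1]
    exact congrArg _ hxy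
  obtain ⟨U, hU1, hU2, hU3⟩ := hA (Fin n) (Fin n ⊕ Fin n) (Gm B M s) M |(B.det : ℝ)| hM hDp
    (fun x => by
      rw [← Real.norm_eq_abs, ← norm_smul]
      refine (pow_le_pow_iff_left₀ (norm_nonneg _) (norm_nonneg _) two_ne_zero).1 ?_
      rw [EuclideanSpace.real_norm_sq_eq, EuclideanSpace.real_norm_sq_eq, Fintype.sum_sum_type]
      refine le_of_eq_of_le (Finset.sum_congr rfl fun i _ => ?_)
        (le_add_of_nonneg_right (by positivity))
      congr 1
      change (B.det : ℝ) * ∑ j, (M i j : ℝ) * x j = ∑ j, ((B.det * M i j : ℤ) : ℝ) * x j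
      simp [Finset.mul_sum, mul_assoc])
    (S.image fun x => f (bz x)) (fun t ht => by
      obtain ⟨x, hx, rfl⟩ := Finset.mem_image.1 ht
      have h2 := hf _ (hS x hx).1
      refine ⟨⟨x, h2⟩, ?_⟩
      have h3 : ∀ i, |(Gm B M s *ᵥ f (bz x)) i| ≤ |B.det| := by
        rw [Gm, fromRows_mulVec, smul_mulVec, h2]
        rintro (i | i)
        · cases hx : x i <;> simp [bz, hx]
        · cases s
          · simp
          · have h4 := (hS x hx).2 rfl i
            rw [if_pos rfl, ← mulVec_mulVec, h2]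
            exact h4
      rw [EuclideanSpace.real_norm_sq_eq]
      have h4 : ∀ i, ev (Gm B M s) (f (bz x)) i ^ 2 ≤ |(B.det : ℝ)| ^ 2 := fun i => by
        rw [← sq_abs]
        refine pow_le_pow_left₀ (abs_nonneg _) ?_ 2
        change |(((Gm B M s *ᵥ f (bz x)) i : ℤ) : ℝ)| ≤ _
        exact_mod_cast h3 i
      refine (Finset.sum_le_sum fun i _ => h4 i).trans_eq ?_
      simp
      ring) k
  have hK : (1 : ℝ) ≤ 2 ^ k := one_le_pow₀ one_le_two
  have hkey := KEY hB h1 hD hMN s U hK hU1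
  rw [Fintype.card_fin] at hkey hU3
  rw [hcard] at hU3
  refine ⟨mp M U, hU2, ?_, ?_⟩
  · rw [dm_mp hM]
    exact (pow_le_pow_left₀ hZ hT k).trans hU3
  rw [dm_mp hM]
  have hc : (Nat.card ((Fin n → ℤ) ⧸ L) : ℝ) ^ 2 = (M.det : ℝ) ^ 2 := by
    rw [← hMc, Nat.cast_natAbs, Int.cast_abs, sq_abs]
  rw [hc] at hbig
  have hD2 : (0 : ℝ) < (B.det : ℝ) ^ 2 := by rw [← sq_abs]; exact pow_pos hDp 2
  have e : (M.det : ℝ) ^ 2 * (N.det : ℝ) ^ 2 = (B.det : ℝ) ^ 2 := by
    rw [← mul_pow, ← Int.cast_mul, hMN']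
  have h5 : (hs (mp B (pp (mp M U))) * X) ^ 2 ≤
      (2 ^ k) ^ (2 * n) * (2 * Real.exp 1) ^ n * (n : ℝ) ^ (n - dm U) := by
    refine le_of_mul_le_mul_right ?_ hD2
    calc (hs (mp B (pp (mp M U))) * X) ^ 2 * (B.det : ℝ) ^ 2
        = hs (mp B (pp (mp M U))) ^ 2 * (X ^ 2 * (B.det : ℝ) ^ 2) := by ring
      _ ≤ hs (mp B (pp (mp M U))) ^ 2 * ((M.det : ℝ) ^ 2 *
          ((B * B + if s then 1 else 0).det : ℝ)) := mul_le_mul_of_nonneg_left hbig (sq_nonneg _)
      _ = (M.det : ℝ) ^ 2 * (hs (mp B (pp (mp M U))) ^ 2 *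
          ((B * B + if s then 1 else 0).det : ℝ)) := by ring
      _ ≤ _ := (mul_le_mul_of_nonneg_left hkey (sq_nonneg _)).trans_eq (by rw [← e]; ring)
  refine (pow_le_pow_iff_left₀ (mul_nonneg (ht_nonneg _ _) hX) (by positivity) two_ne_zero).1
    (h5.trans ?_)
  have h6 : (2 * Real.exp 1) ^ n ≤ (3 ^ 2 : ℝ) ^ n :=
    pow_le_pow_left₀ (by positivity) (by linarith [Real.exp_one_lt_d9]) n
  have e2 : (√(n : ℝ) ^ (n - dm U)) ^ 2 = (n : ℝ) ^ (n - dm U) := by
    rw [← pow_mul, mul_comm, pow_mul, Real.sq_sqrt (Nat.cast_nonneg n)]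
  rw [mul_pow (_ ^ n), e2]
  refine mul_le_mul_of_nonneg_right ((mul_le_mul_of_nonneg_left h6 (by positivity)).trans_eq ?_)
    (by positivity)
  rw [← pow_mul ((3 : ℝ) * 2 ^ k), mul_pow 3, mul_comm n 2, pow_mul 3, mul_comm]

end Vale.Agent.P160F
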