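import Vale.Agent.P160F.TProb
import Vale.Agent.P160F.Wit
import Vale.Agent.P160F.Cont
import Vale.Agent.P160F.Fam
import Vale.Agent.P160F.PB

/-! P160F, part MT. Rich matrices are rare. -/

open Finset Matrix Module Filter Topology

noncomputable section

namespace Vale.Agent.P160F

open Vale.Agent.P160

theorem MT_dim {ε C : ℝ} {k n r : ℕ} (hk : 1 ≤ k) (hC0 : 0 ≤ C) (hC : C ≤ 2 ^ (k * (ε / 2)))
    (h : ((2 : ℝ) ^ (ε * n)) ^ k ≤ C ^ n * 2 ^ (k * r)) : ε / 2 * n ≤ r := by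
  have h1 := h.trans (mul_le_mul_of_nonneg_right (pow_le_pow_left₀ hC0 hC n) (by positivity))
  rw [← Real.rpow_natCast, ← Real.rpow_natCast, ← Real.rpow_natCast, ← Real.rpow_mul zero_le_two,
    ← Real.rpow_mul zero_le_two, ← Real.rpow_add two_pos,
    Real.rpow_le_rpow_left_iff one_lt_two] at h1
  push_cast at h1
  have hk' : (1 : ℝ) ≤ k := by exact_mod_cast hk
  by_contra h2
  rw [not_le] at h2
  nlinarith [mul_lt_mul_of_pos_left h2 (one_pos.trans_le hk')]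

theorem MT_low {c K x : ℝ} (hK : 0 ≤ K) {n a r f ρ : ℕ} (hn : 1 ≤ n) (hf : f ≤ r + ρ)
    (hρ : (ρ : ℝ) ≤ c / (4 * (a + 1)) * n) (h1 : 3 * K < (n : ℝ) ^ (c / 4))
    (h : x * (n : ℝ) ^ (c * n) ≤ (3 * K) ^ n * √n ^ (n - r)) :
    x * ((n : ℝ) ^ a) ^ (n - r) < ((n : ℝ) ^ a * √n) ^ (n - f) / (n : ℝ) ^ (c / 2 * n) := by
  have hn1 : (1 : ℝ) ≤ n := by exact_mod_cast hn
  have hn0 : (0 : ℝ) < n := one_pos.trans_le hn1
  have hq : 1 ≤ (n : ℝ) ^ a * √n :=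
    one_le_mul_of_one_le_of_one_le (one_le_pow₀ hn1) (Real.one_le_sqrt.2 hn1)
  have h2 : (3 * K) ^ n < (n : ℝ) ^ (c / 4 * n) := by
    rw [Real.rpow_mul hn0.le, Real.rpow_natCast]
    exact pow_lt_pow_left₀ h1 (by positivity) (by omega)
  have h3 : ((n : ℝ) ^ a * √n) ^ ρ ≤ (n : ℝ) ^ (c / 4 * n) := by
    have h4 : (n : ℝ) ^ a * √n ≤ (n : ℝ) ^ (a + 1) := by
      rw [pow_succ]
      refine mul_le_mul_of_nonneg_left ?_ (by positivity)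
      rw [Real.sqrt_le_left hn0.le]
      nlinarith
    refine (pow_le_pow_left₀ (by positivity) h4 ρ).trans ?_
    rw [← pow_mul, ← Real.rpow_natCast]
    refine Real.rpow_le_rpow_of_exponent_le hn1 ?_
    push_cast
    have h5 := mul_le_mul_of_nonneg_left hρ (show (0 : ℝ) ≤ a + 1 by positivity)
    have e : ((a : ℝ) + 1) * (c / (4 * (a + 1)) * n) = c / 4 * n := by field_simp
    linarith
  have h4 : ((n : ℝ) ^ a * √n) ^ (n - r) ≤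
      ((n : ℝ) ^ a * √n) ^ (n - f) * (n : ℝ) ^ (c / 4 * n) :=
    (pow_le_pow_right₀ hq (by omega : n - r ≤ n - f + ρ)).trans
      ((pow_add _ _ _).trans_le (mul_le_mul_of_nonneg_left h3 (by positivity)))
  have e : (n : ℝ) ^ (c * n) =
      (n : ℝ) ^ (c / 2 * n) * ((n : ℝ) ^ (c / 4 * n) * (n : ℝ) ^ (c / 4 * n)) := by
    rw [← Real.rpow_add hn0, ← Real.rpow_add hn0]
    congr 1; ring
  have hu : 0 < (n : ℝ) ^ (c / 4 * n) := by positivity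
  rw [lt_div_iff₀ (by positivity), ← mul_lt_mul_iff_left₀ (mul_pos hu hu)]
  calc x * ((n : ℝ) ^ a) ^ (n - r) * (n : ℝ) ^ (c / 2 * n) *
        ((n : ℝ) ^ (c / 4 * n) * (n : ℝ) ^ (c / 4 * n))
      = x * (n : ℝ) ^ (c * n) * ((n : ℝ) ^ a) ^ (n - r) := by rw [e]; ring
    _ ≤ (3 * K) ^ n * √n ^ (n - r) * ((n : ℝ) ^ a) ^ (n - r) :=
      mul_le_mul_of_nonneg_right h (by positivity)
    _ = (3 * K) ^ n * ((n : ℝ) ^ a * √n) ^ (n - r) := by rw [mul_pow ((n : ℝ) ^ a)]; ring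
    _ < (n : ℝ) ^ (c / 4 * n) * ((n : ℝ) ^ a * √n) ^ (n - r) :=
      mul_lt_mul_of_pos_right h2 (by positivity)
    _ ≤ (n : ℝ) ^ (c / 4 * n) * (((n : ℝ) ^ a * √n) ^ (n - f) * (n : ℝ) ^ (c / 4 * n)) :=
      mul_le_mul_of_nonneg_left h4 hu.le
    _ = _ := by ring

theorem MT {ε c : ℝ} (hε : 0 < ε) (hc : 0 < c) : ∀ᶠ n : ℕ in atTop,
    pr (fun ω : Sym2 (Fin n) → Bool => Rich (Bm ω) ((n : ℝ) ^ (c * n)) (2 ^ (ε * n))) ≤
      (1 / 4) ^ n := by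
  obtain ⟨C, hC1, hW⟩ := WIT
  have t1 : Tendsto (fun n : ℕ => (n : ℝ)) atTop atTop := tendsto_natCast_atTop_atTop
  obtain ⟨k, hk1, hk⟩ : ∃ k : ℕ, 1 ≤ k ∧ C ≤ 2 ^ (k * (ε / 2)) := by
    have t2 : Tendsto (fun k : ℕ => (2 : ℝ) ^ ((k : ℝ) * (ε / 2))) atTop atTop :=
      (tendsto_rpow_atTop_of_base_gt_one 2 one_lt_two).comp (t1.atTop_mul_const (half_pos hε))
    exact ((eventually_ge_atTop 1).and (t2.eventually_ge_atTop C)).exists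
  have hK2 : (1 : ℝ) < 2 ^ k := one_lt_pow₀ one_lt_two (by omega)
  obtain ⟨a, κ₁, c₃, hκ₁, hc₃, hPB⟩ := PB (half_pos hε) (half_pos hc) hK2.le
  obtain ⟨κ₀, hκ₀, hF⟩ := FAM hK2.le (half_pos hc₃)
  obtain ⟨κ, hκ, hκ0, hκ1, hκ2⟩ : ∃ κ : ℝ, 0 < κ ∧ κ ≤ κ₀ ∧ κ ≤ κ₁ ∧ κ ≤ c / (4 * (a + 1)) :=
    ⟨min κ₀ (min κ₁ (c / (4 * (a + 1)))), by positivity, min_le_left _ _,
      (min_le_right _ _).trans (min_le_left _ _), (min_le_right _ _).trans (min_le_right _ _)⟩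
  obtain ⟨m, hm⟩ := exists_nat_gt (1 / κ)
  have hm0 : 0 < m := by exact_mod_cast (one_div_pos.2 hκ).trans hm
  have hβ : (1 : ℝ) < (2 ^ k) ^ m := one_lt_pow₀ hK2 hm0.ne'
  have t3 : Tendsto (fun n : ℕ => (n : ℝ) ^ (c / 4)) atTop atTop :=
    (tendsto_rpow_atTop (by positivity)).comp t1
  filter_upwards [hPB _ hβ, hF _ hβ, eventually_ge_atTop 1, t3.eventually_gt_atTop (3 * 2 ^ k),
    (t1.const_mul_atTop hc₃).eventually_ge_atTop 4] with n h1 h2 h3 h4 h5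
  have hn0 : (0 : ℝ) ≤ n := Nat.cast_nonneg n
  have hρ : ∀ {x : ℝ}, κ ≤ x → (⌊κ * n⌋₊ : ℝ) ≤ x * n := fun hx =>
    (Nat.floor_le (by positivity)).trans (mul_le_mul_of_nonneg_right hx hn0)
  obtain ⟨𝓕, h𝓕, hmem⟩ := h2 ⌊κ * n⌋₊ (hρ hκ0)
  have hlt : ((2 : ℝ) ^ k) ^ Fintype.card (Fin n) < ((2 ^ k) ^ m) ^ (⌊κ * n⌋₊ + 1) := by
    rw [Fintype.card_fin, ← pow_mul (2 ^ k)]
    refine pow_lt_pow_right₀ hK2 ?_
    have h6 := Nat.lt_floor_add_one (κ * n)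
    rw [div_lt_iff₀ hκ] at hm
    have hm' : (0 : ℝ) < m := by exact_mod_cast hm0
    have h7 : (n : ℝ) < m * (⌊κ * n⌋₊ + 1) := by
      nlinarith [mul_lt_mul_of_pos_left h6 hm', mul_le_mul_of_nonneg_right hm.le hn0]
    exact_mod_cast h7
  refine (pr_mono (q := fun ω => ∃ q ∈ 𝓕, (Cont (2 ^ k) ((2 ^ k) ^ m) ⌊κ * n⌋₊ q.1 q.2.1 q.2.2 ∧
      ε / 2 * n ≤ q.1.card) ∧ Low (Bm ω) q.2.1 q.2.2 ((n : ℝ) ^ a)
        (((n : ℝ) ^ a * √n) ^ (n - q.1.card) / (n : ℝ) ^ (c / 2 * n))) fun ω hω => ?_).trans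
    ((pr_exists_mem_le 𝓕 _ (c := Real.exp (-(c₃ * n ^ 2))) fun q _ => ?_).trans ?_)
  · obtain ⟨W, hD, hZ, hX⟩ := hW n _ _ _ k (Bm_isSymm ω) (abs_Bm_le ω) (by positivity)
      (by positivity) hω
    obtain ⟨F, N₀, N, hC, h0, hN, hl, hu⟩ := CONT hK2.le hβ hlt hD
    have hd := MT_dim hk1 (zero_le_one.trans hC1) hk hZ
    refine ⟨(F, N₀, N), hmem F N₀ N hC, ⟨hC, hd.trans (by exact_mod_cast hl)⟩, hω.1,
      mp (Bm ω) (pp W), Submodule.map_mono h0, fun j => Submodule.map_mono (hN j), ?_⟩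
    have e : dm (mp (Bm ω) (pp W)) = n - dm W := by
      have h6 := dm_pp W
      rw [Fintype.card_fin] at h6
      rw [dm_mp hω.1]
      omega
    rw [e]
    exact MT_low (by positivity) h3 hu (hρ hκ2) h4 hX
  · by_cases hq : Cont (2 ^ k) ((2 ^ k) ^ m) ⌊κ * n⌋₊ q.1 q.2.1 q.2.2 ∧ ε / 2 * n ≤ q.1.card
    · exact (pr_mono fun ω hω => hω.2).trans (h1 _ _ _ _ (hρ hκ1) hq.1 hq.2)
    · rw [pr_of_not fun ω hω => hq hω.1]
      exact (Real.exp_pos _).le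
  · refine (mul_le_mul_of_nonneg_right h𝓕 (Real.exp_pos _).le).trans ?_
    have h6 : Real.exp (-2) ≤ 1 / 4 := by
      rw [Real.exp_neg, ← one_div]
      refine one_div_le_one_div_of_le four_pos ?_
      have h7 := Real.add_one_le_exp 1
      rw [show (2 : ℝ) = 1 + 1 by norm_num, Real.exp_add]
      nlinarith
    refine le_trans ?_ (pow_le_pow_left₀ (Real.exp_pos _).le h6 n)
    rw [← Real.exp_add, ← Real.exp_nat_mul, Real.exp_le_exp]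
    nlinarith [mul_le_mul_of_nonneg_right h5 hn0]

end Vale.Agent.P160F
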