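import Vale.Agent.P160F.PBDefs

/-! P160F, part PB1. One step of the potential.
`yp_spec`: `exists_min inj_one`. `pot_good`: write `P = yp t Y`, for `V ≥ ad Y c` use `ht_submod inj_one V P`, `dm_sup_inf`,
`hΦ (V ⊓ P)`; with `k = dm (V ⊔ P) - dm P = dm V - dm (V ⊓ P) ≥ 1` (as `c ∈ V`, `c ∉ P`, `dm_ad`): if `k = 1` then
`V ⊔ P = ad P c` (`Submodule.eq_of_le_of_finrank_eq`), else `hs P ≤ t ^ k * hs (V ⊔ P)` (`yp_up`) and
`(t ^ 3) ^ k / t ^ k = t ^ (2 k) ≥ t ^ 4 ≥ θ t ^ 3`. `pot_drop`: apply `h` to `V ⊔ co {v}`; `hs (V ⊔ co {v}) ≤ hs V` by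
`ht_submod`, `hs_co`, `one_le_ht`. -/

open Finset Matrix Module Filter Topology

noncomputable section

namespace Vale.Agent.P160F

open Vale.Agent.P160

variable {ι : Type} [Fintype ι] [DecidableEq ι]


theorem yp_spec {t : ℝ} (ht0 : 0 < t) (Y : QS ι) :
    Y ≤ yp t Y ∧ ∀ V, Y ≤ V → hs (yp t Y) * t ^ dm (yp t Y) ≤ hs V * t ^ dm V := by
  have h := exists_min (inj_one (ι := ι)) (fun U => Y ≤ U) ⟨Y, le_rfl⟩ ht0
  unfold yp
  rw [dif_pos h]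
  exact h.choose_spec

theorem yp_up {t : ℝ} (ht0 : 0 < t) (Y : QS ι) : Up (1 : Matrix ι ι ℤ) t (yp t Y) ⊤ := by
  intro U hU _
  have h := (yp_spec ht0 Y).2 U ((yp_spec ht0 Y).1.trans hU)
  obtain ⟨k, hk⟩ := Nat.exists_eq_add_of_le (dm_mono hU)
  rw [hk, Nat.add_sub_cancel_left]
  rw [hk, pow_add] at h
  refine le_of_mul_le_mul_right (h.trans (le_of_eq ?_)) (pow_pos ht0 (dm (yp t Y)))
  ring

theorem yp_dim {t : ℝ} (ht0 : 0 < t) (Y : QS ι) : t ^ (dm (yp t Y) - dm Y) ≤ hs Y := by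
  have h := (yp_spec ht0 Y).2 Y le_rfl
  obtain ⟨k, hk⟩ := Nat.exists_eq_add_of_le (dm_mono (yp_spec ht0 Y).1)
  rw [hk, Nat.add_sub_cancel_left]
  rw [hk, pow_add] at h
  have h1 : 1 ≤ hs (yp t Y) := one_le_ht inj_one _
  have h2 : 0 < t ^ dm Y := pow_pos ht0 _
  have h3 : 0 < t ^ k := pow_pos ht0 _
  refine le_of_mul_le_mul_right (le_trans ?_ h) h2
  nlinarith [mul_pos h2 h3]

omit [Fintype ι] [DecidableEq ι] in
theorem PB1_ad {P : QS ι} {c c' : ι → ℤ} (h : c - c' ∈ lat P) : ad P c ≤ ad P c' := by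
  refine ad_le (le_ad _ _) ?_
  have := (lat (ad P c')).add_mem (lat_mono (le_ad P c') h) (self_mem_ad P c')
  rwa [sub_add_cancel] at this

theorem BadY_congr {t θ : ℝ} (ht0 : 0 < t) {d : ℕ} {Y : QS ι} {c c' : ι → ℤ} (h : c - c' ∈ lat Y) :
    BadY t θ d Y c ↔ BadY t θ d Y c' := by
  have h1 : c - c' ∈ lat (yp t Y) := lat_mono (yp_spec ht0 Y).1 h
  have h2 : c' - c ∈ lat (yp t Y) := by
    have := (lat (yp t Y)).neg_mem h1
    rwa [neg_sub] at this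
  have h3 : ad (yp t Y) c = ad (yp t Y) c' := le_antisymm (PB1_ad h1) (PB1_ad h2)
  have h4 : c ∈ lat (yp t Y) ↔ c' ∈ lat (yp t Y) := by
    constructor
    · intro hc
      have := (lat (yp t Y)).add_mem h2 hc
      rwa [sub_add_cancel] at this
    · intro hc
      have := (lat (yp t Y)).add_mem h1 hc
      rwa [sub_add_cancel] at this
  unfold BadY
  rw [h3, h4]

theorem pot_good {t θ Φ : ℝ} (ht1 : 1 ≤ t) (hθ0 : 0 < θ) (hθ : θ ≤ t) {Y : QS ι} {c : ι → ℤ}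
    (hΦ : ∀ V, Y ≤ V → Φ ≤ hs V * (t ^ 3) ^ dm V) (hc : c ∉ lat (yp t Y))
    (hg : θ * hs (yp t Y) ≤ hs (ad (yp t Y) c)) (V : QS ι) (hV : ad Y c ≤ V) :
    Φ * θ * t ^ 3 ≤ hs V * (t ^ 3) ^ dm V := by
  have ht0 : 0 < t := by linarith
  have hup := yp_up ht0 Y
  have hYP := (yp_spec ht0 Y).1
  generalize yp t Y = P at hc hg hup hYP
  have hcV : c ∈ lat V := lat_mono hV (self_mem_ad Y c)
  have had : ad P c ≤ V ⊔ P := ad_le le_sup_right (lat_mono le_sup_left hcV)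
  have hd1 : dm P + 1 ≤ dm (V ⊔ P) := dm_ad hc ▸ dm_mono had
  obtain ⟨j, hj⟩ := Nat.exists_eq_add_of_le hd1
  have hsi := dm_sup_inf V P
  have hdV : dm V = dm (V ⊓ P) + (j + 1) := by omega
  have hsub := ht_submod (inj_one (ι := ι)) V P
  have hΦ' := hΦ (V ⊓ P) (le_inf ((le_ad Y c).trans hV) hYP)
  have hP : 0 < hs P := ht_pos inj_one _
  have hS : 0 < hs (V ⊔ P) := ht_pos inj_one _
  have hI : 0 < hs (V ⊓ P) := ht_pos inj_one _
  have ht3 : 0 < t ^ 3 := pow_pos ht0 3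
  have key : θ * t ^ 3 * hs P ≤ (t ^ 3) ^ (j + 1) * hs (V ⊔ P) := by
    rcases Nat.eq_zero_or_pos j with rfl | hj0
    · have he : ad P c = V ⊔ P := eq_of_dm had (by rw [dm_ad hc]; omega)
      rw [he] at hg
      rw [zero_add, pow_one]
      nlinarith
    · have h1 := hup (V ⊔ P) le_sup_right le_top
      rw [show dm (V ⊔ P) - dm P = j + 1 by omega] at h1
      have h2 : θ * t ^ 3 * t ^ (j + 1) ≤ (t ^ 3) ^ (j + 1) := by
        calc θ * t ^ 3 * t ^ (j + 1) ≤ t * t ^ 3 * t ^ (j + 1) := by gcongr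
          _ = t ^ (j + 5) := by ring
          _ ≤ t ^ (3 * (j + 1)) := pow_le_pow_right₀ ht1 (by omega)
          _ = (t ^ 3) ^ (j + 1) := pow_mul _ _ _
      calc θ * t ^ 3 * hs P ≤ θ * t ^ 3 * (t ^ (j + 1) * hs (V ⊔ P)) := by gcongr
        _ = θ * t ^ 3 * t ^ (j + 1) * hs (V ⊔ P) := by ring
        _ ≤ _ := by gcongr
  refine le_of_mul_le_mul_right ?_ hP
  calc Φ * θ * t ^ 3 * hs P = Φ * (θ * t ^ 3 * hs P) := by ring
    _ ≤ hs (V ⊓ P) * (t ^ 3) ^ dm (V ⊓ P) * (θ * t ^ 3 * hs P) := by gcongr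
    _ ≤ hs (V ⊓ P) * (t ^ 3) ^ dm (V ⊓ P) * ((t ^ 3) ^ (j + 1) * hs (V ⊔ P)) := by gcongr
    _ = hs (V ⊔ P) * hs (V ⊓ P) * (t ^ 3) ^ dm V := by rw [hdV, pow_add (t ^ 3) _ (j + 1)]; ring
    _ ≤ hs V * hs P * (t ^ 3) ^ dm V := by gcongr
    _ = _ := by ring

theorem pot_drop {A Ψ : ℝ} (hA : 1 ≤ A) {Y : QS ι} {v : ι}
    (h : ∀ V, Y ⊔ co {v} ≤ V → Ψ ≤ hs V * A ^ dm V) (V : QS ι) (hV : Y ≤ V) :
    Ψ ≤ A * (hs V * A ^ dm V) := by
  have h1 := h (V ⊔ co {v}) (sup_le_sup_right hV _)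
  have h2 := ht_submod (inj_one (ι := ι)) V (co {v})
  have h3 : hs (co ({v} : Finset ι)) = 1 := hs_co _
  have h4 : 1 ≤ hs (V ⊓ co {v}) := one_le_ht inj_one _
  have h5 : 0 < hs (V ⊔ co {v}) := ht_pos inj_one _
  have h6 : hs (V ⊔ co {v}) ≤ hs V := by
    change hs _ * hs _ ≤ hs _ * hs _ at h2
    rw [h3] at h2
    nlinarith
  have h7 : dm (V ⊔ co {v}) ≤ dm V + 1 := by
    have := dm_sup_inf V (co {v})
    rw [dm_co, Finset.card_singleton] at this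
    omega
  calc Ψ ≤ hs (V ⊔ co {v}) * A ^ dm (V ⊔ co {v}) := h1
    _ ≤ hs V * A ^ (dm V + 1) :=
      mul_le_mul h6 (pow_le_pow_right₀ hA h7) (by positivity) (ht_nonneg _ _)
    _ = _ := by ring

end Vale.Agent.P160F
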