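import Vale.Agent.P160F.PBDefs

/-! P160F, part PB3. The exposed subspaces: sizes.
`‖B x‖ ≤ n ‖x‖` for real `x` (Cauchy-Schwarz in each row). `d1_mulVec`: `B` maps `rs 1 N₀` into `rs 1 Y` (span induction),
`Metric.infDist_le_dist_of_mem`, `Metric.infDist` approximated or attained by the orthogonal projection.
`Yst_hs`: `hs (X ⊔ co _) ≤ hs X` (`ht_submod`, `hs_co`, `one_le_ht`); `hs (mp B X) ≤ ht B X` (`ht_mp_rel` with `⊥`,
`Matrix.one_mul`) `≤ n ^ dm X * hs X` (`ht_cmp` with `⊥`); `hs (N₀ ⊔ s.sup N) ≤ hs N₀ * (2 β) ^ s.card` by induction on `s`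
(`ht_ad_le`, `ds_anti`, `Cont.d1_le`; nothing changes if the new vector is already in the subspace). -/

open Finset Matrix Module Filter Topology

noncomputable section

namespace Vale.Agent.P160F

open Vale.Agent.P160

variable {n : ℕ} {K β : ℝ} {ρ : ℕ} {F : Finset (Fin n)} {N₀ : QS (Fin n)} {N : Fin n → QS (Fin n)}


theorem PB3_norm {B : Matrix (Fin n) (Fin n) ℤ} (h1 : ∀ i j, |B i j| ≤ 1) (x : Fin n → ℝ) :
    ‖(WithLp.toLp 2 (B.map (Int.cast : ℤ → ℝ) *ᵥ x) : EuclideanSpace ℝ (Fin n))‖ ≤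
      n * ‖(WithLp.toLp 2 x : EuclideanSpace ℝ (Fin n))‖ := by
  refine abs_le_of_sq_le_sq' ?_ (by positivity) |>.2
  rw [mul_pow, EuclideanSpace.real_norm_sq_eq, EuclideanSpace.real_norm_sq_eq]
  have k : ∀ i, (B.map (Int.cast : ℤ → ℝ) *ᵥ x) i ^ 2 ≤ n * ∑ j, x j ^ 2 := fun i => by
    have a1 : (B.map (Int.cast : ℤ → ℝ) *ᵥ x) i = ∑ j, (B i j : ℝ) * x j := rfl
    rw [a1]
    refine (Finset.sum_mul_sq_le_sq_mul_sq _ _ _).trans
      (mul_le_mul_of_nonneg_right ?_ (Finset.sum_nonneg fun j _ => sq_nonneg _))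
    have a2 : ∀ j, (B i j : ℝ) ^ 2 ≤ 1 := fun j => by
      have a3 : |(B i j : ℝ)| ≤ 1 := by exact_mod_cast h1 i j
      exact (sq_le_one_iff_abs_le_one _).2 a3
    exact (Finset.sum_le_sum fun j _ => a2 j).trans (by simp)
  refine (Finset.sum_le_sum fun i _ => k i).trans (le_of_eq ?_)
  simp only [Finset.sum_const, Finset.card_univ, Fintype.card_fin, nsmul_eq_mul]
  ring

theorem PB3_one (x : Fin n → ℝ) :
    (1 : Matrix (Fin n) (Fin n) ℤ).map (Int.cast : ℤ → ℝ) *ᵥ x = x := by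
  rw [Matrix.map_one _ Int.cast_zero Int.cast_one, Matrix.one_mulVec]

theorem d1_mulVec {B : Matrix (Fin n) (Fin n) ℤ} (h1 : ∀ i j, |B i j| ≤ 1) {Y : QS (Fin n)}
    (h : mp B N₀ ≤ Y) (r : Fin n → ℤ) : d1 Y (B *ᵥ r) ≤ n * d1 N₀ r := by
  refine (ds_anti 1 h _).trans ?_
  rw [← ds_mul, Matrix.one_mul]
  obtain ⟨w, a1, -, a2⟩ := exists_perp (1 : Matrix (Fin n) (Fin n) ℤ) N₀ r
  refine (ds_le_of_mem B N₀ r ((mem_rs_iff B N₀ _).2 ⟨_, a1, rfl⟩)).trans ?_
  have a3 : ev B r - WithLp.toLp 2 (B.map (Int.cast : ℤ → ℝ) *ᵥ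
      WithLp.ofLp (ev (1 : Matrix (Fin n) (Fin n) ℤ) r - w)) =
      WithLp.toLp 2 (B.map (Int.cast : ℤ → ℝ) *ᵥ WithLp.ofLp w) := by
    rw [ev_eq, ev_eq, PB3_one, WithLp.ofLp_sub, WithLp.ofLp_toLp, Matrix.mulVec_sub,
      WithLp.toLp_sub, sub_sub_cancel]
  rw [a3, d1, a2]
  exact PB3_norm h1 _

theorem d1_rel_le {g : ℤ} {l : Fin n → ℤ} (hg1 : 1 ≤ g) (hg : (g : ℝ) ≤ β) (hl : d1 N₀ l ≤ β)
    (j : Fin n) : d1 N₀ (g • Pi.single j 1 + l) ≤ 2 * β := by
  refine (ds_add_le _ _ _ _).trans ?_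
  rw [ds_smul]
  have a1 : ds (1 : Matrix (Fin n) (Fin n) ℤ) N₀ (Pi.single j 1) ≤ 1 := by
    refine (ds_le_norm _ _ _).trans (le_of_eq ?_)
    have a2 : ev (1 : Matrix (Fin n) (Fin n) ℤ) (Pi.single j 1) = EuclideanSpace.single j (1 : ℝ) := by
      rw [ev, Matrix.one_mulVec]
      ext i
      by_cases h : i = j
      · subst h
        simp [zr]
      · simp [zr, h]
    rw [a2]
    simp
  have a3 : (1 : ℝ) ≤ g := by exact_mod_cast hg1
  rw [abs_of_nonneg (by linarith)]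
  have a4 := mul_le_of_le_one_right (show (0 : ℝ) ≤ g by linarith) a1
  have a5 : ds (1 : Matrix (Fin n) (Fin n) ℤ) N₀ l ≤ β := hl
  linarith

theorem Yst_hs (hβ : 1 ≤ β) (hC : Cont K β ρ F N₀ N) {B : Matrix (Fin n) (Fin n) ℤ}
    (h1 : ∀ i j, |B i j| ≤ 1) (hD : B.det ≠ 0) (τ : ℕ) :
    hs (Yst B F N₀ N τ) ≤ (n * K * (2 * β)) ^ n := by
  rcases Nat.eq_zero_or_pos n with rfl | hn
  · rw [Submodule.eq_bot_of_subsingleton (p := Yst B F N₀ N τ), hs, ht_bot, pow_zero]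
  have hn' : (1 : ℝ) ≤ n := by exact_mod_cast hn
  have k1 : ∀ s : Finset (Fin n), (∀ i ∈ s, i ∉ F) →
      hs (N₀ ⊔ s.sup N) ≤ hs N₀ * (2 * β) ^ s.card := by
    intro s
    induction s using Finset.induction_on with
    | empty => simp
    | insert j s hj ih =>
      intro hs'
      have a1 := ih fun i hi => hs' i (Finset.mem_insert_of_mem hi)
      obtain ⟨g, l, b1, b2, -, b3, b4⟩ := hC.out j (hs' j (Finset.mem_insert_self _ _))
      have a2 := d1_rel_le b1 b2 b3 j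
      generalize g • Pi.single j 1 + l = z at b4 a2
      have a3 : N₀ ⊔ (insert j s).sup N = ad (N₀ ⊔ s.sup N) z := by
        rw [Finset.sup_insert, b4, ad, ad, ← sup_assoc, ← sup_assoc, sup_idem, sup_right_comm]
      have a4 : hs (ad (N₀ ⊔ s.sup N) z) ≤ hs (N₀ ⊔ s.sup N) * (2 * β) := by
        by_cases hz : z ∈ lat (N₀ ⊔ s.sup N)
        · rw [le_antisymm (ad_le le_rfl hz) (le_ad _ _)]
          exact le_mul_of_one_le_right (ht_nonneg _ _) (by linarith)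
        · exact (ht_ad_le inj_one hz).trans (mul_le_mul_of_nonneg_left
            ((ds_anti _ le_sup_left z).trans a2) (ht_nonneg _ _))
      rw [a3, Finset.card_insert_of_notMem hj, pow_succ, ← mul_assoc]
      exact a4.trans (mul_le_mul_of_nonneg_right a1 (by linarith))
  unfold Yst
  have k2 := k1 (univ.filter fun i : Fin n => i ∉ F ∧ (i : ℕ) < τ) fun i hi =>
    (Finset.mem_filter.1 hi).2.1
  have k3 : (2 * β) ^ (univ.filter fun i : Fin n => i ∉ F ∧ (i : ℕ) < τ).card ≤ (2 * β) ^ n :=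
    pow_le_pow_right₀ (by linarith) ((Finset.card_le_univ _).trans (by simp))
  have k4 : hs N₀ ≤ K ^ n := by simpa using hC.hgt
  have k0 : 0 ≤ hs N₀ := ht_nonneg _ _
  have k5 := k2.trans (mul_le_mul k4 k3 (by positivity) (k0.trans k4))
  generalize N₀ ⊔ (univ.filter fun i : Fin n => i ∉ F ∧ (i : ℕ) < τ).sup N = X at k5 ⊢
  generalize (univ.filter fun i : Fin n => i ∉ F ∧ τ ≤ (i : ℕ)) = T
  have k6 : hs (mp B X ⊔ co T) ≤ hs (mp B X) := by
    have a1 := ht_submod (inj_one (ι := Fin n)) (mp B X) (co T)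
    have a2 : ht (1 : Matrix (Fin n) (Fin n) ℤ) (co T) = 1 := hs_co T
    rw [a2, mul_one] at a1
    exact (le_mul_of_one_le_right (ht_nonneg _ _) (one_le_ht inj_one _)).trans a1
  have k7 : hs (mp B X) ≤ ht B X := by
    have a1 := ht_mp_rel (inj_one (ι := Fin n)) hD (X := ⊥) (U := X) bot_le
    have a2 : mp B (⊥ : QS (Fin n)) = ⊥ := Submodule.map_bot _
    rwa [a2, ht_bot, ht_bot, mul_one, mul_one, Matrix.one_mul] at a1
  have k8 : ht B X ≤ (n : ℝ) ^ n * hs X := by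
    have a0 : Inj B := by simpa using inj_mul (inj_one (ι := Fin n)) hD
    have a1 := ht_cmp (inj_one (ι := Fin n)) a0 (a := 1) (c := n) one_pos (by linarith)
      (fun x => by rw [one_mul, PB3_one]; exact PB3_norm h1 x) (X := ⊥) (U := X) bot_le
    rw [ht_bot, ht_bot, mul_one, mul_one, one_pow, one_mul] at a1
    refine a1.trans (mul_le_mul_of_nonneg_right (pow_le_pow_right₀ hn' ?_) (ht_nonneg _ _))
    refine (Nat.sub_le _ _).trans ((Submodule.finrank_le _).trans ?_)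
    simp
  rw [mul_assoc, mul_pow, mul_pow]
  exact ((k6.trans k7).trans k8).trans (mul_le_mul_of_nonneg_left k5 (by positivity))

end Vale.Agent.P160F
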