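import Vale.Agent.P160F.H
import Vale.Agent.P160F.Exp

/-! P160F, part PBDefs. Definitions for the height potential. -/

open Finset Matrix Module Filter Topology

noncomputable section

namespace Vale.Agent.P160F

open Vale.Agent.P160

variable {ι : Type} [Fintype ι] [DecidableEq ι]


open Classical in
/-- A minimiser of `hs U * t ^ dm U` above `Y`. -/
def yp (t : ℝ) (Y : QS ι) : QS ι :=
  if h : ∃ U, Y ≤ U ∧ ∀ V, Y ≤ V → hs U * t ^ dm U ≤ hs V * t ^ dm V then h.choose else Y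

/-- The bad event of one step. -/
def BadY (t θ : ℝ) (d : ℕ) (Y : QS ι) (c : ι → ℤ) : Prop :=
  dm (yp t Y) + d ≤ Fintype.card ι ∧
    (c ∈ lat (yp t Y) ∨ hs (ad (yp t Y) c) < θ * hs (yp t Y))

/-- The subspace known after the vertices below `τ` are exposed. -/
def Yst {n : ℕ} (B : Matrix (Fin n) (Fin n) ℤ) (F : Finset (Fin n)) (N₀ : QS (Fin n))
    (N : Fin n → QS (Fin n)) (τ : ℕ) : QS (Fin n) :=
  mp B (N₀ ⊔ (univ.filter fun i : Fin n => i ∉ F ∧ (i : ℕ) < τ).sup N) ⊔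
    co (univ.filter fun i : Fin n => i ∉ F ∧ τ ≤ (i : ℕ))

end Vale.Agent.P160F
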