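import Vale.Agent.P160F.RMDefs

/-!
Ranks.
* `Cl.norm_ge`: the one-element family `fun _ : Unit => u`.
* `rk_proj`: `span (img Q N) = (span N).map Q`, rank-nullity for `Q` restricted to `span N`
  (kernel `W`).
-/

open MeasureTheory

namespace Vale.Agent.P160F.RM

variable {m m' : ℕ}

theorem Cl.norm_ge {N : Submodule ℤ (E m)} (hN : Cl N) {u : E m} (hu : u ∈ N) (h0 : u ≠ 0) :
    1 ≤ ‖u‖ ^ 2 := by
  have h := hN Unit (fun _ => u) (fun _ => hu) (linearIndependent_unique_iff.2 h0)
  rwa [Matrix.det_unique, Matrix.gram_apply, real_inner_self_eq_norm_sq] at h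

theorem span_img (T : E m →L[ℝ] E m') (N : Submodule ℤ (E m)) :
    Submodule.span ℝ (img T N : Set (E m')) =
      (Submodule.span ℝ (N : Set (E m))).map (T : E m →ₗ[ℝ] E m') := by
  rw [Submodule.map_span]
  rfl

theorem rk_img_le (T : E m →L[ℝ] E m') (N : Submodule ℤ (E m)) : rk (img T N) ≤ rk N := by
  rw [rk, span_img]
  exact Submodule.finrank_map_le _ _

theorem rk_proj (W : Submodule ℝ (E m)) (N : Submodule ℤ (E m))
    (hW : W ≤ Submodule.span ℝ (N : Set (E m))) :
    rk (img Wᗮ.starProjection N) + Module.finrank ℝ W = rk N := by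
  have h := LinearMap.finrank_range_add_finrank_ker
    ((Wᗮ.starProjection : E m →ₗ[ℝ] E m).domRestrict (Submodule.span ℝ (N : Set (E m))))
  rw [LinearMap.range_domRestrict, LinearMap.ker_domRestrict, Submodule.ker_starProjection,
    Submodule.orthogonal_orthogonal, (Submodule.comapSubtypeEquivOfLe hW).finrank_eq] at h
  rw [rk, span_img, h, rk]

theorem rk_sec (W : Submodule ℝ (E m)) (N : Submodule ℤ (E m)) :
    rk (N ⊓ W.restrictScalars ℤ) ≤ Module.finrank ℝ W :=
  Submodule.finrank_mono (Submodule.span_le.2 fun _ hx => hx.2)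

end Vale.Agent.P160F.RM
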