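import Vale.Agent.P160F.RMPush
import Vale.Agent.P160F.RMRank

/-!
* `exists_basis`: `Cl.norm_ge` makes `N` discrete, `rk N = k` gives `span N = ⊤`, so
  `IsZLattice ℝ N`; `(Module.Free.chooseBasis ℤ N).ofZLatticeBasis ℝ N` reindexed by `Fin k`
  (`Module.Basis.ofZLatticeBasis_span`); `b'` is the dual basis for the inner product
  (`LinearMap.BilinForm.dualBasis`, or invert the Gram matrix).
* `transfer`: `J : E (rk N) →ₗᵢ E m` with range `span N` (`stdOrthonormalBasis`), `N₀ = pre J N`,
  `Cost.push J 1`: for `u ∈ N`, `u = J x` and `J† (J x) = x`.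
-/

open MeasureTheory

namespace Vale.Agent.P160F.RM

theorem exists_basis {k : ℕ} {N : Submodule ℤ (E k)} (hN : Cl N) (hr : rk N = k) :
    ∃ b b' : Module.Basis (Fin k) ℝ (E k), N = lat b ∧ Dual b b' := by
  have hd : DiscreteTopology N := by
    refine discreteTopology_iff_isOpen_singleton_zero.mpr ⟨Metric.ball 0 1, Metric.isOpen_ball, ?_⟩
    ext x
    rw [Set.mem_preimage, mem_ball_zero_iff, Set.mem_singleton_iff]
    refine ⟨fun h => Subtype.ext (not_not.1 fun h0 => ?_), fun h => by simp [h]⟩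
    have h1 := hN.norm_ge x.2 h0
    nlinarith [norm_nonneg (x : E k)]
  have hz : IsZLattice ℝ N :=
    ⟨Submodule.eq_top_of_finrank_eq (hr.trans finrank_euclideanSpace_fin.symm)⟩
  have := ZLattice.module_finite ℝ N
  have := ZLattice.module_free ℝ N
  have hB : LinearMap.BilinForm.Nondegenerate (innerₗ (E k)) :=
    ⟨fun x hx => inner_self_eq_zero.1 (hx x), fun x hx => inner_self_eq_zero.1 (hx x)⟩
  let b := (Module.finBasisOfFinrankEq ℤ N
    ((ZLattice.rank ℝ N).trans finrank_euclideanSpace_fin)).ofZLatticeBasis ℝ N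
  refine ⟨b, LinearMap.BilinForm.dualBasis _ hB b,
    (Module.Basis.ofZLatticeBasis_span ℝ N _).symm, fun i j => ?_⟩
  rw [real_inner_comm]
  exact LinearMap.BilinForm.apply_dualBasis_left hB b j i

theorem transfer {m : ℕ} {N : Submodule ℤ (E m)} (hN : Cl N) :
    ∃ N₀ : Submodule ℤ (E (rk N)), Cl N₀ ∧ rk N₀ = rk N ∧ ∀ c, Cost N₀ idL c → Cost N idL c := by
  let e := (stdOrthonormalBasis ℝ (Submodule.span ℝ (N : Set (E m)))).repr
  let J : E (rk N) →ₗᵢ[ℝ] E m :=
    (Submodule.span ℝ (N : Set (E m))).subtypeₗᵢ.comp e.symm.toLinearIsometry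
  have hs : ∀ u ∈ Submodule.span ℝ (N : Set (E m)), ∃ x, J x = u := fun u hu =>
    ⟨e ⟨u, hu⟩, congrArg Subtype.val (e.symm_apply_apply ⟨u, hu⟩)⟩
  have hker : LinearMap.ker J.toLinearMap = ⊥ := LinearMap.ker_eq_bot.2 J.injective
  refine ⟨pre J.toContinuousLinearMap N, fun ι _ _ v hv hi => ?_, ?_, fun c hc => ?_⟩
  · have h1 := hN ι (fun i => J (v i)) (fun i => mem_pre.1 (hv i)) (hi.map' J.toLinearMap hker)
    have h2 : Matrix.gram ℝ (fun i => J (v i)) = Matrix.gram ℝ v := by
      ext i j
      exact J.inner_map_map _ _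
    rwa [h2] at h1
  · have h1 : img J.toContinuousLinearMap (pre J.toContinuousLinearMap N) = N := by
      ext u
      rw [mem_img]
      constructor
      · rintro ⟨x, hx, rfl⟩
        exact mem_pre.1 hx
      · intro hu
        obtain ⟨x, rfl⟩ := hs u (Submodule.subset_span hu)
        exact ⟨x, mem_pre.2 hu, rfl⟩
    refine le_antisymm ((Submodule.finrank_le _).trans finrank_euclideanSpace_fin.le) ?_
    have h2 := rk_img_le J.toContinuousLinearMap (pre J.toContinuousLinearMap N)
    rwa [h1] at h2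
  · have h1 := hc.mono (T' := idL.comp J.toContinuousLinearMap) zero_le_one fun y => by
      rw [one_mul]
      exact le_of_eq (congrArg (· ^ 2) (J.norm_map y))
    rw [one_mul] at h1
    refine h1.push _ _ fun u hu h0 => ?_
    obtain ⟨x, rfl⟩ := hs u (Submodule.subset_span hu)
    have h2 : ContinuousLinearMap.adjoint J.toContinuousLinearMap (J x) = x :=
      ext_inner_right ℝ fun y => by
        rw [ContinuousLinearMap.adjoint_inner_left]
        exact J.inner_map_map _ _
    rw [h2]
    exact ⟨mem_pre.2 hu, fun h => h0 (by rw [h, map_zero])⟩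

end Vale.Agent.P160F.RM
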