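import Mathlib

/-!
Reverse Minkowski lemma (note 1109), definitions.
`N` is a lattice in Euclidean space all of whose sublattices have covolume at least one (`Cl N`).
A probability measure kills `N` if its characteristic function vanishes on `2 π (N \ 0)`
(it is uniform modulo the dual lattice). `Cost N T c`: some killing measure has `∫ ‖T y‖² ≤ c`.
-/

open MeasureTheory

namespace Vale.Agent.P160F.RM

abbrev E (m : ℕ) : Type := EuclideanSpace ℝ (Fin m)

/-- the identity map -/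
abbrev idL {m : ℕ} : E m →L[ℝ] E m := 1

def Kill {m : ℕ} (ν : Measure (E m)) (N : Submodule ℤ (E m)) : Prop :=
  ∀ u ∈ N, u ≠ 0 → charFun ν ((2 * Real.pi) • u) = 0

def Cost {m m' : ℕ} (N : Submodule ℤ (E m)) (T : E m →L[ℝ] E m') (c : ℝ) : Prop :=
  ∃ ν : Measure (E m), IsProbabilityMeasure ν ∧ Kill ν N ∧ Integrable (fun y => ‖y‖ ^ 2) ν ∧
    ∫ y, ‖T y‖ ^ 2 ∂ν ≤ c

/-- every independent family in `N` has Gram determinant at least one -/
def Cl {m : ℕ} (N : Submodule ℤ (E m)) : Prop :=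
  ∀ (ι : Type) [Fintype ι] [DecidableEq ι] (v : ι → E m), (∀ i, v i ∈ N) →
    LinearIndependent ℝ v → 1 ≤ (Matrix.gram ℝ v).det

noncomputable def rk {m : ℕ} (N : Submodule ℤ (E m)) : ℕ :=
  Module.finrank ℝ (Submodule.span ℝ (N : Set (E m)))

noncomputable def F {m m' : ℕ} (N : Submodule ℤ (E m)) (T : E m →L[ℝ] E m') : ℝ :=
  sInf {c | Cost N T c}

/-- image of `N` under a real linear map -/
def img {m m' : ℕ} (T : E m →L[ℝ] E m') (N : Submodule ℤ (E m)) : Submodule ℤ (E m') :=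
  N.map ((T : E m →ₗ[ℝ] E m').restrictScalars ℤ)

/-- preimage of `N` under a real linear map -/
def pre {m m' : ℕ} (T : E m →L[ℝ] E m') (N : Submodule ℤ (E m')) : Submodule ℤ (E m) :=
  N.comap ((T : E m →ₗ[ℝ] E m').restrictScalars ℤ)

theorem mem_img {m m' : ℕ} {T : E m →L[ℝ] E m'} {N : Submodule ℤ (E m)} {y : E m'} :
    y ∈ img T N ↔ ∃ x ∈ N, T x = y := by
  simp [img]

theorem mem_pre {m m' : ℕ} {T : E m →L[ℝ] E m'} {N : Submodule ℤ (E m')} {x : E m} :
    x ∈ pre T N ↔ T x ∈ N := by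
  simp [pre]

/-- the lattice spanned by a basis -/
abbrev lat {k : ℕ} (b : Module.Basis (Fin k) ℝ (E k)) : Submodule ℤ (E k) :=
  Submodule.span ℤ (Set.range b)

/-- dual pair of bases -/
def Dual {k : ℕ} (b b' : Module.Basis (Fin k) ℝ (E k)) : Prop :=
  ∀ i j, inner ℝ (b i) (b' j) = if i = j then (1 : ℝ) else 0

/-- Voronoi cell -/
def Vor {k : ℕ} (L : Submodule ℤ (E k)) : Set (E k) := {y | ∀ l ∈ L, ‖y‖ ≤ ‖y - l‖}

/-- uniform probability measure on a set -/
noncomputable def unif {k : ℕ} (K : Set (E k)) : Measure (E k) :=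
  ProbabilityTheory.cond volume K

/-- squared distance to `L` in the norm `‖D ·‖` -/
noncomputable def hd {k : ℕ} (L : Submodule ℤ (E k)) (D : E k →L[ℝ] E k) (y : E k) : ℝ :=
  ⨅ l : L, ‖D (y - l)‖ ^ 2

end Vale.Agent.P160F.RM
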