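import Vale.Agent.P160F.RMGau
import Vale.Agent.P160F.RMDefs

/-! Reverse Minkowski lemma: from the cost bound to point counts. -/

namespace Vale.Agent.P160F.RM

open MeasureTheory Real Matrix
open scoped RealInnerProductSpace MatrixOrder

variable {m : ℕ}

/-- the cost bound -/
def RMC : Prop :=
  ∀ (m : ℕ) (N : Submodule ℤ (E m)), DiscreteTopology N → Cl N →
    ∀ c : ℝ, 10 * (Module.finrank ℤ N : ℝ) < c → Cost N (ContinuousLinearMap.id ℝ (E m)) c

theorem Cl.of_fin {N : Submodule ℤ (E m)}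
    (h : ∀ (k : ℕ) (v : Fin k → E m), (∀ i, v i ∈ N) → LinearIndependent ℝ v →
      1 ≤ (Matrix.gram ℝ v).det) : Cl N := by
  intro ι _ _ v hv hli
  let e := (Fintype.equivFin ι).symm
  have := h _ (v ∘ e) (fun i => hv _) (hli.comp e e.injective)
  rwa [show Matrix.gram ℝ (v ∘ e) = (Matrix.gram ℝ v).submatrix e e from rfl,
    Matrix.det_submatrix_equiv_self] at this

/-- the plain count -/
theorem count {N : Submodule ℤ (E m)} {c s r : ℝ}
    (h : Cost N (ContinuousLinearMap.id ℝ (E m)) c) (hs : 0 < s) (S : Finset (E m))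
    (hS : ∀ v ∈ S, v ∈ N ∧ ‖v‖ ≤ r) :
    (S.card : ℝ) ≤ exp (π * c / s ^ 2 + 4 * π * s ^ 2 * r ^ 2) := by
  obtain ⟨ν, hν, hK, hi, hc⟩ := h
  refine (count0 ν hi hc hs S id (d := 2 * r) ?_ ?_).trans (le_of_eq ?_)
  · exact fun a ha a' ha' hne => hK _ (N.sub_mem (hS a ha).1 (hS a' ha').1) (sub_ne_zero.2 hne)
  · intro a ha a' ha'
    refine (norm_sub_le _ _).trans ?_
    simp only [id]
    linarith [(hS a ha).2, (hS a' ha').2]
  · congr 1
    ring

/-- measure form, with classes modulo `t` -/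
theorem count_cls {N : Submodule ℤ (E m)} [DiscreteTopology N] (ν : Measure (E m))
    [IsProbabilityMeasure ν] (hK : ∀ u ∈ N, u ≠ 0 → charFun ν ((2 * π) • u) = 0)
    (hi : Integrable (fun y => ‖y‖ ^ 2) ν) {c : ℝ} (hc : ∫ y, ‖y‖ ^ 2 ∂ν ≤ c) {s d : ℝ}
    (hs : 0 < s) {t : ℕ} (ht : 0 < t) {α : Type*} (S : Finset α) (p : α → N)
    (hp : Set.InjOn p S) (hd : ∀ a ∈ S, ∀ a' ∈ S, ‖(p a : E m) - p a'‖ ≤ d) :
    (S.card : ℝ) ≤ (t : ℝ) ^ Module.finrank ℤ N *
      exp (π * c / s ^ 2 + π * s ^ 2 * (d / t) ^ 2) := by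
  classical
  have : NeZero t := ⟨ht.ne'⟩
  have ht' : (0 : ℝ) < t := by exact_mod_cast ht
  let b := Module.finBasis ℤ N
  let key : α → (Fin (Module.finrank ℤ N) → ZMod t) := fun a i => ((b.repr (p a) i : ℤ) : ZMod t)
  have h1 : S.card = ∑ k : Fin (Module.finrank ℤ N) → ZMod t, (S.filter fun a => key a = k).card :=
    Finset.card_eq_sum_card_fiberwise fun a _ => Finset.mem_coe.2 (Finset.mem_univ _)
  have h2 : ∀ k, ((S.filter fun a => key a = k).card : ℝ) ≤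
      exp (π * c / s ^ 2 + π * s ^ 2 * (d / t) ^ 2) := by
    intro k
    refine count0 ν hi hc hs _ (fun a => (t : ℝ)⁻¹ • (p a : E m)) ?_ ?_
    · intro a ha a' ha' hne
      rw [Finset.mem_filter] at ha ha'
      have hk : ∀ i, (t : ℤ) ∣ b.repr (p a - p a') i := by
        intro i
        have := congrFun (ha.2.trans ha'.2.symm) i
        rw [map_sub, Finsupp.sub_apply, ← ZMod.intCast_eq_intCast_iff_dvd_sub]
        exact this.symm
      choose w hw using hk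
      have e : p a - p a' = (t : ℤ) • ∑ i, w i • b i := by
        rw [← b.sum_repr (p a - p a'), Finset.smul_sum]
        exact Finset.sum_congr rfl fun i _ => by rw [hw, mul_smul]
      have e2 : (t : ℝ)⁻¹ • (p a : E m) - (t : ℝ)⁻¹ • (p a' : E m) =
          ((∑ i, w i • b i : N) : E m) := by
        rw [← smul_sub, ← Submodule.coe_sub, e, Submodule.coe_smul, ← Int.cast_smul_eq_zsmul ℝ,
          smul_smul, Int.cast_natCast, inv_mul_cancel₀ ht'.ne', one_smul]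
      rw [e2]
      refine hK _ (Submodule.coe_mem _) fun h0 => hne (hp ha.1 ha'.1 ?_)
      rw [← sub_eq_zero, e, Submodule.coe_eq_zero.1 h0, smul_zero]
    · intro a ha a' ha'
      rw [Finset.mem_filter] at ha ha'
      rw [← smul_sub, norm_smul, norm_inv, Real.norm_natCast, inv_mul_eq_div]
      exact div_le_div_of_nonneg_right (hd a ha.1 a' ha'.1) ht'.le
  rw [h1, Nat.cast_sum]
  refine (Finset.sum_le_card_nsmul _ _ _ fun k _ => h2 k).trans (le_of_eq ?_)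
  simp [ZMod.card]

theorem discrete_of_one_le {N : Submodule ℤ (E m)} {θ : ℝ} (hθ : 0 < θ)
    (h : ∀ v ∈ N, v ≠ 0 → θ ≤ ‖v‖) : DiscreteTopology N := by
  refine discreteTopology_of_isOpen_singleton_zero ?_
  have : ({0} : Set N) = Metric.ball 0 θ := by
    ext v
    simp only [Set.mem_singleton_iff, mem_ball_zero_iff]
    constructor
    · rintro rfl
      simpa using hθ
    · intro hv
      by_contra h0
      exact absurd (h v v.2 fun e => h0 (Submodule.coe_eq_zero.1 e)) (not_le.2 hv)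
  rw [this]
  exact Metric.isOpen_ball

theorem Cl.norm {N : Submodule ℤ (E m)} (h : Cl N) {v : E m} (hv : v ∈ N) (h0 : v ≠ 0) :
    1 ≤ ‖v‖ := by
  have := h (Fin 1) (fun _ => v) (fun _ => hv) (linearIndependent_unique_iff.2 h0)
  rw [Matrix.det_unique, Matrix.gram_apply, real_inner_self_eq_norm_sq] at this
  nlinarith [norm_nonneg v]

theorem Cl.discrete {N : Submodule ℤ (E m)} (h : Cl N) : DiscreteTopology N :=
  discrete_of_one_le one_pos fun _ hv h0 => h.norm hv h0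

/-- lattice form, with classes modulo `t` -/
theorem rm_cls (H : RMC) {N : Submodule ℤ (E m)} (h : Cl N) {ρ : ℕ} (hρ : Module.finrank ℤ N ≤ ρ)
    {s d : ℝ} (hs : 0 < s) {t : ℕ} (ht : 0 < t) {α : Type*} (S : Finset α) (p : α → N)
    (hp : Set.InjOn p S) (hd : ∀ a ∈ S, ∀ a' ∈ S, ‖(p a : E m) - p a'‖ ≤ d) :
    (S.card : ℝ) ≤ (t : ℝ) ^ ρ * exp (10 * π * ρ / s ^ 2 + π * s ^ 2 * (d / t) ^ 2) := by
  have := h.discrete
  have ht' : (1 : ℝ) ≤ t := by exact_mod_cast ht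
  have hρ' : (Module.finrank ℤ N : ℝ) ≤ ρ := by exact_mod_cast hρ
  have key : ∀ c : ℝ, 10 * (ρ : ℝ) < c → (S.card : ℝ) ≤ (t : ℝ) ^ ρ *
      exp (π * c / s ^ 2 + π * s ^ 2 * (d / t) ^ 2) := by
    intro c hc
    obtain ⟨ν, hν, hK, hi, hc'⟩ := H m N h.discrete h c (by linarith)
    refine (count_cls ν hK hi hc' hs ht S p hp hd).trans ?_
    exact mul_le_mul_of_nonneg_right (pow_le_pow_right₀ ht' hρ) (exp_pos _).le
  have hc : Continuous fun c : ℝ => (t : ℝ) ^ ρ *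
      exp (π * c / s ^ 2 + π * s ^ 2 * (d / t) ^ 2) := by fun_prop
  have := ge_of_tendsto (hc.continuousWithinAt (s := Set.Ioi (10 * (ρ : ℝ)))
    (x := 10 * (ρ : ℝ))).tendsto (eventually_nhdsWithin_of_forall key)
  refine this.trans (le_of_eq ?_)
  congr 2
  ring

/-- lattice form with a scale `θ`, points of a ball -/
theorem rm_ball (H : RMC) {L : Submodule ℤ (E m)} {θ : ℝ} (hθ : 0 < θ)
    (h : ∀ (k : ℕ) (v : Fin k → E m), (∀ i, v i ∈ L) → LinearIndependent ℝ v →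
      θ ^ (2 * k) ≤ (Matrix.gram ℝ v).det) {ρ : ℕ} (hρ : Module.finrank ℤ L ≤ ρ)
    {s d : ℝ} (hs : 0 < s) {t : ℕ} (ht : 0 < t) (S : Finset (E m)) (v₀ : E m)
    (hS : ∀ v ∈ S, v - v₀ ∈ L) (hd : ∀ v ∈ S, ∀ v' ∈ S, ‖v - v'‖ ≤ d) :
    (S.card : ℝ) ≤ (t : ℝ) ^ ρ * exp (10 * π * ρ / s ^ 2 + π * s ^ 2 * (d / (θ * t)) ^ 2) := by
  let f : E m ≃ₗ[ℤ] E m :=
    (LinearEquiv.smulOfNeZero ℝ (E m) θ⁻¹ (inv_ne_zero hθ.ne')).restrictScalars ℤ
  have hf : ∀ v, f v = θ⁻¹ • v := fun v => rfl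
  let N : Submodule ℤ (E m) := L.map (f : E m →ₗ[ℤ] E m)
  have hN : Cl N := by
    refine Cl.of_fin fun k v hv hli => ?_
    have hv' : ∀ i, θ • v i ∈ L := by
      intro i
      obtain ⟨w, hw, e⟩ := Submodule.mem_map.1 (hv i)
      rw [← e, LinearEquiv.coe_coe, hf, smul_smul, mul_inv_cancel₀ hθ.ne', one_smul]
      exact hw
    have hli' : LinearIndependent ℝ fun i => θ • v i :=
      hli.units_smul fun _ => Units.mk0 θ hθ.ne'
    have h1 := h k _ hv' hli'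
    have e : Matrix.gram ℝ (fun i => θ • v i) = (θ ^ 2) • Matrix.gram ℝ v := by
      ext i j
      simp only [Matrix.gram_apply, Matrix.smul_apply, inner_smul_left, inner_smul_right,
        smul_eq_mul, conj_trivial]
      ring
    rw [e, Matrix.det_smul, Fintype.card_fin, ← pow_mul] at h1
    exact le_of_mul_le_mul_left (by simpa using h1) (show 0 < θ ^ (2 * k) by positivity)
  have hr : Module.finrank ℤ N ≤ ρ := by
    rw [LinearEquiv.finrank_map_eq]
    exact hρ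
  have := rm_cls H hN hr (d := d / θ) hs ht S.attach
    (fun a => ⟨f (a.1 - v₀), Submodule.mem_map_of_mem (hS _ a.2)⟩) ?_ ?_
  · rw [Finset.card_attach, div_div] at this
    exact this
  · intro a _ a' _ e
    exact Subtype.ext (sub_left_injective (f.injective (congrArg Subtype.val e)))
  · intro a _ a' _
    simp only [hf, ← smul_sub, sub_sub_sub_cancel_right, norm_smul, norm_inv, Real.norm_eq_abs,
      abs_of_pos hθ, inv_mul_eq_div]
    exact div_le_div_of_nonneg_right (hd _ a.2 _ a'.2) hθ.le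

theorem exists_fac {P : Matrix (Fin m) (Fin m) ℝ} (hP : P.PosSemidef) :
    ∃ B : Matrix (Fin m) (Fin m) ℝ, P = Bᵀ * B := by
  obtain ⟨B, hB⟩ := CStarAlgebra.nonneg_iff_eq_star_mul_self.mp hP.nonneg
  exact ⟨B, by rw [hB, star_eq_conjTranspose, conjTranspose_eq_transpose_of_trivial]⟩

/-- the lattice map of a real matrix -/
noncomputable def latMap (B : Matrix (Fin m) (Fin m) ℝ) : (Fin m → ℤ) →ₗ[ℤ] E m where
  toFun z := WithLp.toLp 2 (B *ᵥ fun i => (z i : ℝ))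
  map_add' z w := by
    rw [← WithLp.toLp_add, ← mulVec_add]
    congr 2
    ext i
    simp
  map_smul' a z := by
    rw [RingHom.id_apply, ← Int.cast_smul_eq_zsmul ℝ a (WithLp.toLp 2 _), ← WithLp.toLp_smul,
      ← mulVec_smul]
    congr 2
    ext i
    simp

theorem latMap_inner (B : Matrix (Fin m) (Fin m) ℝ) (z w : Fin m → ℤ) :
    ⟪latMap B z, latMap B w⟫ = (fun i => (z i : ℝ)) ⬝ᵥ (Bᵀ * B) *ᵥ fun i => (w i : ℝ) := by
  rw [← mulVec_mulVec, dotProduct_mulVec, vecMul_transpose]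
  simp only [latMap, LinearMap.coe_mk, AddHom.coe_mk, EuclideanSpace.inner_toLp_toLp,
    star_trivial]
  exact dotProduct_comm _ _

/-- Gram form, with free parameters -/
theorem rm0 (H : RMC) (P : Matrix (Fin m) (Fin m) ℝ) (hP : P.PosDef)
    (hC : ∀ (k : ℕ) (X : Matrix (Fin m) (Fin k) ℤ),
      ((X.map (Int.cast : ℤ → ℝ))ᵀ * P * X.map (Int.cast : ℤ → ℝ)).det ≠ 0 →
      1 ≤ ((X.map (Int.cast : ℤ → ℝ))ᵀ * P * X.map (Int.cast : ℤ → ℝ)).det)
    {r s : ℝ} (hs : 0 < s) {t : ℕ} (ht : 0 < t) (S : Finset (Fin m → ℤ))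
    (hS : ∀ z ∈ S, (fun i => (z i : ℝ)) ⬝ᵥ P *ᵥ (fun i => (z i : ℝ)) ≤ r ^ 2) :
    (S.card : ℝ) ≤ (t : ℝ) ^ m * exp (10 * π * m / s ^ 2 + 4 * π * s ^ 2 * r ^ 2 / t ^ 2) := by
  obtain ⟨B, hB⟩ := exists_fac hP.posSemidef
  let N : Submodule ℤ (E m) := LinearMap.range (latMap B)
  have hN : Cl N := by
    refine Cl.of_fin fun k v hv hli => ?_
    choose z hz using hv
    have e : Matrix.gram ℝ v = ((Matrix.of fun i j => z j i).map (Int.cast : ℤ → ℝ))ᵀ * P *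
        (Matrix.of fun i j => z j i).map (Int.cast : ℤ → ℝ) := by
      ext i j
      rw [Matrix.gram_apply, ← hz, ← hz, latMap_inner, ← hB, Matrix.mul_assoc]
      rfl
    rw [e]
    refine hC k _ ?_
    rw [← e]
    exact Matrix.det_gram_ne_zero_iff_linearIndependent.2 hli
  have hr : Module.finrank ℤ N ≤ m := by
    refine (LinearMap.finrank_range_le (latMap B)).trans (le_of_eq ?_)
    simp
  have hn : ∀ z ∈ S, ‖latMap B z‖ ≤ |r| := by
    intro z hz
    refine (abs_le_of_sq_le_sq' ?_ (abs_nonneg r)).2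
    rw [← real_inner_self_eq_norm_sq, latMap_inner, ← hB, sq_abs]
    exact hS z hz
  have := rm_cls H hN hr (d := 2 * |r|) hs ht S
    (fun z => ⟨latMap B z, LinearMap.mem_range_self _ z⟩) ?_ ?_
  · refine this.trans (le_of_eq ?_)
    congr 2
    rw [div_pow, mul_pow, sq_abs]
    ring
  · intro z _ w _ e
    have e1 : latMap B (z - w) = 0 := by
      rw [map_sub, sub_eq_zero]
      exact congrArg Subtype.val e
    have e2 := latMap_inner B (z - w) (z - w)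
    rw [e1, inner_zero_left, ← hB] at e2
    by_contra hne
    have h0 : (fun i => ((z - w) i : ℝ)) ≠ 0 := by
      intro h0
      refine hne (funext fun i => ?_)
      have := congrFun h0 i
      simp only [Pi.sub_apply, Pi.zero_apply, Int.cast_eq_zero] at this
      exact sub_eq_zero.1 this
    have := hP.dotProduct_mulVec_pos h0
    rw [star_trivial] at this
    exact this.ne e2
  · intro z hz w hw
    refine (norm_sub_le _ _).trans ?_
    linarith [hn z hz, hn w hw]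

/-- reverse Minkowski, polynomial form -/
theorem rm1 (H : RMC) (P : Matrix (Fin m) (Fin m) ℝ) (hP : P.PosDef)
    (hC : ∀ (k : ℕ) (X : Matrix (Fin m) (Fin k) ℤ),
      ((X.map (Int.cast : ℤ → ℝ))ᵀ * P * X.map (Int.cast : ℤ → ℝ)).det ≠ 0 →
      1 ≤ ((X.map (Int.cast : ℤ → ℝ))ᵀ * P * X.map (Int.cast : ℤ → ℝ)).det)
    (r s : ℝ) (hs : 1 ≤ s) (S : Finset (Fin m → ℤ))
    (hS : ∀ z ∈ S, (fun i => (z i : ℝ)) ⬝ᵥ P *ᵥ (fun i => (z i : ℝ)) ≤ r ^ 2) :
    (S.card : ℝ) ≤ (2 * s) ^ m * exp (13 * r ^ 2 / s ^ 2 + 32 * m) := by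
  have ht : 0 < ⌈s⌉₊ := Nat.ceil_pos.2 (by linarith)
  have h1 : s ≤ (⌈s⌉₊ : ℝ) := Nat.le_ceil s
  have h2 : (⌈s⌉₊ : ℝ) ≤ 2 * s := by linarith [Nat.ceil_lt_add_one (show 0 ≤ s by linarith)]
  refine (rm0 H P hP hC one_pos ht S hS).trans ?_
  have h3 : 4 * π * 1 ^ 2 * r ^ 2 / (⌈s⌉₊ : ℝ) ^ 2 ≤ 13 * r ^ 2 / s ^ 2 := by
    have := pi_lt_d2
    gcongr
    linarith
  have h4 : 10 * π * m / 1 ^ 2 ≤ 32 * m := by
    have := pi_lt_d2
    have h5 : (0 : ℝ) ≤ m := Nat.cast_nonneg m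
    nlinarith
  gcongr ?_ ^ m * exp ?_
  linarith

/-- reverse Minkowski, square root form -/
theorem rm2 (H : RMC) (P : Matrix (Fin m) (Fin m) ℝ) (hP : P.PosDef)
    (hC : ∀ (k : ℕ) (X : Matrix (Fin m) (Fin k) ℤ),
      ((X.map (Int.cast : ℤ → ℝ))ᵀ * P * X.map (Int.cast : ℤ → ℝ)).det ≠ 0 →
      1 ≤ ((X.map (Int.cast : ℤ → ℝ))ᵀ * P * X.map (Int.cast : ℤ → ℝ)).det)
    {r δ : ℝ} (hδ : 0 < δ) (S : Finset (Fin m → ℤ))
    (hS : ∀ z ∈ S, (fun i => (z i : ℝ)) ⬝ᵥ P *ᵥ (fun i => (z i : ℝ)) ≤ r ^ 2) :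
    (S.card : ℝ) ≤ exp (δ * m + 400 * r ^ 2 / δ) := by
  have hs : 0 < √(10 * π / δ) := by positivity
  refine (rm0 H P hP hC hs one_pos S hS).trans ?_
  rw [Nat.cast_one, one_pow, one_mul, sq_sqrt (by positivity)]
  refine exp_le_exp.2 (add_le_add (le_of_eq ?_) ?_)
  · field_simp
  · have e : 4 * π * (10 * π / δ) * r ^ 2 / 1 ^ 2 = 40 * π ^ 2 * r ^ 2 / δ := by ring
    rw [e]
    have := pi_lt_d2
    have h1 : 40 * π ^ 2 ≤ 400 := by nlinarith [pi_pos]
    gcongr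

end Vale.Agent.P160F.RM
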