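import Vale.Agent.P160F.RMDefs
import Vale.Agent.P254.Main

/-!
Slicing input. For a symmetric body the centroid is `0` (`integral_neg_eq_self`), so
`covMatrix K i j = ∫ y i * y j ∂(unif K)`. `Vale.Agent.P254.iso_bound` and
`2 / (π e) < 1` give `det (covMatrix K) ≤ volume.real K ^ 2 ≤ 1`. Take
`e = hS.eigenvectorBasis` (`hS : IsHermitian`): `∫ ⟪e i, y⟫² = eigenvalue i ≥ 0`, their product
is the determinant (`Matrix.IsHermitian.det_eq_prod_eigenvalues`), so the least is `≤ 1`; their
sum is `∫ ‖y‖²` (Parseval, `OrthonormalBasis.sum_sq_inner_right`), so the largest is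
`≥ (∫ ‖y‖²) / k`.
-/

open MeasureTheory

namespace Vale.Agent.P160F.RM

variable {k : ℕ}

theorem int_unif (K : Set (E k)) (f : E k → ℝ) :
    ∫ y, f y ∂(unif K) = (volume.real K)⁻¹ * ∫ y in K, f y := by
  unfold unif ProbabilityTheory.cond
  rw [integral_smul_measure, ENNReal.toReal_inv, smul_eq_mul, Measure.real]

theorem centroid_zero {K : Set (E k)} (hK : MeasurableSet K) (hs : ∀ y ∈ K, -y ∈ K) (i : Fin k) :
    Vale.Agent.P254.centroidCoord K i = 0 := by
  unfold Vale.Agent.P254.centroidCoord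
  have h1 : ∫ x in K, x i = -∫ x in K, x i := by
    rw [← integral_indicator hK]
    conv_lhs => rw [← integral_neg_eq_self]
    rw [← integral_neg]
    refine integral_congr_ae (ae_of_all _ fun x => ?_)
    by_cases hx : x ∈ K
    · simp [Set.indicator_of_mem hx, Set.indicator_of_mem (hs x hx)]
    · have hx' : -x ∉ K := fun h => hx (by simpa using hs _ h)
      simp [Set.indicator_of_notMem hx, Set.indicator_of_notMem hx']
  have h2 : ∫ x in K, x i = 0 := by linarith
  rw [h2, mul_zero]

theorem int_K {K : Set (E k)} (hK : IsCompact K) {f : E k → ℝ} (hf : Continuous f) :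
    Integrable f (unif K) := by
  unfold unif ProbabilityTheory.cond
  by_cases h0 : volume K = 0
  · rw [Measure.restrict_eq_zero.2 h0]
    simp
  · exact (hf.continuousOn.integrableOn_compact hK).smul_measure (ENNReal.inv_ne_top.2 h0)

theorem cov_det (hk : 0 < k) {K : Set (E k)} (hK : Vale.Agent.P254.Body K)
    (hv : volume.real K ≤ 1) :
    (Vale.Agent.P254.covMatrix K).det ≤ 1 := by
  have h1 := Vale.Agent.P254.iso_bound hk hK
  have h2 : √(2 / (Real.pi * Real.exp 1)) ≤ 1 := by
    rw [Real.sqrt_le_one, div_le_one (by positivity)]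
    nlinarith [Real.pi_gt_three, Real.add_one_le_exp 1]
  have hpos : 0 < volume.real K := by
    refine ENNReal.toReal_pos ?_ hK.1.measure_lt_top.ne
    exact ((isOpen_interior.measure_pos volume hK.2.2).trans_le
      (measure_mono interior_subset)).ne'
  unfold Vale.Agent.P254.isoConst at h1
  by_contra hlt
  push Not at hlt
  have h3 : 1 < (Vale.Agent.P254.covMatrix K).det / volume.real K ^ 2 := by
    rw [one_lt_div (by positivity)]
    exact (pow_le_one₀ hpos.le hv).trans_lt hlt
  have hkR : (0 : ℝ) < k := by exact_mod_cast hk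
  have h4 := Real.one_lt_rpow h3 (z := 1 / (2 * (k : ℝ))) (by positivity)
  linarith

theorem cov_dirs (hk : 0 < k) {K : Set (E k)} (hK : Vale.Agent.P254.Body K)
    (hs : ∀ y ∈ K, -y ∈ K) (hv : volume.real K ≤ 1) :
    ∃ (e : OrthonormalBasis (Fin k) ℝ (E k)) (i j : Fin k),
      ∫ y, ‖y‖ ^ 2 ∂(unif K) ≤ k * ∫ y, inner ℝ (e i) y ^ 2 ∂(unif K) ∧
      ∫ y, inner ℝ (e j) y ^ 2 ∂(unif K) ≤ 1 := by
  have hc := centroid_zero hK.1.measurableSet hs
  have hS : ∀ i j, Vale.Agent.P254.covMatrix K i j = ∫ y, y i * y j ∂(unif K) := by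
    intro i j
    rw [int_unif]
    simp [Vale.Agent.P254.covMatrix, hc]
  have hH : (Vale.Agent.P254.covMatrix K).IsHermitian := by
    ext i j
    simp [hS, mul_comm]
  have hq : ∀ w : E k, ∫ y, inner ℝ w y ^ 2 ∂(unif K) =
      w.ofLp ⬝ᵥ (Vale.Agent.P254.covMatrix K).mulVec w.ofLp := by
    intro w
    have e : ∀ y : E k, inner ℝ w y ^ 2 = ∑ i, ∑ j, w i * w j * (y i * y j) := by
      intro y
      rw [PiLp.inner_apply, sq, Finset.sum_mul_sum]
      refine Finset.sum_congr rfl fun i _ => Finset.sum_congr rfl fun j _ => ?_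
      simp only [RCLike.inner_apply, conj_trivial]
      ring
    have hi : ∀ i j, Integrable (fun y : E k => w i * w j * (y i * y j)) (unif K) :=
      fun i j => int_K hK.1 (by fun_prop)
    simp only [e]
    rw [integral_finsetSum _ fun i _ => integrable_finsetSum _ fun j _ => hi i j]
    simp only [dotProduct, Matrix.mulVec, Finset.mul_sum]
    refine Finset.sum_congr rfl fun i _ => ?_
    rw [integral_finsetSum _ fun j _ => hi i j]
    refine Finset.sum_congr rfl fun j _ => ?_
    rw [integral_const_mul, hS]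
    ring
  have he : ∀ i, ∫ y, inner ℝ (hH.eigenvectorBasis i) y ^ 2 ∂(unif K) = hH.eigenvalues i := by
    intro i
    rw [hq, hH.eigenvalues_eq]
    simp
  have hnn : ∀ i, 0 ≤ hH.eigenvalues i := fun i => by
    rw [← he]
    exact integral_nonneg fun y => sq_nonneg _
  have hdet : (Vale.Agent.P254.covMatrix K).det = ∏ i, hH.eigenvalues i := by
    simpa using hH.det_eq_prod_eigenvalues
  have hd1 := cov_det hk hK hv
  have hsum : ∫ y, ‖y‖ ^ 2 ∂(unif K) = ∑ i, hH.eigenvalues i := by
    simp only [← he]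
    rw [← integral_finsetSum _ fun i _ => int_K hK.1 (by fun_prop)]
    refine integral_congr_ae (ae_of_all _ fun y => ?_)
    exact (hH.eigenvectorBasis.sum_sq_inner_right y).symm
  have : Nonempty (Fin k) := ⟨⟨0, hk⟩⟩
  obtain ⟨i, -, hi⟩ := Finset.exists_max_image Finset.univ hH.eigenvalues Finset.univ_nonempty
  obtain ⟨j, -, hj⟩ := Finset.exists_min_image Finset.univ hH.eigenvalues Finset.univ_nonempty
  refine ⟨hH.eigenvectorBasis, i, j, ?_, ?_⟩
  · rw [hsum, he]
    have := Finset.sum_le_card_nsmul Finset.univ hH.eigenvalues _ hi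
    simpa using this
  · rw [he]
    by_contra hlt
    push Not at hlt
    have h1 : ∏ _i : Fin k, hH.eigenvalues j ≤ ∏ i, hH.eigenvalues i :=
      Finset.prod_le_prod (fun i _ => hnn j) hj
    rw [Finset.prod_const, Finset.card_univ, Fintype.card_fin] at h1
    have h2 := one_lt_pow₀ hlt hk.ne'
    linarith

end Vale.Agent.P160F.RM
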