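import Vale.Agent.P160F.RMDefs

/-!
Building killing measures.
* `cost_split`: `ν` = law of `P y₁ + Q y₂` under `ν'.prod ν''`, `P = W.starProjection`,
  `Q = Wᗮ.starProjection`. `charFun ν u = charFun ν' (P u) * charFun ν'' (Q u)`; for
  `u ∈ N \ 0` either `Q u ≠ 0` (second factor vanishes) or `u ∈ W`, `P u = u ∈ N'`.
  `‖P y₁ + Q y₂‖² = ‖P y₁‖² + ‖Q y₂‖² ≤ ‖y₁‖² + ‖y₂‖²`.
* `cost_line`: law of `(t / ‖v‖²) • v`, `t` uniform on `[0,1]`; `∫₀¹ exp (2 π i n t) dt = 0`.
* `cost_zero`: Dirac mass at `0`.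
-/

open MeasureTheory

namespace Vale.Agent.P160F.RM

variable {m : ℕ}

theorem split_map {α : Type} [MeasurableSpace α] {μ : Measure α} [IsProbabilityMeasure μ]
    {N : Submodule ℤ (E m)} {f : α → E m} (hf : Measurable f) {c : ℝ}
    (hk : ∀ u ∈ N, u ≠ 0 →
      ∫ a, Complex.exp ((inner ℝ (f a) ((2 * Real.pi) • u) : ℝ) * Complex.I) ∂μ = 0)
    (hi : Integrable (fun a => ‖f a‖ ^ 2) μ) (hc : ∫ a, ‖f a‖ ^ 2 ∂μ ≤ c) : Cost N idL c := by
  have h2 : Continuous fun y : E m => ‖y‖ ^ 2 := by fun_prop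
  refine ⟨μ.map f, Measure.isProbabilityMeasure_map hf.aemeasurable, fun u hu h0 => ?_,
    (integrable_map_measure h2.aestronglyMeasurable hf.aemeasurable).2 hi, ?_⟩
  · rw [charFun_apply, integral_map hf.aemeasurable (Continuous.aestronglyMeasurable (by fun_prop))]
    exact hk u hu h0
  · exact (integral_map hf.aemeasurable h2.aestronglyMeasurable).trans_le hc

theorem cost_zero {N : Submodule ℤ (E m)} (hN : ∀ u ∈ N, u = 0) : Cost N idL 0 := by
  refine ⟨Measure.dirac 0, inferInstance, fun u hu h0 => absurd (hN u hu) h0, ?_, by simp⟩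
  exact integrable_dirac (by simp)

theorem cost_line {N : Submodule ℤ (E m)} {v : E m} (hv : v ≠ 0)
    (hN : ∀ u ∈ N, ∃ n : ℤ, u = (n : ℝ) • v) : Cost N idL (1 / ‖v‖ ^ 2) := by
  have hv' : 0 < ‖v‖ := norm_pos_iff.2 hv
  have hp : IsProbabilityMeasure ((volume : Measure ℝ).restrict (Set.Ioc 0 1)) := ⟨by simp⟩
  have hb : ∀ᵐ t ∂((volume : Measure ℝ).restrict (Set.Ioc 0 1)),
      ‖(t / ‖v‖ ^ 2) • v‖ ^ 2 ≤ 1 / ‖v‖ ^ 2 := by
    filter_upwards [ae_restrict_mem measurableSet_Ioc] with t ht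
    have e : ‖(t / ‖v‖ ^ 2) • v‖ ^ 2 = t ^ 2 / ‖v‖ ^ 2 := by
      rw [norm_smul, mul_pow, Real.norm_eq_abs, sq_abs]
      field_simp
    rw [e]
    exact div_le_div_of_nonneg_right (pow_le_one₀ ht.1.le ht.2) (by positivity)
  have hc : Continuous fun t : ℝ => (t / ‖v‖ ^ 2) • v := by fun_prop
  have hi : Integrable (fun t : ℝ => ‖(t / ‖v‖ ^ 2) • v‖ ^ 2)
      ((volume : Measure ℝ).restrict (Set.Ioc 0 1)) :=
    Integrable.of_bound (hc.norm.pow 2).aestronglyMeasurable (1 / ‖v‖ ^ 2)
      (hb.mono fun t ht => by rwa [Real.norm_of_nonneg (by positivity)])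
  refine split_map (μ := (volume : Measure ℝ).restrict (Set.Ioc 0 1)) hc.measurable
    (fun u hu h0 => ?_) hi ?_
  · obtain ⟨n, rfl⟩ := hN u hu
    have hn : (n : ℂ) ≠ 0 := by
      intro h
      have h' : n = 0 := by exact_mod_cast h
      exact h0 (by simp [h'])
    have e : ∀ t : ℝ, ((inner ℝ ((t / ‖v‖ ^ 2) • v) ((2 * Real.pi) • (n : ℝ) • v) : ℝ) : ℂ) *
        Complex.I = (n * (2 * Real.pi * Complex.I)) * t := by
      intro t
      have e1 : inner ℝ ((t / ‖v‖ ^ 2) • v) ((2 * Real.pi) • (n : ℝ) • v) =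
          n * (2 * Real.pi) * t := by
        rw [real_inner_smul_left, real_inner_smul_right, real_inner_smul_right,
          real_inner_self_eq_norm_sq]
        field_simp
      rw [e1]
      push_cast
      ring
    simp only [e]
    rw [← intervalIntegral.integral_of_le zero_le_one,
      integral_exp_mul_complex (mul_ne_zero hn Complex.two_pi_I_ne_zero)]
    simp [Complex.exp_int_mul_two_pi_mul_I]
  · refine (integral_mono_ae hi (integrable_const _) hb).trans_eq ?_
    rw [integral_const, probReal_univ, one_smul]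

theorem cost_split (W : Submodule ℝ (E m)) {N N' N'' : Submodule ℤ (E m)} {c' c'' : ℝ}
    (h' : ∀ u ∈ N, u ∈ W → u ∈ N') (h'' : ∀ u ∈ N, Wᗮ.starProjection u ∈ N'')
    (hc' : Cost N' idL c') (hc'' : Cost N'' idL c'') : Cost N idL (c' + c'') := by
  obtain ⟨ν', p', k', i', b'⟩ := hc'
  obtain ⟨ν'', p'', k'', i'', b''⟩ := hc''
  have hf : Continuous fun y : E m × E m => W.starProjection y.1 + Wᗮ.starProjection y.2 := by
    fun_prop
  have hb : ∀ y : E m × E m,
      ‖W.starProjection y.1 + Wᗮ.starProjection y.2‖ ^ 2 ≤ ‖y.1‖ ^ 2 + ‖y.2‖ ^ 2 := by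
    intro y
    have h0 : inner ℝ (W.starProjection y.1) (Wᗮ.starProjection y.2) = 0 :=
      Submodule.inner_right_of_mem_orthogonal (W.starProjection_apply_mem _)
        (Wᗮ.starProjection_apply_mem _)
    rw [norm_add_sq_real, h0, mul_zero, add_zero]
    exact add_le_add (pow_le_pow_left₀ (norm_nonneg _) (W.norm_starProjection_apply_le _) 2)
      (pow_le_pow_left₀ (norm_nonneg _) (Wᗮ.norm_starProjection_apply_le _) 2)
  have i1 : Integrable (fun y : E m × E m => ‖y.1‖ ^ 2) (ν'.prod ν'') := i'.comp_fst ν''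
  have i2 : Integrable (fun y : E m × E m => ‖y.2‖ ^ 2) (ν'.prod ν'') := i''.comp_snd ν'
  have hi : Integrable (fun y : E m × E m =>
      ‖W.starProjection y.1 + Wᗮ.starProjection y.2‖ ^ 2) (ν'.prod ν'') :=
    (i1.add i2).mono' (hf.norm.pow 2).aestronglyMeasurable (Filter.Eventually.of_forall fun y => by
      rw [Real.norm_of_nonneg (by positivity)]
      exact hb y)
  refine split_map (μ := ν'.prod ν'') hf.measurable (fun u hu h0 => ?_) hi ?_
  · have e : ∀ y : E m × E m, Complex.exp ((inner ℝ (W.starProjection y.1 + Wᗮ.starProjection y.2)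
        ((2 * Real.pi) • u) : ℝ) * Complex.I) =
        Complex.exp ((inner ℝ y.1 ((2 * Real.pi) • W.starProjection u) : ℝ) * Complex.I) *
        Complex.exp ((inner ℝ y.2 ((2 * Real.pi) • Wᗮ.starProjection u) : ℝ) * Complex.I) := by
      intro y
      rw [inner_add_left, Submodule.inner_starProjection_left_eq_right,
        Submodule.inner_starProjection_left_eq_right, map_smul, map_smul, Complex.ofReal_add,
        add_mul, Complex.exp_add]
    simp only [e]
    rw [integral_prod_mul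
      (fun y => Complex.exp ((inner ℝ y ((2 * Real.pi) • W.starProjection u) : ℝ) * Complex.I))
      (fun y => Complex.exp ((inner ℝ y ((2 * Real.pi) • Wᗮ.starProjection u) : ℝ) * Complex.I))]
    by_cases hq : Wᗮ.starProjection u = 0
    · have hp : W.starProjection u = u := by
        rw [Submodule.starProjection_orthogonal_val] at hq
        exact (sub_eq_zero.1 hq).symm
      refine mul_eq_zero_of_left ?_ _
      rw [hp]
      exact k' u (h' u hu (Submodule.starProjection_eq_self_iff.1 hp)) h0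
    · exact mul_eq_zero_of_right _ (k'' _ (h'' u hu) hq)
  · refine (integral_mono hi (i1.add i2) hb).trans ?_
    rw [integral_add' i1 i2, integral_fun_fst fun y : E m => ‖y‖ ^ 2,
      integral_fun_snd fun y : E m => ‖y‖ ^ 2, probReal_univ, probReal_univ, one_smul, one_smul]
    exact add_le_add b' b''

end Vale.Agent.P160F.RM
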