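import Vale.Agent.P160F.RMPush
import Vale.Agent.P160F.RMSplit
import Vale.Agent.P160F.RMRank

/-!
Crude finiteness. Induction on `k`, `c (k+1) = 1 + 2 c k`. If `N = 0` use `cost_zero`. Otherwise
let `μ = inf {‖u‖² : u ∈ N \ 0} ≥ 1`, pick `v ∈ N \ 0` with `‖v‖² < 2 μ`, `W = span {v}`,
`Q = Wᗮ.starProjection`. `N ⊓ W = ℤ v` (subtract `round a • v`, the rest has square norm
`≤ ‖v‖²/4 < μ`), cost `≤ 1/‖v‖² ≤ 1` by `cost_line`. For `u ∈ N` with `Q u ≠ 0`: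
`u = Q u + a v`, `u - round a • v ∈ N \ 0`, so `μ ≤ ‖Q u‖² + ‖v‖²/4`, `‖Q u‖² ≥ μ/2 ≥ 1/2`.
So `img (√2 • 1) (img Q N)` has rank `≤ k` (`rk_proj`, `rk_img_le`) and minimum `≥ 1`;
`Cost.scale` and `cost_split`.
-/

open MeasureTheory

namespace Vale.Agent.P160F.RM

theorem crude_dec {m : ℕ} (v u : E m) : ∃ (n : ℤ) (b : ℝ), b ^ 2 ≤ 1 / 4 ∧
    ‖u - (n : ℝ) • v‖ ^ 2 = ‖(ℝ ∙ v)ᗮ.starProjection u‖ ^ 2 + b ^ 2 * ‖v‖ ^ 2 := by
  obtain ⟨a, ha⟩ := Submodule.mem_span_singleton.1 ((ℝ ∙ v).starProjection_apply_mem u)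
  have h1 : (ℝ ∙ v)ᗮ.starProjection u = u - a • v := by
    rw [Submodule.starProjection_orthogonal_val, ha]
  have h2 : inner ℝ v ((ℝ ∙ v)ᗮ.starProjection u) = 0 :=
    Submodule.inner_right_of_mem_orthogonal (Submodule.mem_span_singleton_self v)
      ((ℝ ∙ v)ᗮ.starProjection_apply_mem u)
  refine ⟨round a, a - round a, ?_, ?_⟩
  · have h3 := abs_sub_round a
    have h4 := abs_le.1 h3
    nlinarith [h4.1, h4.2]
  · have h3 : u - ((round a : ℤ) : ℝ) • v =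
        (ℝ ∙ v)ᗮ.starProjection u + (a - round a) • v := by
      rw [h1, sub_smul]
      abel
    rw [h3, norm_add_sq_real, inner_smul_right, real_inner_comm, h2, norm_smul, mul_pow,
      Real.norm_eq_abs, sq_abs]
    ring

theorem crude (k : ℕ) : ∃ c : ℝ, ∀ (m : ℕ) (N : Submodule ℤ (E m)), rk N ≤ k →
    (∀ u ∈ N, u ≠ 0 → 1 ≤ ‖u‖ ^ 2) → Cost N idL c := by
  induction k with
  | zero =>
    refine ⟨0, fun m N hN _ => cost_zero fun u hu => ?_⟩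
    have h1 : Submodule.span ℝ (N : Set (E m)) = ⊥ :=
      Submodule.finrank_eq_zero.1 (Nat.le_zero.1 hN)
    exact (Submodule.mem_bot ℝ).1 (h1 ▸ Submodule.subset_span hu)
  | succ k ih =>
    obtain ⟨c, hc⟩ := ih
    have hc0 : 0 ≤ c := (hc 0 ⊥ ((Submodule.finrank_le _).trans (by simp)) fun u hu h0 =>
      absurd ((Submodule.mem_bot ℤ).1 hu) h0).nonneg
    refine ⟨1 + 2 * c, fun m N hN h1 => ?_⟩
    by_cases h0 : ∀ u ∈ N, u = 0
    · exact (cost_zero h0).of_le (by linarith)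
    push Not at h0
    obtain ⟨u₀, hu₀, hu₀'⟩ := h0
    obtain ⟨S, hS⟩ : ∃ S : Set ℝ, S = {r | ∃ u ∈ N, u ≠ 0 ∧ r = ‖u‖ ^ 2} := ⟨_, rfl⟩
    have hne : S.Nonempty := ⟨‖u₀‖ ^ 2, hS ▸ ⟨u₀, hu₀, hu₀', rfl⟩⟩
    have hlb : ∀ r ∈ S, 1 ≤ r := by
      rw [hS]
      rintro r ⟨u, a1, a2, rfl⟩
      exact h1 u a1 a2
    have hμ1 : 1 ≤ sInf S := le_csInf hne hlb
    have hμ : ∀ u ∈ N, u ≠ 0 → sInf S ≤ ‖u‖ ^ 2 := fun u a1 a2 =>
      csInf_le ⟨1, hlb⟩ (hS ▸ ⟨u, a1, a2, rfl⟩)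
    obtain ⟨r, hr, hr'⟩ := exists_lt_of_csInf_lt hne (show sInf S < 2 * sInf S by linarith)
    rw [hS] at hr
    obtain ⟨v, hv, hv0, rfl⟩ := hr
    generalize sInf S = μ at hμ1 hμ hr'
    have hsub : ∀ u ∈ N, ∀ n : ℤ, u - (n : ℝ) • v ∈ N := fun u hu n => by
      rw [Int.cast_smul_eq_zsmul]
      exact N.sub_mem hu (N.smul_mem n hv)
    have hv2 : 0 ≤ ‖v‖ ^ 2 := sq_nonneg _
    have k1 : Cost (N ⊓ (ℝ ∙ v).restrictScalars ℤ) idL 1 := by
      refine (cost_line hv0 fun u hu => ?_).of_le ?_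
      · obtain ⟨n, b, a1, a2⟩ := crude_dec v u
        refine ⟨n, sub_eq_zero.1 (not_not.1 fun hn => ?_)⟩
        have a3 := hμ _ (hsub u hu.1 n) hn
        have a4 : (ℝ ∙ v)ᗮ.starProjection u = 0 :=
          (Submodule.starProjection_apply_eq_zero_iff _).2
            (Submodule.le_orthogonal_orthogonal _ hu.2)
        rw [a2, a4, norm_zero] at a3
        have a5 := mul_le_mul_of_nonneg_right a1 hv2
        nlinarith
      · rw [div_le_one (by have := h1 v hv hv0; linarith)]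
        exact h1 v hv hv0
    have k2 : rk (img (ℝ ∙ v)ᗮ.starProjection N) ≤ k := by
      have a1 := rk_proj (ℝ ∙ v) N
        ((Submodule.span_singleton_le_iff_mem _ _).2 (Submodule.subset_span hv))
      rw [finrank_span_singleton hv0] at a1
      omega
    have hs : Real.sqrt 2 ^ 2 = 2 := Real.sq_sqrt (by norm_num)
    have k3 : Cost (img (Real.sqrt 2 • (idL : E m →L[ℝ] E m)) (img (ℝ ∙ v)ᗮ.starProjection N))
        idL c := by
      refine hc m _ ((rk_img_le _ _).trans k2) fun u hu h0 => ?_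
      obtain ⟨y, hy, rfl⟩ := mem_img.1 hu
      obtain ⟨x, hx, rfl⟩ := mem_img.1 hy
      obtain ⟨n, b, a1, a2⟩ := crude_dec v x
      have a0 : (Real.sqrt 2 • (idL : E m →L[ℝ] E m)) ((ℝ ∙ v)ᗮ.starProjection x) =
          Real.sqrt 2 • (ℝ ∙ v)ᗮ.starProjection x := rfl
      rw [a0] at h0 ⊢
      generalize (ℝ ∙ v)ᗮ.starProjection x = q at h0 a2 ⊢
      have a3 : q ≠ 0 := fun h => h0 (by rw [h, smul_zero])
      have a4 : 0 < ‖q‖ ^ 2 := pow_pos (norm_pos_iff.2 a3) 2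
      have a5 : x - (n : ℝ) • v ≠ 0 := fun h => by
        rw [h, norm_zero] at a2
        have := mul_nonneg (sq_nonneg b) hv2
        nlinarith
      have a6 := hμ _ (hsub x hx n) a5
      have a7 := mul_le_mul_of_nonneg_right a1 hv2
      rw [norm_smul, mul_pow, Real.norm_eq_abs, sq_abs, hs]
      linarith
    have k4 : Cost (img (ℝ ∙ v)ᗮ.starProjection N) idL (Real.sqrt 2 ^ 2 * c) :=
      k3.scale (Real.sqrt_pos.2 (by norm_num)) fun u hu => mem_img.2 ⟨u, hu, rfl⟩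
    rw [hs] at k4
    exact cost_split (ℝ ∙ v) (N' := N ⊓ (ℝ ∙ v).restrictScalars ℤ)
      (fun u a1 a2 => Submodule.mem_inf.2 ⟨a1, a2⟩) (fun u hu => mem_img.2 ⟨u, hu, rfl⟩) k1 k4

end Vale.Agent.P160F.RM
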