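import Vale.Agent.P160F.RMVol

/-!
The deficit of `hd` against `‖D y‖²` on the Voronoi cell is `o(‖D - 1‖)`.
For `‖D - 1‖ ≤ t ≤ 1/2`: `(1-t)‖z‖ ≤ ‖D z‖ ≤ (1+t)‖z‖`. Let
`bad t = {y | ∃ l ∈ L, l ≠ 0 ∧ (1-t)‖y - l‖ < (1+t)‖y‖}` (open, increasing in `t`). For `y ∈ V`:
`hd L D y ≥ (1-t)²‖y‖² ≥ ‖D y‖² - 4 t R²`, and `hd L D y = ‖D y‖²` off `bad t`.
`⋂ n, bad (1/(n+2)) ∩ V` lies in the null set of `vor_strict` (only the finitely many `l` with
`‖y - l‖ ≤ 3 ‖y‖` matter, `lat_finite`), so `unif V (bad (1/(n+2))) → 0`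
(`tendsto_measure_iInter_atTop`).
-/

open MeasureTheory

namespace Vale.Agent.P160F.RM

variable {k : ℕ}

theorem hd_nonneg (L : Submodule ℤ (E k)) (D : E k →L[ℝ] E k) (y : E k) : 0 ≤ hd L D y := by
  exact Real.iInf_nonneg fun _ => sq_nonneg _

theorem hd_le (L : Submodule ℤ (E k)) (D : E k →L[ℝ] E k) (y : E k) :
    hd L D y ≤ ‖D y‖ ^ 2 := by
  have h := ciInf_le (f := fun l : L => ‖D (y - l)‖ ^ 2)
    ⟨0, Set.forall_mem_range.2 fun _ => sq_nonneg _⟩ 0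
  rwa [ZeroMemClass.coe_zero, sub_zero] at h

theorem hd_add (L : Submodule ℤ (E k)) (D : E k →L[ℝ] E k) (y : E k) {l : E k} (hl : l ∈ L) :
    hd L D (y + l) = hd L D y := by
  refine (Equiv.iInf_congr (Equiv.addRight (⟨l, hl⟩ : L)) fun m => ?_).symm
  simp

theorem hd_measurable (b : Module.Basis (Fin k) ℝ (E k)) (D : E k →L[ℝ] E k) :
    Measurable (hd (lat b) D) := by
  exact Measurable.iInf fun l => by fun_prop

/-- the points that are almost on a bisector -/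
def defBad (L : Submodule ℤ (E k)) (s : ℝ) : Set (E k) :=
  {y | ∃ l ∈ L, l ≠ 0 ∧ (1 - s) * ‖y - l‖ < (1 + s) * ‖y‖}

theorem defBad_open (L : Submodule ℤ (E k)) (s : ℝ) : IsOpen (defBad L s) := by
  have e : defBad L s = ⋃ l ∈ {l | l ∈ L ∧ l ≠ 0}, {y | (1 - s) * ‖y - l‖ < (1 + s) * ‖y‖} := by
    ext y
    simp [defBad, and_assoc]
  rw [e]
  exact isOpen_biUnion fun l _ => isOpen_lt (by fun_prop) (by fun_prop)

theorem defBad_mono (L : Submodule ℤ (E k)) : Monotone (defBad L) := by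
  rintro s s' h y ⟨l, h1, h2, h3⟩
  refine ⟨l, h1, h2, ?_⟩
  nlinarith [norm_nonneg (y - l), norm_nonneg y]

theorem defBad_ev (b : Module.Basis (Fin k) ℝ (E k)) {y : E k} (hy : y ∈ Vor (lat b))
    (hs : ∀ l ∈ lat b, l ≠ 0 → ‖y‖ ≠ ‖y - l‖) : ∀ᶠ s in nhds (0 : ℝ), y ∉ defBad (lat b) s := by
  have h1 : ∀ᶠ s in nhds (0 : ℝ), ∀ l ∈ {l : E k | l ∈ lat b ∧ ‖y - l‖ ≤ 3 * ‖y‖},
      l ≠ 0 → (1 + s) * ‖y‖ < (1 - s) * ‖y - l‖ := by
    refine (Filter.eventually_all_finite (lat_finite b y _)).2 fun l hl => ?_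
    by_cases h0 : l = 0
    · exact Filter.Eventually.of_forall fun s h => absurd h0 h
    · refine (ContinuousAt.eventually_lt (f := fun s : ℝ => (1 + s) * ‖y‖)
        (g := fun s : ℝ => (1 - s) * ‖y - l‖) (by fun_prop) (by fun_prop) ?_).mono
        fun s h _ => h
      simpa using lt_of_le_of_ne (hy l hl.1) (hs l hl.1 h0)
  filter_upwards [h1, Iio_mem_nhds (show (0 : ℝ) < 1 / 2 by norm_num)] with s h2 h3
  rintro ⟨l, a1, a2, a3⟩
  have h4 : s < 1 / 2 := h3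
  by_cases h5 : ‖y - l‖ ≤ 3 * ‖y‖
  · exact lt_asymm a3 (h2 l ⟨a1, h5⟩ a2)
  · nlinarith [norm_nonneg y, not_le.1 h5]

theorem defBad_small (b : Module.Basis (Fin k) ℝ (E k)) {η : ℝ} (hη : 0 < η) :
    ∃ s > 0, s ≤ 1 ∧ (unif (Vor (lat b))).real (defBad (lat b) s) ≤ η := by
  have := unif_prob (vor_body b)
  have h0 : Filter.Tendsto (fun n : ℕ => 1 / ((n : ℝ) + 1)) Filter.atTop (nhds 0) :=
    tendsto_one_div_add_atTop_nhds_zero_nat
  have h1 := tendsto_measure_iInter_atTop (μ := unif (Vor (lat b)))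
    (s := fun n : ℕ => defBad (lat b) (1 / ((n : ℝ) + 1)))
    (fun n => (defBad_open _ _).measurableSet.nullMeasurableSet)
    (fun n m h => defBad_mono _ (Nat.one_div_le_one_div h)) ⟨0, measure_ne_top _ _⟩
  have h2 : unif (Vor (lat b)) (⋂ n : ℕ, defBad (lat b) (1 / ((n : ℝ) + 1))) = 0 := by
    refine measure_eq_zero_iff_ae_notMem.2 ?_
    filter_upwards [unif_ae (vor_body b) (vor_strict b)] with y hy h
    obtain ⟨n, hn⟩ := (h0.eventually (defBad_ev b hy.1 hy.2)).exists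
    exact hn (Set.mem_iInter.1 h n)
  rw [h2] at h1
  obtain ⟨n, hn⟩ := (h1.eventually (Iio_mem_nhds (ENNReal.ofReal_pos.2 hη))).exists
  refine ⟨1 / ((n : ℝ) + 1), by positivity, ?_, ENNReal.toReal_le_of_le_ofReal hη.le hn.le⟩
  rw [div_le_one (by positivity)]
  linarith [Nat.cast_nonneg (α := ℝ) n]

theorem deficit (b : Module.Basis (Fin k) ℝ (E k)) {ε : ℝ} (hε : 0 < ε) :
    ∃ t₀ > 0, ∀ t, 0 < t → t ≤ t₀ → ∀ D : E k →L[ℝ] E k, ‖D - 1‖ ≤ t →
      ∫ y, ‖D y‖ ^ 2 ∂(unif (Vor (lat b))) - ε * t ≤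
        ∫ y, hd (lat b) D y ∂(unif (Vor (lat b))) := by
  have := unif_prob (vor_body b)
  obtain ⟨R, hR0, hR⟩ := (vor_body b).1.isBounded.exists_pos_norm_le
  obtain ⟨s, hs0, hs1, hs⟩ := defBad_small b (η := ε / (4 * R ^ 2)) (by positivity)
  refine ⟨s, hs0, fun t ht hts D hD => ?_⟩
  have h1 : ∀ z, ‖D z - z‖ ≤ t * ‖z‖ := fun z => (D - 1).le_of_opNorm_le hD z
  have up : ∀ z, ‖D z‖ ≤ (1 + t) * ‖z‖ := fun z => by linarith [h1 z, norm_sub_norm_le (D z) z]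
  have lo : ∀ z, (1 - t) * ‖z‖ ≤ ‖D z‖ := fun z => by
    linarith [h1 z, norm_sub_norm_le z (D z), norm_sub_rev z (D z)]
  have mB := (defBad_open (lat b) s).measurableSet
  have i1 : Integrable (fun y => ‖D y‖ ^ 2) (unif (Vor (lat b))) :=
    unif_integrable (vor_body b) (by fun_prop)
  have i2 : Integrable (hd (lat b) D) (unif (Vor (lat b))) :=
    i1.mono' (hd_measurable b D).aestronglyMeasurable (Filter.Eventually.of_forall fun y => by
      rw [Real.norm_of_nonneg (hd_nonneg _ _ _)]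
      exact hd_le _ _ _)
  have i3 : Integrable ((defBad (lat b) s).indicator fun _ => 4 * R ^ 2 * t)
      (unif (Vor (lat b))) := (integrable_const _).indicator mB
  have h2 := integral_mono_ae (i1.sub i3) i2 (by
    filter_upwards [unif_ae (vor_body b) (vor_strict b)] with y ⟨hy, _⟩
    refine le_ciInf fun l => ?_
    have n0 := norm_nonneg y
    rw [Pi.sub_apply]
    by_cases hb : y ∈ defBad (lat b) s
    · rw [Set.indicator_of_mem hb]
      have a1 : ‖D y‖ ^ 2 ≤ ((1 + t) * ‖y‖) ^ 2 := pow_le_pow_left₀ (norm_nonneg _) (up y) 2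
      have a2 : ((1 - t) * ‖y‖) ^ 2 ≤ ‖D (y - l)‖ ^ 2 :=
        pow_le_pow_left₀ (mul_nonneg (by linarith) n0)
          ((mul_le_mul_of_nonneg_left (hy l l.2) (by linarith)).trans (lo _)) 2
      have a3 : ‖y‖ ^ 2 * t ≤ R ^ 2 * t :=
        mul_le_mul_of_nonneg_right (pow_le_pow_left₀ n0 (hR y hy) 2) ht.le
      nlinarith
    · rw [Set.indicator_of_notMem hb, sub_zero]
      by_cases h0 : (l : E k) = 0
      · rw [h0, sub_zero]
      · have a1 : (1 + s) * ‖y‖ ≤ (1 - s) * ‖y - l‖ := not_lt.1 fun h => hb ⟨l, l.2, h0, h⟩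
        refine pow_le_pow_left₀ (norm_nonneg _) ?_ 2
        nlinarith [up y, lo (y - l), norm_nonneg (y - l)])
  simp only [Pi.sub_apply] at h2
  rw [integral_sub i1 i3, integral_indicator_const _ mB, smul_eq_mul] at h2
  have h3 := mul_le_mul_of_nonneg_right ((le_div_iff₀ (by positivity)).1 hs) ht.le
  linarith

end Vale.Agent.P160F.RM
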