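import Vale.Agent.P160F.RMDefs

/-!
`D (e i) = (1+t) e i`, `D (e j) = (1-t) e j`, identity on the other `e l`, e.g.
`D = 1 + t • rankOne (e i) (e i) - t • rankOne (e j) (e j)`; `det D = 1 - t²`
(the matrix in the basis `e` is diagonal); norms by Parseval in the basis `e`.
-/

open MeasureTheory

namespace Vale.Agent.P160F.RM

variable {k : ℕ}

/-- the diagonal operator -/
noncomputable def diagOp (e : OrthonormalBasis (Fin k) ℝ (E k)) (d : Fin k → ℝ) : E k →L[ℝ] E k :=
  LinearMap.toContinuousLinearMap (Matrix.toLin e.toBasis e.toBasis (Matrix.diagonal d))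

theorem diagOp_det (e : OrthonormalBasis (Fin k) ℝ (E k)) (d : Fin k → ℝ) :
    (diagOp e d).det = ∏ l, d l := by
  rw [diagOp, LinearMap.det_toContinuousLinearMap, LinearMap.det_toLin, Matrix.det_diagonal]

theorem diagOp_inner (e : OrthonormalBasis (Fin k) ℝ (E k)) (d : Fin k → ℝ) (y : E k) (m : Fin k) :
    inner ℝ (e m) (diagOp e d y) = d m * inner ℝ (e m) y := by
  have h : diagOp e d y = ∑ l, (d l * inner ℝ (e l) y) • e l := by
    simp [diagOp, Matrix.toLin_apply, Matrix.mulVec_diagonal, e.repr_apply_apply]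
  rw [h, e.orthonormal.inner_right_fintype]

theorem exists_diag (e : OrthonormalBasis (Fin k) ℝ (E k)) {i j : Fin k} (hij : i ≠ j) {t : ℝ}
    (h0 : 0 ≤ t) (h1 : t ≤ 1) :
    ∃ D : E k →L[ℝ] E k, ‖D - 1‖ ≤ t ∧ |D.det| ≤ 1 ∧
      ∀ y, ‖y‖ ^ 2 + 2 * t * (inner ℝ (e i) y ^ 2 - inner ℝ (e j) y ^ 2) ≤ ‖D y‖ ^ 2 := by
  classical
  let s : Fin k → ℝ := fun l => (if l = i then 1 else 0) - if l = j then 1 else 0
  have hs : ∀ l, s l ^ 2 ≤ 1 := fun l => by
    simp only [s]
    split_ifs <;> norm_num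
  refine ⟨diagOp e fun l => 1 + t * s l, ?_, ?_, fun y => ?_⟩
  · refine ContinuousLinearMap.opNorm_le_bound _ h0 fun y => ?_
    refine abs_le_of_sq_le_sq' ?_ (by positivity) |>.2
    rw [mul_pow, ← e.sum_sq_inner_right, ← e.sum_sq_inner_right y, Finset.mul_sum]
    refine Finset.sum_le_sum fun l _ => ?_
    rw [sub_apply, inner_sub_right, diagOp_inner]
    have e1 : (1 + t * s l) * inner ℝ (e l) y - inner ℝ (e l) ((1 : E k →L[ℝ] E k) y) =
        s l * (t * inner ℝ (e l) y) := by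
      simp only [one_apply_eq_self]
      ring
    rw [e1, mul_pow, ← mul_pow t]
    exact mul_le_of_le_one_left (sq_nonneg _) (hs l)
  · rw [diagOp_det, Finset.prod_eq_mul i j hij (fun l _ hl => by simp [s, hl.1, hl.2])
      (by simp) (by simp)]
    simp only [s, if_pos, hij, hij.symm, if_false]
    rw [abs_le]
    constructor <;> nlinarith
  · have e2 : inner ℝ (e i) y ^ 2 - inner ℝ (e j) y ^ 2 = ∑ l, s l * inner ℝ (e l) y ^ 2 := by
      simp [s, sub_mul, Finset.sum_sub_distrib]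
    rw [e2, ← e.sum_sq_inner_right, ← e.sum_sq_inner_right (diagOp _ _ y), Finset.mul_sum,
      ← Finset.sum_add_distrib]
    refine Finset.sum_le_sum fun l _ => ?_
    rw [diagOp_inner]
    nlinarith [sq_nonneg (t * s l * inner ℝ (e l) y)]

end Vale.Agent.P160F.RM
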