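import Vale.Agent.P160F.RMDefs

/-!
Gram determinants.
* `gram_det_le`: `Matrix.posSemidef_opNorm_smul_gram_sub_gram` (or directly) and monotonicity of
  `det` on the positive semidefinite order (copy `det_mono` of `Vale/Agent/P231/MatA.lean` or
  `det_mono_real` of `Vale/Agent/P272/PPa1.lean` into this file, do not import).
* `gram_det_sum`: write `u j = Q (u j) + ∑ i, a i j • v i`; the Gram matrix of `v ⊕ u` is
  `Uᵀ (fromBlocks (gram v) 0 0 (gram (Q u))) U` with `U = fromBlocks 1 a 0 1`.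
* `gram_det_full`: reindex to `Fin k`, `Matrix.gram_eq_conjTranspose_mul` with the standard basis.
-/

open MeasureTheory

namespace Vale.Agent.P160F.RM

variable {m m' : ℕ} {ι κ : Type} [Fintype ι] [DecidableEq ι] [Fintype κ] [DecidableEq κ]

open scoped MatrixOrder Matrix in
theorem RMGram_root {M : Matrix ι ι ℝ} (hM : M.PosDef) :
    ∃ R : Matrix ι ι ℝ, R * M * Rᵀ = 1 := by
  obtain ⟨R, hR⟩ := CStarAlgebra.nonneg_iff_eq_star_mul_self.1
    (Matrix.nonneg_iff_posSemidef.2 hM.inv.posSemidef)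
  rw [Matrix.star_eq_conjTranspose, Matrix.conjTranspose_eq_transpose_of_trivial] at hR
  refine ⟨R, ?_⟩
  rw [Matrix.mul_assoc, mul_eq_one_comm, Matrix.mul_assoc, ← hR,
    Matrix.mul_nonsing_inv _ (isUnit_iff_ne_zero.2 hM.det_pos.ne')]

theorem RMGram_one_add {H : Matrix ι ι ℝ} (hH : H.IsHermitian) :
    (1 + H).det = ∏ i, (1 + hH.eigenvalues i) := by
  have h1 := congrArg (Polynomial.eval (-1 : ℝ)) hH.charpoly_eq
  have h2 : Matrix.scalar ι (-1 : ℝ) - H = -(1 + H) := by
    rw [map_neg, map_one, neg_add, sub_eq_add_neg]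
  have h3 : ∀ i, Polynomial.eval (-1 : ℝ)
      (Polynomial.X - Polynomial.C (RCLike.ofReal (hH.eigenvalues i) : ℝ)) =
      -1 * (1 + hH.eigenvalues i) := fun i => by
    rw [Polynomial.eval_sub, Polynomial.eval_X, Polynomial.eval_C, RCLike.ofReal_real_eq_id, id]
    ring
  rw [Matrix.eval_charpoly, h2, Matrix.det_neg, Polynomial.eval_prod] at h1
  simp only [h3, Finset.prod_mul_distrib, Finset.prod_const, Finset.card_univ] at h1
  exact mul_left_cancel₀ (pow_ne_zero _ (by norm_num)) h1

open scoped Matrix in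
theorem RMGram_mono {P Q : Matrix ι ι ℝ} (hP : P.PosSemidef) (hQ : Q.PosSemidef) :
    P.det ≤ (P + Q).det := by
  by_cases h0 : P.det = 0
  · rw [h0]
    exact (hP.add hQ).det_nonneg
  have hP' : P.PosDef := hP.posDef_iff_det_ne_zero.2 h0
  obtain ⟨R, hR1⟩ := RMGram_root hP'
  have hH : (R * Q * Rᵀ).PosSemidef := by
    have := hQ.mul_mul_conjTranspose_same R
    rwa [Matrix.conjTranspose_eq_transpose_of_trivial] at this
  have h1 : (R * (P + Q) * Rᵀ).det * P.det = (P + Q).det := by
    have h1 := congrArg Matrix.det hR1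
    rw [Matrix.det_mul, Matrix.det_mul, Matrix.det_one] at h1
    rw [Matrix.det_mul, Matrix.det_mul]
    linear_combination (P + Q).det * h1
  rw [Matrix.mul_add, Matrix.add_mul, hR1, RMGram_one_add hH.1] at h1
  have h2 : ∀ i ∈ Finset.univ, (1 : ℝ) ≤ 1 + hH.1.eigenvalues i := fun i _ =>
    le_add_of_nonneg_right (hH.eigenvalues_nonneg i)
  have h4 := Finset.prod_le_prod (fun _ _ => zero_le_one) h2
  rw [Finset.prod_const_one] at h4
  rw [← h1]
  exact le_mul_of_one_le_left hP'.det_pos.le h4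

open scoped Matrix in
omit [DecidableEq ι] in
theorem RMGram_comb (w : ι → E m) (U : Matrix ι ι ℝ) :
    Matrix.gram ℝ (fun j => ∑ i, U i j • w i) = Uᵀ * Matrix.gram ℝ w * U := by
  ext j k
  simp only [Matrix.gram_apply, Matrix.mul_apply, Matrix.transpose_apply, inner_sum, sum_inner,
    real_inner_smul_left, real_inner_smul_right, Finset.sum_mul]
  exact Finset.sum_congr rfl fun _ _ => Finset.sum_congr rfl fun _ _ => by ring

theorem RMGram_sq (w : Fin m → E m) :
    (Matrix.gram ℝ w).det = (EuclideanSpace.basisFun (Fin m) ℝ).toBasis.det w ^ 2 := by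
  rw [Matrix.gram_eq_conjTranspose_mul (EuclideanSpace.basisFun (Fin m) ℝ) w, Matrix.det_mul,
    Matrix.conjTranspose_eq_transpose_of_trivial, Matrix.det_transpose, sq,
    Module.Basis.det_apply]
  rfl

theorem gram_det_le (T : E m →L[ℝ] E m') (v : ι → E m) {a : ℝ} (ha : ‖T‖ ≤ a) :
    (Matrix.gram ℝ (fun i => T (v i))).det ≤
      (a ^ 2) ^ Fintype.card ι * (Matrix.gram ℝ v).det := by
  have h1 := RMGram_mono (Matrix.posSemidef_gram ℝ (T ∘ v))
    (Matrix.posSemidef_opNorm_smul_gram_sub_gram (𝕜 := ℝ) v T)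
  rw [add_sub_cancel, Matrix.det_smul] at h1
  refine le_trans h1 (mul_le_mul_of_nonneg_right ?_ (Matrix.posSemidef_gram ℝ v).det_nonneg)
  gcongr

theorem gram_det_sum (v : ι → E m) (u : κ → E m) :
    (Matrix.gram ℝ (Sum.elim v u)).det = (Matrix.gram ℝ v).det *
      (Matrix.gram ℝ
        (fun j => (Submodule.span ℝ (Set.range v))ᗮ.starProjection (u j))).det := by
  set K := Submodule.span ℝ (Set.range v) with hK
  have h1 : ∀ j, ∃ a : ι → ℝ, ∑ i, a i • v i = K.starProjection (u j) := fun j =>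
    (Submodule.mem_span_range_iff_exists_fun ℝ).1 (K.starProjection_apply_mem (u j))
  choose a ha using h1
  have h2 : Sum.elim v u = fun j => ∑ i,
      Matrix.fromBlocks (1 : Matrix ι ι ℝ) (Matrix.of fun i j => a j i) 0 (1 : Matrix κ κ ℝ) i j •
        Sum.elim v (fun j => Kᗮ.starProjection (u j)) i := by
    funext j
    cases j with
    | inl j => simp [Fintype.sum_sum_type, Matrix.one_apply, ite_smul]
    | inr j =>
      simp only [Fintype.sum_sum_type, Matrix.fromBlocks_apply₁₂, Matrix.fromBlocks_apply₂₂,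
        Matrix.of_apply, Sum.elim_inl, Sum.elim_inr, ha, Matrix.one_apply, ite_smul, one_smul,
        zero_smul, Finset.sum_ite_eq', Finset.mem_univ, if_true]
      exact (K.starProjection_add_starProjection_orthogonal (u j)).symm
  have h3 : Matrix.gram ℝ (Sum.elim v (fun j => Kᗮ.starProjection (u j))) =
      Matrix.fromBlocks (Matrix.gram ℝ v) 0 0
        (Matrix.gram ℝ (fun j => Kᗮ.starProjection (u j))) := by
    have h4 : ∀ i j, inner ℝ (v i) (Kᗮ.starProjection (u j)) = 0 := fun i j =>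
      Submodule.inner_right_of_mem_orthogonal (K := K) (Submodule.subset_span ⟨i, rfl⟩)
        (Kᗮ.starProjection_apply_mem (u j))
    ext i j
    rcases i with i | i <;> rcases j with j | j
    · rfl
    · exact h4 i j
    · exact (real_inner_comm _ _).trans (h4 j i)
    · rfl
  rw [h2, RMGram_comb, h3, Matrix.det_mul, Matrix.det_mul, Matrix.det_transpose,
    Matrix.det_fromBlocks_zero₂₁, Matrix.det_fromBlocks_zero₂₁, Matrix.det_one, Matrix.det_one]
  ring

theorem gram_det_full (T : E m →L[ℝ] E m) (v : ι → E m) (h : Fintype.card ι = m) :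
    (Matrix.gram ℝ (fun i => T (v i))).det = T.det ^ 2 * (Matrix.gram ℝ v).det := by
  have e : Fin m ≃ ι := (Fintype.equivFinOfCardEq h).symm
  have h1 : ∀ w : ι → E m, (Matrix.gram ℝ w).det = (Matrix.gram ℝ (w ∘ e)).det := fun w =>
    (Matrix.det_submatrix_equiv_self e (Matrix.gram ℝ w)).symm
  have h2 := (EuclideanSpace.basisFun (Fin m) ℝ).toBasis.det_comp (T : E m →ₗ[ℝ] E m) (v ∘ e)
  rw [h1, h1 v, RMGram_sq, RMGram_sq, ← mul_pow]
  exact congrArg (· ^ 2) h2

theorem gram_det_smul (a : ℝ) (v : ι → E m) :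
    (Matrix.gram ℝ (fun i => a • v i)).det =
      (a ^ 2) ^ Fintype.card ι * (Matrix.gram ℝ v).det := by
  rw [← Matrix.det_smul]
  congr 1
  ext i j
  simp only [Matrix.gram_apply, Matrix.smul_apply, real_inner_smul_left, real_inner_smul_right,
    smul_eq_mul]
  ring

end Vale.Agent.P160F.RM
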