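import Vale.Agent.P160F.RMIso
import Vale.Agent.P160F.RMCrude
import Vale.Agent.P160F.RMGram

/-! The variational step: a near-maximiser with no nearly tight proper family has small cost. -/

open MeasureTheory

namespace Vale.Agent.P160F.RM

theorem det_adj {k : ℕ} (T : E k →L[ℝ] E k) : (ContinuousLinearMap.adjoint T).det = T.det := by
  have e := (EuclideanSpace.basisFun (Fin k) ℝ)
  have h : ((ContinuousLinearMap.adjoint T : E k →L[ℝ] E k) : E k →ₗ[ℝ] E k) =
      LinearMap.adjoint (T : E k →ₗ[ℝ] E k) := by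
    rw [LinearMap.eq_adjoint_iff]
    intro x y
    exact ContinuousLinearMap.adjoint_inner_left T y x
  unfold ContinuousLinearMap.det
  rw [h, ← LinearMap.det_toMatrix e.toBasis, LinearMap.toMatrix_adjoint e e,
    Matrix.det_conjTranspose, LinearMap.det_toMatrix]
  simp

theorem norm_adj_sub {k : ℕ} (T : E k →L[ℝ] E k) :
    ‖ContinuousLinearMap.adjoint T - 1‖ = ‖T - 1‖ := by
  have h : ContinuousLinearMap.adjoint T - 1 = ContinuousLinearMap.adjoint (T - 1) := by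
    rw [map_sub, ContinuousLinearMap.adjoint_one]
  rw [h, LinearIsometryEquiv.norm_map]

theorem norm_le_of_sub {k : ℕ} {T : E k →L[ℝ] E k} {δ : ℝ} (h : ‖T - 1‖ ≤ δ) : ‖T‖ ≤ 1 + δ := by
  have h1 : ‖(1 : E k →L[ℝ] E k)‖ ≤ 1 := ContinuousLinearMap.norm_id_le
  have h2 := norm_add_le (1 : E k →L[ℝ] E k) (T - 1)
  rw [add_sub_cancel] at h2
  linarith

theorem exists_inv {k : ℕ} {U : E k →L[ℝ] E k} (h : ‖U - 1‖ < 1) :
    ∃ A : E k →L[ℝ] E k, U * A = 1 ∧ A * U = 1 := by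
  have h1 : IsUnit (1 - (1 - U)) := isUnit_one_sub_of_norm_lt_one (by rwa [norm_sub_rev])
  rw [sub_sub_cancel] at h1
  obtain ⟨w, rfl⟩ := h1
  exact ⟨↑w⁻¹, w.mul_inv, w.inv_mul⟩

theorem rk_le {k : ℕ} (N : Submodule ℤ (E k)) : rk N ≤ k := by
  have := Submodule.finrank_le (Submodule.span ℝ (N : Set (E k)))
  rwa [finrank_euclideanSpace_fin] at this

section Pull

variable {k : ℕ} {N : Submodule ℤ (E k)} {U A : E k →L[ℝ] E k}

theorem rk_pre (hr : rk N = k) (h : U * A = 1) : rk (pre U N) = k := by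
  refine le_antisymm (rk_le _) ?_
  have h1 : img U (pre U N) = N := by
    ext y
    rw [mem_img]
    constructor
    · rintro ⟨x, hx, rfl⟩
      exact mem_pre.1 hx
    · intro hy
      have e : U (A y) = y := by
        rw [← mul_apply_eq_comp, h, one_apply_eq_self]
      exact ⟨A y, by rwa [mem_pre, e], e⟩
  have h2 := rk_img_le U (pre U N)
  rwa [h1, hr] at h2

theorem cl_pre (hN : Cl N) (h : A * U = 1) {η δ : ℝ} (hδ : 0 < δ)
    (hη : ((1 + δ) ^ 2) ^ k ≤ 1 + η)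
    (hB : ∀ (ι : Type) [Fintype ι] [DecidableEq ι] (v : ι → E k), (∀ i, v i ∈ N) →
      LinearIndependent ℝ v → 0 < Fintype.card ι → Fintype.card ι < k →
      1 + η ≤ (Matrix.gram ℝ v).det)
    (hU : ‖U‖ ≤ 1 + δ) (hdet : |U.det| ≤ 1) : Cl (pre U N) := by
  intro ι _ _ v hv hli
  have hker : LinearMap.ker (U : E k →ₗ[ℝ] E k) = ⊥ := by
    rw [LinearMap.ker_eq_bot']
    intro x hx
    have e : A (U x) = x := by
      rw [← mul_apply_eq_comp, h, one_apply_eq_self]
    have hx' : U x = 0 := hx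
    rw [hx', map_zero] at e
    exact e.symm
  have hli' : LinearIndependent ℝ (fun i => U (v i)) := hli.map' (U : E k →ₗ[ℝ] E k) hker
  have hmem : ∀ i, U (v i) ∈ N := fun i => mem_pre.1 (hv i)
  have hg0 : 0 ≤ (Matrix.gram ℝ v).det := (Matrix.posSemidef_gram ℝ v).det_nonneg
  have hcard : Fintype.card ι ≤ k := by
    have := hli.fintype_card_le_finrank
    rwa [finrank_euclideanSpace_fin] at this
  rcases Nat.eq_zero_or_pos (Fintype.card ι) with h0 | h0
  · have := Fintype.card_eq_zero_iff.1 h0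
    rw [Matrix.det_isEmpty]
  rcases hcard.eq_or_lt with hk | hk
  · have h1 := hN ι _ hmem hli'
    rw [gram_det_full U v hk] at h1
    have h2 : U.det ^ 2 ≤ 1 := by
      rw [← sq_abs]
      exact pow_le_one₀ (abs_nonneg _) hdet
    nlinarith
  · have h1 := hB ι _ hmem hli' h0 hk
    have h2 := gram_det_le U v hU
    have h3 : (1 : ℝ) ≤ (1 + δ) ^ 2 := one_le_pow₀ (by linarith)
    have h4 : ((1 + δ) ^ 2) ^ Fintype.card ι ≤ ((1 + δ) ^ 2) ^ k := pow_le_pow_right₀ h3 hk.le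
    have h5 : (1 : ℝ) ≤ ((1 + δ) ^ 2) ^ k := one_le_pow₀ h3
    have h6 : 1 + η ≤ (1 + η) * (Matrix.gram ℝ v).det :=
      h1.trans (h2.trans (mul_le_mul_of_nonneg_right (h4.trans hη) hg0))
    by_contra hlt
    push Not at hlt
    nlinarith

theorem cost_pre {T : E k →L[ℝ] E k} (h : A * ContinuousLinearMap.adjoint T = 1)
    (D : E k →L[ℝ] E k) {c : ℝ} (hc : Cost N (D * T) c) :
    Cost (pre (ContinuousLinearMap.adjoint T) N) D c := by
  refine Cost.push T D hc fun u hu h0 => ⟨mem_pre.1 hu, fun hz => h0 ?_⟩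
  have e : A (ContinuousLinearMap.adjoint T u) = u := by
    rw [← mul_apply_eq_comp, h, one_apply_eq_self]
  rw [hz, map_zero] at e
  exact e.symm

theorem cost_of_pre {T : E k →L[ℝ] E k} (h : ContinuousLinearMap.adjoint T * A = 1)
    (h' : A * ContinuousLinearMap.adjoint T = 1) {c : ℝ}
    (hc : Cost (pre (ContinuousLinearMap.adjoint T) N) idL c) : Cost N T c := by
  have e0 : T.comp (ContinuousLinearMap.adjoint A) = idL := by
    have := congrArg ContinuousLinearMap.adjoint h'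
    rwa [ContinuousLinearMap.mul_def, ContinuousLinearMap.adjoint_comp,
      ContinuousLinearMap.adjoint_adjoint, ContinuousLinearMap.adjoint_one] at this
  rw [← e0] at hc
  refine Cost.push (ContinuousLinearMap.adjoint A) T hc fun u hu h0 => ?_
  rw [ContinuousLinearMap.adjoint_adjoint]
  have e : ContinuousLinearMap.adjoint T (A u) = u := by
    rw [← mul_apply_eq_comp, h, one_apply_eq_self]
  refine ⟨by rwa [mem_pre, e], fun hz => h0 ?_⟩
  rw [hz, map_zero] at e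
  exact e.symm

end Pull

theorem Cl.cost {m : ℕ} {N : Submodule ℤ (E m)} (hN : Cl N) : ∃ c, Cost N idL c := by
  obtain ⟨c, hc⟩ := crude (rk N)
  exact ⟨c, hc m N le_rfl fun u hu h0 => hN.norm_ge hu h0⟩

theorem eke {k : ℕ} {S : ℝ} (hS : ∀ N : Submodule ℤ (E k), Cl N → rk N = k → F N idL ≤ S)
    {N : Submodule ℤ (E k)} (hN : Cl N) (hr : rk N = k) {η δ : ℝ} (hδ : 0 < δ) (hδ1 : δ ≤ 1 / 2)
    (hη : ((1 + δ) ^ 2) ^ k ≤ 1 + η)
    (hB : ∀ (ι : Type) [Fintype ι] [DecidableEq ι] (v : ι → E k), (∀ i, v i ∈ N) →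
      LinearIndependent ℝ v → 0 < Fintype.card ι → Fintype.card ι < k →
      1 + η ≤ (Matrix.gram ℝ v).det)
    (hF : S - δ / 8 < F N idL) : F N idL ≤ 2 * k := by
  by_contra hlt
  push Not at hlt
  obtain ⟨c₀, hc₀⟩ := hN.cost
  have hK : IsCompact {T : E k →L[ℝ] E k | ‖T - 1‖ ≤ δ ∧ |T.det| ≤ 1} := by
    have h1 : IsClosed {T : E k →L[ℝ] E k | |T.det| ≤ 1} :=
      isClosed_le (ContinuousLinearMap.continuous_det.abs) continuous_const
    have h2 := (isCompact_closedBall (1 : E k →L[ℝ] E k) δ).inter_right h1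
    refine h2.of_isClosed_subset ?_ ?_
    · have h3 : IsClosed {T : E k →L[ℝ] E k | ‖T - 1‖ ≤ δ} :=
        isClosed_le (by fun_prop) continuous_const
      exact h3.inter h1
    · intro T hT
      exact ⟨by simpa [dist_eq_norm] using hT.1, hT.2⟩
  have h1K : (1 : E k →L[ℝ] E k) ∈ {T : E k →L[ℝ] E k | ‖T - 1‖ ≤ δ ∧ |T.det| ≤ 1} := by
    refine ⟨by simpa using hδ.le, ?_⟩
    have : (1 : E k →L[ℝ] E k).det = 1 := LinearMap.det_id
    rw [this, abs_one]
  have husc : UpperSemicontinuous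
      (fun T : E k →L[ℝ] E k => F N T + -(1 / 4 * ‖T - 1‖)) :=
    (F_usc ⟨c₀, hc₀⟩).add (Continuous.upperSemicontinuous (by fun_prop))
  obtain ⟨T, ⟨hT1, hT2⟩, hmax⟩ :=
    (husc.upperSemicontinuousOn _).exists_isMaxOn ⟨1, h1K⟩ hK
  have hU1 : ‖ContinuousLinearMap.adjoint T - 1‖ ≤ δ := by rwa [norm_adj_sub]
  obtain ⟨A, hA1, hA2⟩ := exists_inv (U := ContinuousLinearMap.adjoint T) (by linarith)
  have hcl : Cl (pre (ContinuousLinearMap.adjoint T) N) :=
    cl_pre hN hA2 hδ hη hB (norm_le_of_sub hU1) (by rwa [det_adj])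
  have hrk := rk_pre hr hA1
  have hc1 : F N T ≤ F (pre (ContinuousLinearMap.adjoint T) N) idL :=
    le_F hcl.cost fun c hc => F_le (cost_of_pre hA1 hA2 hc)
  have hm1 : F N idL + -(1 / 4 * ‖(1 : E k →L[ℝ] E k) - 1‖) ≤ F N T + -(1 / 4 * ‖T - 1‖) :=
    hmax h1K
  rw [sub_self, norm_zero] at hm1
  have hS1 := hS _ hcl hrk
  have hn0 := norm_nonneg (T - 1)
  obtain ⟨t, ht0, ht1, D, hD1, hD2, hD3⟩ :=
    iso hcl hrk (by linarith) (t₀ := δ / 4) (by linarith)
  have hc2 : F (pre (ContinuousLinearMap.adjoint T) N) D ≤ F N (D * T) :=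
    le_F (hc₀.any _) fun c hc => F_le (cost_pre hA2 D hc)
  have hdist : ‖D * T - 1‖ ≤ ‖T - 1‖ + 2 * t := by
    have e : D * T - 1 = (T - 1) + (D - 1) * T := by
      rw [sub_mul, one_mul]
      abel
    have h1 := norm_add_le (T - 1) ((D - 1) * T)
    have h2 := norm_mul_le (D - 1) T
    have h3 := norm_le_of_sub hT1
    have h4 : ‖D - 1‖ * ‖T‖ ≤ t * 2 :=
      mul_le_mul hD1 (by linarith) (norm_nonneg _) ht0.le
    rw [e]
    linarith
  have hdet : |(D * T).det| ≤ 1 := by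
    have e : (D * T).det = D.det * T.det := LinearMap.det_comp _ _
    rw [e, abs_mul]
    exact mul_le_one₀ hD2 (abs_nonneg _) hT2
  have hm2 : F N (D * T) + -(1 / 4 * ‖D * T - 1‖) ≤ F N T + -(1 / 4 * ‖T - 1‖) :=
    hmax ⟨by linarith, hdet⟩
  linarith

end Vale.Agent.P160F.RM
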