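import Mathlib

/-! Counting points with a probability measure whose characteristic function kills differences. -/

namespace Vale.Agent.P160F

open MeasureTheory Real
open scoped RealInnerProductSpace

variable {V : Type*} [NormedAddCommGroup V] [InnerProductSpace ℝ V] [FiniteDimensional ℝ V]
  [MeasurableSpace V] [BorelSpace V]

theorem gau_int {b : ℝ} (hb : 0 < b) : Integrable (fun v : V => exp (-b * ‖v‖ ^ 2)) := by
  have h := (GaussianFourier.integrable_cexp_neg_mul_sq_norm_add (V := V) (b := (b : ℂ))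
    (by simpa using hb) 0 0).norm
  refine h.congr (Filter.Eventually.of_forall fun v => ?_)
  simp only [zero_mul, add_zero]
  rw [Complex.norm_exp]
  congr 1
  simp [← Complex.ofReal_pow]

theorem gau_cos_int {b : ℝ} (hb : 0 < b) (a t : V) :
    Integrable (fun v : V => exp (-b * ‖v + a‖ ^ 2) * cos ⟪t, v⟫) := by
  refine ((gau_int hb).comp_add_right a).mul_bdd (c := 1) ?_ ?_
  · exact (by fun_prop : Continuous fun v : V => cos ⟪t, v⟫).aestronglyMeasurable
  · exact Filter.Eventually.of_forall fun v => by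
      rw [Real.norm_eq_abs]; exact abs_cos_le_one _

theorem gau_cos {b : ℝ} (hb : 0 < b) (t : V) :
    ∫ v : V, exp (-b * ‖v‖ ^ 2) * cos ⟪t, v⟫ =
      (π / b) ^ (Module.finrank ℝ V / 2 : ℝ) * exp (-(‖t‖ ^ 2 / (4 * b))) := by
  have hb' : 0 < (b : ℂ).re := by simpa using hb
  have h := GaussianFourier.integral_cexp_neg_mul_sq_norm_add (V := V) hb' Complex.I t
  have hi := GaussianFourier.integrable_cexp_neg_mul_sq_norm_add (V := V) hb' Complex.I t
  have h2 := congrArg Complex.re h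
  have e := integral_re hi
  simp only [RCLike.re_to_complex] at e
  rw [← e] at h2
  have e1 : ∀ v : V, (Complex.exp (-(b : ℂ) * (‖v‖ : ℂ) ^ 2 + Complex.I * (⟪t, v⟫ : ℝ))).re =
      exp (-b * ‖v‖ ^ 2) * cos ⟪t, v⟫ := by
    intro v
    rw [Complex.exp_re]
    simp [← Complex.ofReal_pow]
  simp only [e1] at h2
  rw [h2]
  have e2 : ((π : ℂ) / b) ^ ((Module.finrank ℝ V : ℂ) / 2) =
      (((π / b) ^ (Module.finrank ℝ V / 2 : ℝ) : ℝ) : ℂ) := by
    rw [Complex.ofReal_cpow (by positivity)]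
    push_cast
    rfl
  have e3 : Complex.I ^ 2 * (‖t‖ : ℂ) ^ 2 / (4 * b) = ((-(‖t‖ ^ 2 / (4 * b)) : ℝ) : ℂ) := by
    rw [Complex.I_sq]
    push_cast
    ring
  rw [e2, e3, ← Complex.ofReal_exp, ← Complex.ofReal_mul, Complex.ofReal_re]

theorem gau_shift {b : ℝ} (hb : 0 < b) (t y : V) :
    ∫ v : V, (exp (-b * ‖v + y‖ ^ 2) + exp (-b * ‖v + -y‖ ^ 2)) * cos ⟪t, v⟫ =
      2 * cos ⟪t, y⟫ * ∫ v : V, exp (-b * ‖v‖ ^ 2) * cos ⟪t, v⟫ := by
  have h1 : ∀ a : V, ∫ v : V, exp (-b * ‖v + a‖ ^ 2) * cos ⟪t, v⟫ =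
      ∫ v : V, exp (-b * ‖v‖ ^ 2) * cos ⟪t, v - a⟫ := by
    intro a
    rw [← integral_add_right_eq_self (fun v : V => exp (-b * ‖v‖ ^ 2) * cos ⟪t, v - a⟫) a]
    simp
  have h2 : ∀ a : V, Integrable fun v : V => exp (-b * ‖v‖ ^ 2) * cos ⟪t, v - a⟫ := by
    intro a
    have := (gau_cos_int hb a t).comp_add_right (-a)
    simpa [sub_eq_add_neg] using this
  simp only [add_mul]
  rw [integral_add (gau_cos_int hb y t) (gau_cos_int hb (-y) t), h1, h1,
    ← integral_add (h2 y) (h2 (-y)), ← integral_const_mul]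
  refine integral_congr_ae (Filter.Eventually.of_forall fun v => ?_)
  simp only [sub_neg_eq_add, inner_sub_right, inner_add_right, cos_sub, cos_add]
  ring

omit [FiniteDimensional ℝ V] [MeasurableSpace V] [BorelSpace V] in
theorem gau_cosh (b : ℝ) (v y : V) :
    2 * (exp (-b * ‖y‖ ^ 2) * exp (-b * ‖v‖ ^ 2)) ≤
      exp (-b * ‖v + y‖ ^ 2) + exp (-b * ‖v + -y‖ ^ 2) := by
  rw [← sub_eq_add_neg, norm_add_sq_real, norm_sub_sq_real]
  have e1 : -b * (‖v‖ ^ 2 + 2 * ⟪v, y⟫ + ‖y‖ ^ 2) =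
      (-b * ‖y‖ ^ 2 + -b * ‖v‖ ^ 2) + -(2 * b * ⟪v, y⟫) := by ring
  have e2 : -b * (‖v‖ ^ 2 - 2 * ⟪v, y⟫ + ‖y‖ ^ 2) =
      (-b * ‖y‖ ^ 2 + -b * ‖v‖ ^ 2) + (2 * b * ⟪v, y⟫) := by ring
  rw [e1, e2, exp_add _ (-(2 * b * ⟪v, y⟫)), exp_add _ (2 * b * ⟪v, y⟫), ← exp_add]
  have h1 := add_one_le_exp (-(2 * b * ⟪v, y⟫))
  have h2 := add_one_le_exp (2 * b * ⟪v, y⟫)
  have h3 := exp_pos (-b * ‖y‖ ^ 2 + -b * ‖v‖ ^ 2)
  nlinarith

omit [FiniteDimensional ℝ V] [MeasurableSpace V] [BorelSpace V] in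
theorem psi_nonneg {α : Type*} (S : Finset α) (p : α → V) (v : V) :
    0 ≤ ∑ a ∈ S, ∑ a' ∈ S, cos ⟪p a - p a', v⟫ := by
  have : ∑ a ∈ S, ∑ a' ∈ S, cos ⟪p a - p a', v⟫ =
      (∑ a ∈ S, cos ⟪p a, v⟫) ^ 2 + (∑ a ∈ S, sin ⟪p a, v⟫) ^ 2 := by
    simp only [sq, Finset.sum_mul_sum, ← Finset.sum_add_distrib, inner_sub_left, cos_sub]
  rw [this]
  positivity

theorem gau_key {b : ℝ} (hb : 0 < b) {α : Type*} (S : Finset α) (p : α → V) (y : V) :
    exp (-b * ‖y‖ ^ 2) * ∑ a ∈ S, ∑ a' ∈ S, exp (-(‖p a - p a'‖ ^ 2 / (4 * b))) ≤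
      ∑ a ∈ S, ∑ a' ∈ S, cos ⟪p a - p a', y⟫ * exp (-(‖p a - p a'‖ ^ 2 / (4 * b))) := by
  set Z : ℝ := (π / b) ^ (Module.finrank ℝ V / 2 : ℝ) with hZ
  have hZ0 : 0 < Z := by positivity
  have i0 : ∀ t : V, Integrable fun v : V => exp (-b * ‖v‖ ^ 2) * cos ⟪t, v⟫ := by
    intro t
    simpa using gau_cos_int hb 0 t
  have i1 : ∀ t : V, Integrable fun v : V =>
      (exp (-b * ‖v + y‖ ^ 2) + exp (-b * ‖v + -y‖ ^ 2)) * cos ⟪t, v⟫ := by
    intro t
    simp only [add_mul]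
    exact (gau_cos_int hb y t).add (gau_cos_int hb (-y) t)
  have hm : ∫ v : V, ∑ a ∈ S, ∑ a' ∈ S,
        2 * exp (-b * ‖y‖ ^ 2) * (exp (-b * ‖v‖ ^ 2) * cos ⟪p a - p a', v⟫) ≤
      ∫ v : V, ∑ a ∈ S, ∑ a' ∈ S,
        (exp (-b * ‖v + y‖ ^ 2) + exp (-b * ‖v + -y‖ ^ 2)) * cos ⟪p a - p a', v⟫ := by
    refine integral_mono ?_ ?_ fun v => ?_
    · exact integrable_finsetSum _ fun a _ => integrable_finsetSum _ fun a' _ =>
        (i0 _).const_mul _
    · exact integrable_finsetSum _ fun a _ => integrable_finsetSum _ fun a' _ => i1 _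
    · simp only [← mul_assoc, ← Finset.mul_sum]
      refine mul_le_mul_of_nonneg_right ?_ (psi_nonneg S p v)
      rw [mul_assoc]
      exact gau_cosh b v y
  rw [integral_finsetSum _ fun a _ => integrable_finsetSum _ fun a' _ => (i0 _).const_mul _,
    integral_finsetSum _ fun a _ => integrable_finsetSum _ fun a' _ => i1 _] at hm
  simp only [integral_finsetSum _ fun a' _ => (i0 _).const_mul _,
    integral_finsetSum _ fun a' _ => i1 _, integral_const_mul, gau_shift hb, gau_cos hb,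
    ← hZ] at hm
  refine le_of_mul_le_mul_left ?_ (show 0 < 2 * Z by positivity)
  simp only [Finset.mul_sum]
  refine le_of_eq_of_le ?_ (hm.trans (le_of_eq ?_))
  · refine Finset.sum_congr rfl fun a _ => Finset.sum_congr rfl fun a' _ => by ring
  · refine Finset.sum_congr rfl fun a _ => Finset.sum_congr rfl fun a' _ => by ring

omit [FiniteDimensional ℝ V] in
theorem cos_charFun (ν : Measure V) [IsProbabilityMeasure ν] (t : V) :
    ∫ y, cos ⟪t, y⟫ ∂ν = (charFun ν t).re := by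
  have hi : Integrable (fun y : V => Complex.exp ((⟪y, t⟫ : ℝ) * Complex.I)) ν := by
    refine (integrable_const (1 : ℝ)).mono' ?_ (Filter.Eventually.of_forall fun y => ?_)
    · exact (by fun_prop : Continuous fun y : V =>
        Complex.exp ((⟪y, t⟫ : ℝ) * Complex.I)).aestronglyMeasurable
    · rw [Complex.norm_exp_ofReal_mul_I]
  have e := integral_re hi
  simp only [RCLike.re_to_complex] at e
  rw [charFun_apply, ← e]
  refine integral_congr_ae (Filter.Eventually.of_forall fun y => ?_)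
  simp only [Complex.exp_ofReal_mul_I_re, real_inner_comm]

/-- the counting bound -/
theorem count0 (ν : Measure V) [IsProbabilityMeasure ν] (hi : Integrable (fun y => ‖y‖ ^ 2) ν)
    {c : ℝ} (hc : ∫ y, ‖y‖ ^ 2 ∂ν ≤ c) {s d : ℝ} (hs : 0 < s) {α : Type*} (S : Finset α)
    (p : α → V) (hk : ∀ a ∈ S, ∀ a' ∈ S, a ≠ a' → charFun ν ((2 * π) • (p a - p a')) = 0)
    (hd : ∀ a ∈ S, ∀ a' ∈ S, ‖p a - p a'‖ ≤ d) :
    (S.card : ℝ) ≤ exp (π * c / s ^ 2 + π * s ^ 2 * d ^ 2) := by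
  classical
  rcases S.eq_empty_or_nonempty with rfl | hS
  · simp [(exp_pos _).le]
  have hS0 : (0 : ℝ) < S.card := by exact_mod_cast hS.card_pos
  set b : ℝ := π / s ^ 2 with hb
  have hb0 : 0 < b := by positivity
  set q : α → V := fun a => (2 * π) • p a with hq
  have hqq : ∀ a a', q a - q a' = (2 * π) • (p a - p a') := fun a a' => by
    simp only [hq, smul_sub]
  set A : ℝ := ∑ a ∈ S, ∑ a' ∈ S, exp (-(‖q a - q a'‖ ^ 2 / (4 * b))) with hA
  have hcos : ∀ t : V, Integrable (fun y : V => cos ⟪t, y⟫) ν := by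
    intro t
    refine (integrable_const (1 : ℝ)).mono' ?_ (Filter.Eventually.of_forall fun y => ?_)
    · exact (by fun_prop : Continuous fun y : V => cos ⟪t, y⟫).aestronglyMeasurable
    · rw [Real.norm_eq_abs]; exact abs_cos_le_one _
  have hA0 : 0 ≤ A := Finset.sum_nonneg fun a _ => Finset.sum_nonneg fun a' _ => (exp_pos _).le
  have h1 : ∫ y, exp (-b * c) * (1 + b * c - b * ‖y‖ ^ 2) * A ∂ν ≤
      ∫ y, ∑ a ∈ S, ∑ a' ∈ S,
        cos ⟪q a - q a', y⟫ * exp (-(‖q a - q a'‖ ^ 2 / (4 * b))) ∂ν := by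
    refine integral_mono ?_ ?_ fun y => ?_
    · exact (((integrable_const _).sub (hi.const_mul b)).const_mul _).mul_const _
    · exact integrable_finsetSum _ fun a _ => integrable_finsetSum _ fun a' _ =>
        (hcos _).mul_const _
    · refine le_trans (mul_le_mul_of_nonneg_right ?_ hA0) (gau_key hb0 S q y)
      have e : -b * ‖y‖ ^ 2 = -b * c + (b * c - b * ‖y‖ ^ 2) := by ring
      rw [e, exp_add]
      refine mul_le_mul_of_nonneg_left ?_ (exp_pos _).le
      linarith [add_one_le_exp (b * c - b * ‖y‖ ^ 2)]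
  rw [integral_finsetSum _ fun a _ => integrable_finsetSum _ fun a' _ => (hcos _).mul_const _,
    integral_mul_const, integral_const_mul,
    integral_sub (integrable_const _) (hi.const_mul b), integral_const_mul] at h1
  simp only [integral_finsetSum _ fun a' _ => (hcos _).mul_const _, integral_mul_const,
    cos_charFun, integral_const, probReal_univ, smul_eq_mul, one_mul] at h1
  have h2 : ∑ a ∈ S, ∑ a' ∈ S, (charFun ν (q a - q a')).re *
      exp (-(‖q a - q a'‖ ^ 2 / (4 * b))) = S.card := by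
    rw [Finset.card_eq_sum_ones, Nat.cast_sum]
    refine Finset.sum_congr rfl fun a ha => ?_
    rw [Finset.sum_eq_single a]
    · simp
    · intro a' ha' hne
      rw [hqq, hk a ha a' ha' (Ne.symm hne)]
      simp
    · intro h
      exact absurd ha h
  rw [h2] at h1
  have h3 : (S.card : ℝ) * (S.card * exp (-(π * s ^ 2 * d ^ 2))) ≤ A := by
    rw [← nsmul_eq_mul, ← nsmul_eq_mul]
    refine Finset.card_nsmul_le_sum _ _ _ fun a ha => Finset.card_nsmul_le_sum _ _ _ ?_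
    intro a' ha'
    refine exp_le_exp.2 (neg_le_neg ?_)
    rw [hqq, norm_smul, Real.norm_eq_abs, abs_of_pos (by positivity), hb,
      div_le_iff₀ (by positivity)]
    have h4 : ‖p a - p a'‖ ^ 2 ≤ d ^ 2 := pow_le_pow_left₀ (norm_nonneg _) (hd a ha a' ha') 2
    have h5 : π * s ^ 2 * d ^ 2 * (4 * (π / s ^ 2)) = (2 * π) ^ 2 * d ^ 2 := by
      field_simp
      ring
    rw [h5, mul_pow]
    exact mul_le_mul_of_nonneg_left h4 (by positivity)
  have h6 : exp (-b * c) * A ≤ S.card := by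
    refine le_trans (mul_le_mul_of_nonneg_right ?_ hA0) h1
    refine le_mul_of_one_le_right (exp_pos _).le ?_
    nlinarith [mul_le_mul_of_nonneg_left hc hb0.le]
  have h7 : exp (-b * c) * (S.card * exp (-(π * s ^ 2 * d ^ 2))) ≤ 1 := by
    refine le_of_mul_le_mul_left ?_ hS0
    have := mul_le_mul_of_nonneg_left h3 (exp_pos (-b * c)).le
    nlinarith
  have h8 : π * c / s ^ 2 + π * s ^ 2 * d ^ 2 = -(-b * c + -(π * s ^ 2 * d ^ 2)) := by
    rw [hb]; ring
  rw [h8, exp_neg, exp_add, ← one_div, le_div_iff₀ (by positivity)]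
  linarith

end Vale.Agent.P160F
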