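import Vale.Agent.P160F.RMVor

/-!
`f y = exp (i ⟪y, 2 π u⟫)` is `lat b'`-periodic (`⟪u, l⟫ ∈ ℤ` by span induction); `V` and
`w + V` are both fundamental domains (`vor_fund`), so `∫_V f = ∫_{w + V} f = f w ∫_V f`
(`IsAddFundamentalDomain.setIntegral_eq`); take `w = u / (2 ‖u‖²)`, `f w = -1`.
-/

open MeasureTheory

namespace Vale.Agent.P160F.RM

variable {k : ℕ}

theorem kill_int {b b' : Module.Basis (Fin k) ℝ (E k)} (hb : Dual b b') {u l : E k}
    (hu : u ∈ lat b) (hl : l ∈ lat b') : ∃ z : ℤ, inner ℝ u l = (z : ℝ) := by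
  induction hu using Submodule.span_induction with
  | mem x hx =>
    obtain ⟨i, rfl⟩ := hx
    induction hl using Submodule.span_induction with
    | mem y hy =>
      obtain ⟨j, rfl⟩ := hy
      exact ⟨if i = j then 1 else 0, by rw [hb i j]; split_ifs <;> simp⟩
    | zero => exact ⟨0, by simp⟩
    | add y y' _ _ h h' =>
      obtain ⟨z, h⟩ := h
      obtain ⟨z', h'⟩ := h'
      exact ⟨z + z', by rw [inner_add_right, h, h', Int.cast_add]⟩
    | smul a y _ h =>
      obtain ⟨z, h⟩ := h
      exact ⟨a * z, by rw [← Int.cast_smul_eq_zsmul ℝ, real_inner_smul_right, h, Int.cast_mul]⟩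
  | zero => exact ⟨0, by simp⟩
  | add y y' _ _ h h' =>
    obtain ⟨z, h⟩ := h
    obtain ⟨z', h'⟩ := h'
    exact ⟨z + z', by rw [inner_add_left, h, h', Int.cast_add]⟩
  | smul a y _ h =>
    obtain ⟨z, h⟩ := h
    exact ⟨a * z, by rw [← Int.cast_smul_eq_zsmul ℝ, real_inner_smul_left, h, Int.cast_mul]⟩

theorem vor_kill {b b' : Module.Basis (Fin k) ℝ (E k)} (hb : Dual b b') :
    Kill (unif (Vor (lat b'))) (lat b) := by
  intro u hu h0
  set f : E k → ℂ := fun y => Complex.exp ((inner ℝ y ((2 * Real.pi) • u) : ℝ) * Complex.I) with hf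
  have hadd : ∀ x y, f (x + y) = f x * f y := fun x y => by
    simp only [hf, inner_add_left, Complex.ofReal_add, add_mul, Complex.exp_add]
  have hper : ∀ (l : lat b') (y : E k), f (l +ᵥ y) = f y := fun l y => by
    obtain ⟨z, hz⟩ := kill_int hb hu l.2
    have h1 : f l = 1 := by
      simp only [hf, real_inner_smul_right, real_inner_comm u, hz]
      rw [← Complex.exp_int_mul_two_pi_mul_I z]
      congr 1
      push_cast
      ring
    exact (hadd l y).trans (by rw [h1, one_mul])
  set w : E k := (2 * ‖u‖ ^ 2)⁻¹ • u with hw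
  have h1 : f w = -1 := by
    have hn : ‖u‖ ≠ 0 := norm_ne_zero_iff.2 h0
    have e : inner ℝ w ((2 * Real.pi) • u) = Real.pi := by
      rw [hw, real_inner_smul_left, real_inner_smul_right, real_inner_self_eq_norm_sq]
      field_simp
    simp only [hf, e, Complex.exp_pi_mul_I]
  have h2 : IsAddFundamentalDomain (lat b') ((fun y => w + y) ⁻¹' Vor (lat b'))
      (volume : Measure (E k)) :=
    (vor_fund b').preimage_of_equiv (measurePreserving_add_left volume w).quasiMeasurePreserving
      Function.bijective_id fun g x => add_left_comm w g x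
  have h3 := (measurePreserving_add_left (volume : Measure (E k)) w).setIntegral_preimage_emb
    (measurableEmbedding_addLeft w) f (Vor (lat b'))
  simp only [hadd, h1, neg_one_mul, integral_neg] at h3
  have : VAddInvariantMeasure (lat b') (E k) volume :=
    ⟨fun c s _ => measure_preimage_add volume (c : E k) s⟩
  rw [h2.setIntegral_eq (vor_fund b') hper] at h3
  have h4 : ∫ y in Vor (lat b'), f y = 0 := by linear_combination (-1 / 2 : ℂ) * h3
  rw [charFun_apply, unif, ProbabilityTheory.cond, integral_smul_measure]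
  exact smul_eq_zero_of_right _ h4

end Vale.Agent.P160F.RM
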