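import Vale.Agent.P160F.RMDefs

/-!
Two probability measures killing `lat b` agree on functions periodic under the dual lattice.
Let `π y = fun i => ((inner (b i) y : ℝ) : UnitAddCircle)`, `π : E k → UnitAddTorus (Fin k)`.
`∫ mFourier n ∂(ν.map π) = charFun ν (2 π • ∑ n i • b i)` is `1` for `n = 0`, `0` otherwise, so
the two image measures have the same integrals on the span of the `mFourier n`, dense in
`C(UnitAddTorus (Fin k), ℂ)` (`UnitAddTorus.span_mFourier_closure_eq_top`), hence are equal
(`ext_of_forall_integral_eq_of_IsFiniteMeasure`). With the measurable section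
`s x = ∑ i, (AddCircle.equivIco 1 0 (x i) : ℝ) • b' i` one has `y - s (π y) ∈ lat b'`
(`y = ∑ i, inner (b i) y • b' i`), so `h y = h (s (π y))` and `integral_map` concludes.
-/

open MeasureTheory

namespace Vale.Agent.P160F.RM

namespace Torus

open UnitAddTorus

variable {k : ℕ}

/-- projection to the torus -/
noncomputable def pr (b : Module.Basis (Fin k) ℝ (E k)) (y : E k) : UnitAddTorus (Fin k) :=
  fun i => ((inner ℝ (b i) y : ℝ) : UnitAddCircle)

theorem pr_cont (b : Module.Basis (Fin k) ℝ (E k)) : Continuous (pr b) :=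
  continuous_pi fun _ => (AddCircle.continuous_mk' 1).comp (continuous_const.inner continuous_id)

theorem four (b : Module.Basis (Fin k) ℝ (E k)) (n : Fin k → ℤ) (y : E k) :
    mFourier n (pr b y) =
      Complex.exp ((inner ℝ y ((2 * Real.pi) • ∑ i, n i • b i) : ℝ) * Complex.I) := by
  simp only [mFourier, pr, ContinuousMap.coe_mk, fourier_coe_apply, ← Complex.exp_sum]
  congr 1
  rw [real_inner_smul_right, inner_sum]
  push_cast
  rw [Finset.mul_sum, Finset.sum_mul]
  refine Finset.sum_congr rfl fun i _ => ?_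
  rw [← Int.cast_smul_eq_zsmul ℝ, real_inner_smul_right, real_inner_comm]
  push_cast
  ring

theorem int_cont (P : Measure (UnitAddTorus (Fin k))) [IsFiniteMeasure P]
    (f : C(UnitAddTorus (Fin k), ℂ)) : Integrable f P :=
  f.continuous.integrable_of_hasCompactSupport (HasCompactSupport.of_compactSpace _)

/-- integration as a continuous linear form -/
noncomputable def intL (P : Measure (UnitAddTorus (Fin k))) [IsFiniteMeasure P] :
    C(UnitAddTorus (Fin k), ℂ) →L[ℂ] ℂ :=
  LinearMap.mkContinuous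
    { toFun := fun f => ∫ x, f x ∂P
      map_add' := fun f g => integral_add (int_cont P f) (int_cont P g)
      map_smul' := fun c f => integral_smul c f } (P.real Set.univ) fun f => by
    rw [mul_comm]
    exact norm_integral_le_of_norm_le_const
      (Filter.Eventually.of_forall fun x => f.norm_coe_le_norm x)

theorem ext_tor {P Q : Measure (UnitAddTorus (Fin k))} [IsFiniteMeasure P] [IsFiniteMeasure Q]
    (h : ∀ n, ∫ x, mFourier n x ∂P = ∫ x, mFourier n x ∂Q) : P = Q := by
  have e : intL P = intL Q := by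
    refine ContinuousLinearMap.ext_on
      (Submodule.dense_iff_topologicalClosure_eq_top.2 span_mFourier_closure_eq_top) ?_
    rintro _ ⟨n, rfl⟩
    exact h n
  refine ext_of_forall_integral_eq_of_IsFiniteMeasure fun f => ?_
  have e2 : ∫ x, ((f x : ℝ) : ℂ) ∂P = ∫ x, ((f x : ℝ) : ℂ) ∂Q :=
    DFunLike.congr_fun e ⟨fun x => ((f x : ℝ) : ℂ), Complex.continuous_ofReal.comp f.continuous⟩
  rw [integral_complex_ofReal, integral_complex_ofReal] at e2
  exact_mod_cast e2

theorem int_map (b : Module.Basis (Fin k) ℝ (E k)) (ν : Measure (E k)) (n : Fin k → ℤ) :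
    ∫ x, mFourier n x ∂(ν.map (pr b)) = charFun ν ((2 * Real.pi) • ∑ i, n i • b i) := by
  rw [integral_map (pr_cont b).measurable.aemeasurable
    (mFourier n).continuous.aestronglyMeasurable, charFun_apply]
  simp only [four]

/-- a measurable section -/
noncomputable def sec (b' : Module.Basis (Fin k) ℝ (E k)) (x : UnitAddTorus (Fin k)) : E k :=
  ∑ i, ((AddCircle.measurableEquivIco 1 0 (x i) : Set.Ico (0 : ℝ) (0 + 1)) : ℝ) • b' i

theorem sec_meas (b' : Module.Basis (Fin k) ℝ (E k)) : Measurable (sec b') :=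
  Finset.measurable_sum _ fun i _ =>
    (measurable_subtype_coe.comp ((AddCircle.measurableEquivIco 1 0).measurable.comp
      (measurable_pi_apply i))).smul_const _

theorem expand {b b' : Module.Basis (Fin k) ℝ (E k)} (hb : Dual b b') (y : E k) :
    y = ∑ i, (inner ℝ (b i) y : ℝ) • b' i := by
  have e : ∀ i, (inner ℝ (b i) y : ℝ) = b'.repr y i := by
    intro i
    conv_lhs => rw [← b'.sum_repr y]
    simp only [inner_sum, real_inner_smul_right, hb i]
    simp
  simp only [e, b'.sum_repr]

theorem sub_mem {b b' : Module.Basis (Fin k) ℝ (E k)} (hb : Dual b b') (y : E k) :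
    y - sec b' (pr b y) ∈ lat b' := by
  nth_rewrite 1 [expand hb y]
  unfold sec
  rw [← Finset.sum_sub_distrib]
  refine Submodule.sum_mem _ fun i _ => ?_
  set t : ℝ := inner ℝ (b i) y with ht
  set r := AddCircle.measurableEquivIco 1 0 (pr b y i) with hr
  have e : ((r : ℝ) : UnitAddCircle) = (t : UnitAddCircle) :=
    (AddCircle.measurableEquivIco 1 0).symm_apply_apply (pr b y i)
  have e2 : ((t - r : ℝ) : UnitAddCircle) = 0 := by rw [AddCircle.coe_sub, e, sub_self]
  obtain ⟨z, hz⟩ := (AddCircle.coe_eq_zero_iff 1).1 e2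
  rw [← sub_smul, ← hz, zsmul_one, Int.cast_smul_eq_zsmul]
  exact Submodule.smul_mem _ _ (Submodule.subset_span ⟨i, rfl⟩)

end Torus

theorem torus {k : ℕ} {b b' : Module.Basis (Fin k) ℝ (E k)} (hb : Dual b b')
    {ν₁ ν₂ : Measure (E k)} [IsProbabilityMeasure ν₁] [IsProbabilityMeasure ν₂]
    (h₁ : Kill ν₁ (lat b)) (h₂ : Kill ν₂ (lat b)) {h : E k → ℝ} (hm : Measurable h)
    (hp : ∀ y, ∀ l ∈ lat b', h (y + l) = h y) : ∫ y, h y ∂ν₁ = ∫ y, h y ∂ν₂ := by
  have e : ν₁.map (Torus.pr b) = ν₂.map (Torus.pr b) := by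
    refine Torus.ext_tor fun n => ?_
    rw [Torus.int_map, Torus.int_map]
    by_cases h0 : ∑ i, n i • b i = 0
    · rw [h0]; simp
    · have hu : ∑ i, n i • b i ∈ lat b := Submodule.sum_mem _ fun i _ =>
        Submodule.smul_mem _ _ (Submodule.subset_span ⟨i, rfl⟩)
      rw [h₁ _ hu h0, h₂ _ hu h0]
  have e2 : ∀ y, h y = h (Torus.sec b' (Torus.pr b y)) := fun y => by
    rw [← hp (Torus.sec b' (Torus.pr b y)) _ (Torus.sub_mem hb y), add_sub_cancel]
  have e3 : ∀ ν : Measure (E k), ∫ y, h y ∂ν = ∫ x, h (Torus.sec b' x) ∂(ν.map (Torus.pr b)) := by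
    intro ν
    rw [integral_map (f := fun x => h (Torus.sec b' x)) (Torus.pr_cont b).measurable.aemeasurable
      (hm.comp (Torus.sec_meas b')).aestronglyMeasurable]
    exact integral_congr_ae (Filter.Eventually.of_forall e2)
  rw [e3, e3, e]

end Vale.Agent.P160F.RM
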