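import Vale.Agent.P160F.RMPush
import Vale.Agent.P160F.RMBasis
import Vale.Agent.P160F.RMTorus
import Vale.Agent.P160F.RMCov
import Vale.Agent.P160F.RMDiag
import Vale.Agent.P160F.RMDef
import Vale.Agent.P160F.RMKill

/-! The improving direction at a full-rank lattice with large cost. -/

open MeasureTheory

namespace Vale.Agent.P160F.RM

theorem sq_integrable {m m' : ℕ} {ν : Measure (E m)} (h : Integrable (fun y => ‖y‖ ^ 2) ν)
    (D : E m →L[ℝ] E m') : Integrable (fun y => ‖D y‖ ^ 2) ν := by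
  refine (h.const_mul (‖D‖ ^ 2)).mono' (by fun_prop) (ae_of_all _ fun y => ?_)
  rw [Real.norm_of_nonneg (by positivity), ← mul_pow]
  exact pow_le_pow_left₀ (norm_nonneg _) (D.le_opNorm y) 2

theorem iso {k : ℕ} {N : Submodule ℤ (E k)} (hN : Cl N) (hr : rk N = k)
    (hF : 2 * (k : ℝ) < F N idL) {t₀ : ℝ} (ht₀ : 0 < t₀) :
    ∃ t, 0 < t ∧ t ≤ t₀ ∧ ∃ D : E k →L[ℝ] E k, ‖D - 1‖ ≤ t ∧ |D.det| ≤ 1 ∧
      F N idL + t ≤ F N D := by
  obtain ⟨b, b', rfl, hb⟩ := exists_basis hN hr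
  have hV := vor_body b'
  have hg : 1 ≤ (Matrix.gram ℝ (fun i => b i)).det :=
    hN (Fin k) _ (fun i => Submodule.subset_span ⟨i, rfl⟩) b.linearIndependent
  have hvol := vor_vol hb hg
  have hkill := vor_kill hb
  have := unif_prob hV
  have hint : Integrable (fun y => ‖y‖ ^ 2) (unif (Vor (lat b'))) :=
    unif_integrable hV (by fun_prop)
  have hcost : Cost (lat b) idL (∫ y, ‖y‖ ^ 2 ∂(unif (Vor (lat b')))) :=
    ⟨_, inferInstance, hkill, hint, by simp⟩
  have hFle := F_le hcost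
  have hk : 0 < k := by
    rcases Nat.eq_zero_or_pos k with rfl | h
    · exfalso
      have h0 : ∀ y : E 0, ‖y‖ ^ 2 = 0 := fun y => by
        rw [Subsingleton.elim y 0]; simp
      simp only [h0, integral_zero] at hFle
      simp only [Nat.cast_zero, mul_zero] at hF
      linarith
    · exact h
  obtain ⟨e, i, j, hi, hj⟩ := cov_dirs hk hV (fun y => vor_neg) hvol
  have hkR : (0 : ℝ) < k := by exact_mod_cast hk
  have hi2 : 2 < ∫ y, inner ℝ (e i) y ^ 2 ∂(unif (Vor (lat b'))) := by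
    refine lt_of_mul_lt_mul_left (a := (k : ℝ)) ?_ hkR.le
    linarith
  have hij : i ≠ j := by
    rintro rfl
    linarith
  obtain ⟨t₁, ht₁, hdef⟩ := deficit b' (ε := 1) one_pos
  have ht : 0 < min t₀ (min t₁ 1) := lt_min ht₀ (lt_min ht₁ one_pos)
  have ht1 : min t₀ (min t₁ 1) ≤ t₁ := (min_le_right _ _).trans (min_le_left _ _)
  have ht2 : min t₀ (min t₁ 1) ≤ 1 := (min_le_right _ _).trans (min_le_right _ _)
  refine ⟨min t₀ (min t₁ 1), ht, min_le_left _ _, ?_⟩
  generalize min t₀ (min t₁ 1) = t at ht ht1 ht2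
  obtain ⟨D, hD1, hD2, hD3⟩ := exists_diag e hij ht.le ht2
  refine ⟨D, hD1, hD2, le_F (hcost.any D) ?_⟩
  rintro c ⟨ν, hν, hk', hi', hc⟩
  have h1 : ∫ y, hd (lat b') D y ∂ν ≤ ∫ y, ‖D y‖ ^ 2 ∂ν :=
    integral_mono_of_nonneg (ae_of_all _ (hd_nonneg _ _)) (sq_integrable hi' D)
      (ae_of_all _ (hd_le _ _))
  have h2 := torus hb hk' hkill (hd_measurable b' D) (fun y l hl => hd_add _ _ _ hl)
  have h3 := hdef t ht ht1 D hD1
  have ia : Integrable (fun y => inner ℝ (e i) y ^ 2) (unif (Vor (lat b'))) :=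
    unif_integrable hV (by fun_prop)
  have ib : Integrable (fun y => inner ℝ (e j) y ^ 2) (unif (Vor (lat b'))) :=
    unif_integrable hV (by fun_prop)
  have ic : Integrable (fun y => 2 * t * (inner ℝ (e i) y ^ 2 - inner ℝ (e j) y ^ 2))
      (unif (Vor (lat b'))) := (ia.sub ib).const_mul _
  have h4 := integral_mono (hint.add ic) (sq_integrable hint D) hD3
  simp only [Pi.add_apply] at h4
  rw [integral_add hint ic, integral_const_mul, integral_sub ia ib] at h4
  nlinarith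

end Vale.Agent.P160F.RM
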