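import Vale.Agent.P160F.RMDefs

/-!
Elementary calculus of `Cost` and `F`.
* `Cost.push`: take the image measure `ν.map T`; `charFun (ν.map T) u = charFun ν (T† u)`
  (`charFun_apply`, `integral_map`, `ContinuousLinearMap.adjoint_inner_right`);
  integrability from `‖T y‖² ≤ ‖T‖² ‖y‖²`.
* `Cost.mono`: same measure, `integral_mono_of_nonneg` (`‖T y‖²` is integrable).
* `Cost.scale`: `push` with `T = a • 1` after `mono`.
-/

open MeasureTheory

namespace Vale.Agent.P160F.RM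

variable {m m' m'' : ℕ}

theorem rmpush_le (T : E m →L[ℝ] E m') {a : ℝ} (ha : ‖T‖ ≤ a) (y : E m) :
    ‖‖T y‖ ^ 2‖ ≤ a ^ 2 * ‖y‖ ^ 2 := by
  rw [Real.norm_of_nonneg (sq_nonneg _), ← mul_pow]
  exact pow_le_pow_left₀ (norm_nonneg _)
    ((T.le_opNorm y).trans (mul_le_mul_of_nonneg_right ha (norm_nonneg _))) 2

theorem rmpush_int {ν : Measure (E m)} (h : Integrable (fun y => ‖y‖ ^ 2) ν)
    (T : E m →L[ℝ] E m') : Integrable (fun y => ‖T y‖ ^ 2) ν :=
  (h.const_mul (‖T‖ ^ 2)).mono' (by fun_prop : Continuous fun y => ‖T y‖ ^ 2).aestronglyMeasurable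
    (ae_of_all _ (rmpush_le T le_rfl))

theorem Cost.nonneg {N : Submodule ℤ (E m)} {T : E m →L[ℝ] E m'} {c : ℝ} (h : Cost N T c) :
    0 ≤ c := by

  obtain ⟨ν, -, -, -, h⟩ := h
  exact (integral_nonneg fun _ => sq_nonneg _).trans h

theorem Cost.of_le {N : Submodule ℤ (E m)} {T : E m →L[ℝ] E m'} {c c' : ℝ} (h : Cost N T c)
    (hc : c ≤ c') : Cost N T c' := by

  obtain ⟨ν, h1, h2, h3, h4⟩ := h
  exact ⟨ν, h1, h2, h3, h4.trans hc⟩

theorem Cost.mono {N : Submodule ℤ (E m)} {T : E m →L[ℝ] E m'} {T' : E m →L[ℝ] E m''} {c a : ℝ}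
    (h : Cost N T c) (ha : 0 ≤ a) (hT : ∀ y, ‖T' y‖ ^ 2 ≤ a * ‖T y‖ ^ 2) :
    Cost N T' (a * c) := by

  obtain ⟨ν, h1, h2, h3, h4⟩ := h
  refine ⟨ν, h1, h2, h3, (integral_mono (rmpush_int h3 T') ((rmpush_int h3 T).const_mul a)
    hT).trans ?_⟩
  rw [integral_const_mul]
  exact mul_le_mul_of_nonneg_left h4 ha

theorem Cost.push {N : Submodule ℤ (E m)} {N' : Submodule ℤ (E m')} (T : E m →L[ℝ] E m')
    (D : E m' →L[ℝ] E m'') {c : ℝ} (h : Cost N (D.comp T) c)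
    (hT : ∀ u ∈ N', u ≠ 0 → ContinuousLinearMap.adjoint T u ∈ N ∧
      ContinuousLinearMap.adjoint T u ≠ 0) : Cost N' D c := by

  obtain ⟨ν, h1, h2, h3, h4⟩ := h
  have hm : AEMeasurable T ν := T.continuous.measurable.aemeasurable
  refine ⟨ν.map T, Measure.isProbabilityMeasure_map hm, fun u hu h0 => ?_, ?_, ?_⟩
  · rw [← h2 _ (hT u hu h0).1 (hT u hu h0).2, charFun_apply, charFun_apply,
      integral_map hm (Continuous.aestronglyMeasurable (by fun_prop))]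
    simp only [← map_smul, ContinuousLinearMap.adjoint_inner_right]
  · exact (integrable_map_measure (Continuous.aestronglyMeasurable (by fun_prop)) hm).2
      (rmpush_int h3 T)
  · rw [integral_map hm (Continuous.aestronglyMeasurable (by fun_prop))]
    exact h4

theorem Cost.scale {N N' : Submodule ℤ (E m)} {a c : ℝ} (h : Cost N idL c) (ha : 0 < a)
    (hN : ∀ u ∈ N', a • u ∈ N) : Cost N' idL (a ^ 2 * c) := by

  have e : ∀ u : E m, ContinuousLinearMap.adjoint (a • idL : E m →L[ℝ] E m) u = a • u :=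
    fun u => ext_inner_left ℝ fun v => by
      rw [ContinuousLinearMap.adjoint_inner_right]
      simp [inner_smul_left, inner_smul_right]
  refine Cost.push (a • idL) idL (h.mono (sq_nonneg a) fun y => le_of_eq ?_) fun u hu h0 => ?_
  · simp [norm_smul, mul_pow]
  · rw [e]
    exact ⟨hN u hu, smul_ne_zero ha.ne' h0⟩

theorem Cost.any {N : Submodule ℤ (E m)} {T : E m →L[ℝ] E m'} {c : ℝ} (h : Cost N T c)
    (T' : E m →L[ℝ] E m'') : ∃ c', Cost N T' c' := by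

  obtain ⟨ν, h1, h2, h3, -⟩ := h
  exact ⟨_, ν, h1, h2, h3, le_rfl⟩

theorem F_le {N : Submodule ℤ (E m)} {T : E m →L[ℝ] E m'} {c : ℝ} (h : Cost N T c) :
    F N T ≤ c := by

  exact csInf_le ⟨0, fun _ h => Cost.nonneg h⟩ h

theorem le_F {N : Submodule ℤ (E m)} {T : E m →L[ℝ] E m'} {x : ℝ} (h : ∃ c, Cost N T c)
    (hx : ∀ c, Cost N T c → x ≤ c) : x ≤ F N T := by

  exact le_csInf h hx

theorem cost_of_F_lt {N : Submodule ℤ (E m)} {T : E m →L[ℝ] E m'} {c : ℝ}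
    (h : ∃ c, Cost N T c) (hc : F N T < c) : Cost N T c := by

  obtain ⟨c', h1, h2⟩ := exists_lt_of_csInf_lt h hc
  exact Cost.of_le h1 h2.le

/-- `T ↦ F N T` is an infimum of continuous functions, hence upper semicontinuous: if
`F N T₀ < y` pick a killing `ν` with `∫ ‖T₀ y‖² < y`; `∫ ‖T y‖² dν` is continuous in `T`
(`|‖T y‖² - ‖T₀ y‖²| ≤ ‖T - T₀‖ (‖T‖ + ‖T₀‖) ‖y‖²`). -/
theorem F_usc {N : Submodule ℤ (E m)} (h : ∃ c, Cost N idL c) :
    UpperSemicontinuous (fun T : E m →L[ℝ] E m' => F N T) := by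

  intro T₀ y hy
  obtain ⟨c₀, h⟩ := h
  obtain ⟨c, h1, h2⟩ := exists_between (show F N T₀ < y from hy)
  obtain ⟨ν, k1, k2, k3, k4⟩ := cost_of_F_lt (h.any T₀) h1
  have hc : ContinuousAt (fun T : E m →L[ℝ] E m' => ∫ y, ‖T y‖ ^ 2 ∂ν) T₀ := by
    refine continuousAt_of_dominated (bound := fun y => (‖T₀‖ + 1) ^ 2 * ‖y‖ ^ 2)
      (Filter.Eventually.of_forall fun T => (rmpush_int k3 T).aestronglyMeasurable) ?_
      (k3.const_mul _) (ae_of_all _ fun y => Continuous.continuousAt (by fun_prop))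
    filter_upwards [(isOpen_lt continuous_norm continuous_const).mem_nhds (lt_add_one ‖T₀‖)]
      with T hT
    exact ae_of_all _ (rmpush_le T (le_of_lt hT))
  filter_upwards [hc.eventually (gt_mem_nhds (k4.trans_lt h2))] with T hT
  exact (F_le ⟨ν, k1, k2, k3, le_rfl⟩).trans_lt hT

end Vale.Agent.P160F.RM
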