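import Vale.Agent.P160F.RMVor

/-!
* `unif_prob`: `ProbabilityTheory.cond_isProbabilityMeasure_of_finite`.
* `vor_vol`: `IsAddFundamentalDomain.measure_eq` with `ZSpan.isAddFundamentalDomain`;
  `ZSpan.measure_fundamentalDomain` against the standard orthonormal basis
  (`ZSpan.fundamentalDomain_ae_parallelepiped`, `OrthonormalBasis.volume_parallelepiped`) gives
  `|det b'|`; `Dual b b'` means `Bᵀ B' = 1` for the coordinate matrices and
  `gram b = Bᵀ B`, so `det(B')² = 1 / det (gram b) ≤ 1`.
-/

open MeasureTheory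

namespace Vale.Agent.P160F.RM

variable {k : ℕ}

theorem unif_prob {K : Set (E k)} (hK : Vale.Agent.P254.Body K) :
    IsProbabilityMeasure (unif K) :=
  ProbabilityTheory.cond_isProbabilityMeasure_of_finite
    (Measure.measure_pos_of_nonempty_interior volume hK.2.2).ne' hK.1.measure_lt_top.ne

theorem unif_ae {K : Set (E k)} (hK : Vale.Agent.P254.Body K) {p : E k → Prop}
    (hp : ∀ᵐ y ∂(volume : Measure (E k)), p y) : ∀ᵐ y ∂(unif K), y ∈ K ∧ p y :=
  (ProbabilityTheory.ae_cond_mem hK.1.measurableSet).and
    (ProbabilityTheory.cond_absolutelyContinuous.ae_le hp)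

theorem unif_integrable {K : Set (E k)} (hK : Vale.Agent.P254.Body K) {f : E k → ℝ}
    (hf : Continuous f) : Integrable f (unif K) := by
  have h : IntegrableOn f K volume := hf.continuousOn.integrableOn_compact hK.1
  exact Integrable.smul_measure h
    (ENNReal.inv_ne_top.2 (Measure.measure_pos_of_nonempty_interior volume hK.2.2).ne')

theorem RMVol_mul (v w : Fin k → E k) :
    ((EuclideanSpace.basisFun (Fin k) ℝ).toBasis.toMatrix v).transpose *
      (EuclideanSpace.basisFun (Fin k) ℝ).toBasis.toMatrix w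
      = Matrix.of fun i j => inner ℝ (v i) (w j) := by
  ext i j
  simp [Matrix.mul_apply, Module.Basis.toMatrix_apply, PiLp.inner_apply, mul_comm]

theorem vor_vol {b b' : Module.Basis (Fin k) ℝ (E k)} (hb : Dual b b')
    (hg : 1 ≤ (Matrix.gram ℝ (fun i => b i)).det) : volume.real (Vor (lat b')) ≤ 1 := by
  have hv : VAddInvariantMeasure (lat b') (E k) volume :=
    inferInstanceAs <| VAddInvariantMeasure (lat b').toAddSubgroup (E k) volume
  have h1 : volume (Vor (lat b')) = volume (ZSpan.fundamentalDomain b') :=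
    (vor_fund b').measure_eq (ZSpan.isAddFundamentalDomain b' volume)
  have h2 := ZSpan.measureReal_fundamentalDomain b' volume
    (EuclideanSpace.basisFun (Fin k) ℝ).toBasis
  have h3 : volume (ZSpan.fundamentalDomain (EuclideanSpace.basisFun (Fin k) ℝ).toBasis) = 1 := by
    rw [measure_congr (ZSpan.fundamentalDomain_ae_parallelepiped _ volume)]
    exact (EuclideanSpace.basisFun (Fin k) ℝ).volume_parallelepiped
  have e1 := congrArg Matrix.det (RMVol_mul b b)
  have e2 := congrArg Matrix.det (RMVol_mul b b')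
  have e3 : (Matrix.of fun i j => inner ℝ (b i) (b' j)) = (1 : Matrix (Fin k) (Fin k) ℝ) := by
    ext i j
    rw [Matrix.of_apply, hb i j, Matrix.one_apply]
  have e4 : (Matrix.of fun i j => inner ℝ (b i) (b j)) = Matrix.gram ℝ (fun i => b i) := rfl
  rw [Matrix.det_mul, Matrix.det_transpose] at e1 e2
  rw [e3, Matrix.det_one] at e2
  rw [e4] at e1
  rw [measureReal_def, h1, ← measureReal_def, h2, measureReal_def, h3, Module.Basis.det_apply,
    ENNReal.toReal_one, mul_one, ← sq_le_one_iff_abs_le_one]
  set x := ((EuclideanSpace.basisFun (Fin k) ℝ).toBasis.toMatrix b).det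
  set y := ((EuclideanSpace.basisFun (Fin k) ℝ).toBasis.toMatrix b').det
  have e5 : x * x * y ^ 2 = 1 := by
    have : x * x * y ^ 2 = (x * y) ^ 2 := by ring
    rw [this, e2, one_pow]
  nlinarith [sq_nonneg y]

end Vale.Agent.P160F.RM
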