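import Vale.Agent.P160F.RMDefs
import Vale.Agent.P254.Basic

/-!
The Voronoi cell of `L = lat b`.
* `lat_finite`: `ZSpan.setFinite_inter`.
* body: closed and convex as an intersection of half spaces
  (`‖y‖ ≤ ‖y - l‖ ↔ 2 ⟪y, l⟫ ≤ ‖l‖²`), bounded since `‖y‖ ≤ ‖y - floor y‖ = ‖fract y‖ ≤ ∑ ‖b i‖`
  (`ZSpan.norm_fract_le`), contains a ball around `0` (nonzero vectors of `L` have norm `≥ ρ > 0`).
* `vor_strict`: the countably many bisector hyperplanes are null
  (`Measure.addHaar_affineSubspace`).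
* `vor_fund`: `IsAddFundamentalDomain.mk''` or `mk`: a closest lattice point exists
  (`lat_finite`); a point of `V ∩ (l + V)`, `l ≠ 0`, lies on a bisector.
-/

open MeasureTheory

namespace Vale.Agent.P160F.RM

variable {k : ℕ}

theorem vor_half (y l : E k) : ‖y‖ ≤ ‖y - l‖ ↔ 2 * inner ℝ y l ≤ ‖l‖ ^ 2 := by
  rw [← sq_le_sq₀ (norm_nonneg _) (norm_nonneg _), norm_sub_sq_real]
  constructor <;> intro h <;> linarith

theorem vor_closed (L : Submodule ℤ (E k)) : IsClosed (Vor L) := by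
  have e : Vor L = ⋂ l ∈ L, {y : E k | ‖y‖ ≤ ‖y - l‖} := by
    ext y
    simp only [Vor, Set.mem_ofPred_eq, Set.mem_iInter]
  rw [e]
  exact isClosed_biInter fun l _ => isClosed_le (by fun_prop) (by fun_prop)

theorem lat_finite (b : Module.Basis (Fin k) ℝ (E k)) (y : E k) (R : ℝ) :
    {l : E k | l ∈ lat b ∧ ‖y - l‖ ≤ R}.Finite := by
  refine (ZSpan.setFinite_inter b (Metric.isBounded_closedBall (x := y) (r := R))).subset
    fun l hl => ⟨?_, hl.1⟩
  rw [Metric.mem_closedBall', dist_eq_norm]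
  exact hl.2

theorem vor_neg {L : Submodule ℤ (E k)} {y : E k} (hy : y ∈ Vor L) : -y ∈ Vor L := by
  intro l hl
  have h := hy (-l) (neg_mem hl)
  rwa [norm_neg, ← neg_add', norm_neg, ← sub_neg_eq_add]

theorem vor_body (b : Module.Basis (Fin k) ℝ (E k)) : Vale.Agent.P254.Body (Vor (lat b)) := by
  refine ⟨Metric.isCompact_of_isClosed_isBounded (vor_closed _)
    (isBounded_iff_forall_norm_le.2 ⟨∑ i, ‖b i‖, fun y hy =>
      (hy _ (ZSpan.floor b y).2).trans (ZSpan.norm_fract_le b y)⟩), ?_, 0, ?_⟩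
  · intro x hx y hy a c ha hc hac l hl
    have h1 := mul_le_mul_of_nonneg_left ((vor_half _ _).1 (hx l hl)) ha
    have h2 := mul_le_mul_of_nonneg_left ((vor_half _ _).1 (hy l hl)) hc
    rw [vor_half, inner_add_left, real_inner_smul_left, real_inner_smul_left]
    have h3 : a * ‖l‖ ^ 2 + c * ‖l‖ ^ 2 = ‖l‖ ^ 2 := by rw [← add_mul, hac, one_mul]
    linarith
  · have key : ∀ y l : E k, ‖y‖ < ‖l‖ / 2 → ‖y‖ ≤ ‖y - l‖ := fun y l h => by
      have := norm_sub_norm_le l y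
      rw [norm_sub_rev] at this
      linarith
    have h1 : ∀ᶠ y in nhds (0 : E k), ∀ l ∈ {l : E k | l ∈ lat b ∧ ‖0 - l‖ ≤ 1},
        ‖y‖ ≤ ‖y - l‖ := by
      refine (Filter.eventually_all_finite (lat_finite b 0 1)).2 fun l _ => ?_
      by_cases h0 : l = 0
      · exact Filter.Eventually.of_forall fun y => by rw [h0, sub_zero]
      · filter_upwards [Metric.ball_mem_nhds (0 : E k) (half_pos (norm_pos_iff.2 h0))] with y hy
        exact key y l (mem_ball_zero_iff.1 hy)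
    rw [mem_interior_iff_mem_nhds]
    filter_upwards [h1, Metric.ball_mem_nhds (0 : E k) one_half_pos] with y h2 h3 l hl
    by_cases h4 : ‖0 - l‖ ≤ 1
    · exact h2 l ⟨hl, h4⟩
    · rw [zero_sub, norm_neg, not_le] at h4
      exact key y l (by linarith [mem_ball_zero_iff.1 h3])

theorem vor_strict (b : Module.Basis (Fin k) ℝ (E k)) :
    ∀ᵐ y ∂(volume : Measure (E k)), ∀ l ∈ lat b, l ≠ 0 → ‖y‖ ≠ ‖y - l‖ := by
  have h : ∀ᵐ y : E k, ∀ l : lat b, (l : E k) ≠ 0 → ‖y‖ ≠ ‖y - (l : E k)‖ := by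
    refine ae_all_iff.2 fun l => ?_
    by_cases h0 : (l : E k) = 0
    · exact Filter.Eventually.of_forall fun y h1 => absurd h0 h1
    · have h1 := Measure.addHaar_affineSubspace volume (AffineSubspace.perpBisector 0 (l : E k))
        fun h2 => h0 (AffineSubspace.perpBisector_eq_top.1 h2).symm
      filter_upwards [measure_eq_zero_iff_ae_notMem.1 h1] with y hy _ h2
      refine hy (AffineSubspace.mem_perpBisector_iff_dist_eq.2 ?_)
      rwa [dist_zero_right, dist_eq_norm]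
  filter_upwards [h] with y hy l hl using hy ⟨l, hl⟩

theorem vor_fund (b : Module.Basis (Fin k) ℝ (E k)) :
    IsAddFundamentalDomain (lat b) (Vor (lat b)) (volume : Measure (E k)) := by
  refine IsAddFundamentalDomain.mk'' (vor_closed _).measurableSet.nullMeasurableSet
    (ae_of_all _ fun x => ?_) (fun g hg => ?_)
    fun g => (measurePreserving_add_left volume (g : E k)).quasiMeasurePreserving
  · have h0 : (0 : E k) ∈ {l : E k | l ∈ lat b ∧ ‖x - l‖ ≤ ‖x‖} :=
      ⟨zero_mem _, by rw [sub_zero]⟩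
    obtain ⟨l, hl, hm⟩ := Set.exists_min_image _ (fun l => ‖x - l‖) (lat_finite b x ‖x‖) ⟨0, h0⟩
    refine ⟨⟨-l, neg_mem hl.1⟩, fun l' hl' => ?_⟩
    change ‖-l + x‖ ≤ ‖-l + x - l'‖
    rw [neg_add_eq_sub, sub_sub]
    by_cases h1 : ‖x - (l + l')‖ ≤ ‖x‖
    · exact hm _ ⟨add_mem hl.1 hl', h1⟩
    · exact hl.2.trans (not_le.1 h1).le
  · refine measure_mono_null ?_ (vor_strict b)
    rintro _ ⟨⟨v, hv, rfl⟩, hy⟩ h
    refine h g g.2 (fun h0 => hg (Subtype.ext h0)) (le_antisymm (hy g g.2) ?_)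
    change ‖(g : E k) + v - g‖ ≤ ‖(g : E k) + v‖
    have h1 := hv (-g) (neg_mem g.2)
    rwa [add_sub_cancel_left, add_comm, ← sub_neg_eq_add]

end Vale.Agent.P160F.RM
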