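import Vale.Agent.P160F.Defs

/-! P160F, side cases: the three vector lemma. -/

open Finset Matrix

namespace Vale.Agent.P160F

variable {ι : Type} [Fintype ι] [DecidableEq ι]

/-- The form given by the adjugate. -/
def be (B : Matrix ι ι ℤ) (y z : ι → ℤ) : ℤ := y ⬝ᵥ (B.adjugate *ᵥ z)

theorem be_comm {B : Matrix ι ι ℤ} (hB : B.IsSymm) (y z : ι → ℤ) : be B y z = be B z y := by
  have h1 : B.adjugateᵀ = B.adjugate := by rw [adjugate_transpose, hB.eq]
  rw [be, be, dotProduct_mulVec, ← mulVec_transpose, h1, dotProduct_comm]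

theorem be_mulVec {B : Matrix ι ι ℤ} (hB : B.IsSymm) (w y : ι → ℤ) :
    be B (B *ᵥ w) y = B.det * (y ⬝ᵥ w) := by
  rw [be_comm hB, be, mulVec_mulVec, adjugate_mul, smul_mulVec, one_mulVec, dotProduct_smul,
    smul_eq_mul]

theorem three_vec {B : Matrix ι ι ℤ} (hB : B.IsSymm) (hD : B.det ≠ 0) (y : Fin 3 → ι → ℤ)
    (h : ∀ a, B.det ∣ be B (y a) (y a)) :
    B.det ^ 2 ∣ 2 * (be B (y 0) (y 1) * be B (y 0) (y 2) * be B (y 1) (y 2)) := by
  choose c hc using h
  let Y : Matrix ι (Fin 3) ℤ := Matrix.of fun i a => y a i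
  let Γ : Matrix (Fin 3) (Fin 3) ℤ := Matrix.of fun a b => be B (y a) (y b)
  have hΓ : Yᵀ * (B.adjugate * Y) = Γ := by
    ext a b
    simp only [Γ, Y, be, mul_apply, transpose_apply, of_apply, dotProduct, mulVec]
  have h1 : fromBlocks B Y Yᵀ (diagonal c) *
      fromBlocks 1 (-(B.adjugate * Y)) 0 (B.det • (1 : Matrix (Fin 3) (Fin 3) ℤ)) =
      fromBlocks B 0 Yᵀ (B.det • diagonal c - Γ) := by
    rw [fromBlocks_multiply]
    congr 1
    · simp
    · rw [Matrix.mul_neg, ← Matrix.mul_assoc, mul_adjugate, Matrix.smul_mul, Matrix.one_mul,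
        Matrix.mul_smul, Matrix.mul_one, neg_add_cancel]
    · simp
    · rw [Matrix.mul_neg, hΓ, Matrix.mul_smul, Matrix.mul_one, sub_eq_neg_add]
  have h2 := congrArg det h1
  rw [det_mul, det_fromBlocks_zero₂₁, det_fromBlocks_zero₁₂, det_one, one_mul, det_smul, det_one,
    mul_one, Fintype.card_fin] at h2
  have h3 : (B.det • diagonal c - Γ).det =
      -(2 * (be B (y 0) (y 1) * be B (y 0) (y 2) * be B (y 1) (y 2))) := by
    have e : ∀ a b, (B.det • diagonal c - Γ) a b =
        if a = b then 0 else -be B (y a) (y b) := fun a b => by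
      rw [Matrix.sub_apply, Matrix.smul_apply, smul_eq_mul, diagonal_apply]
      by_cases hab : a = b
      · subst hab
        rw [if_pos rfl, if_pos rfl, ← hc]
        exact sub_self _
      · rw [if_neg hab, if_neg hab, mul_zero, zero_sub]
        rfl
    rw [det_fin_three]
    simp only [e, be_comm hB (y 1) (y 0), be_comm hB (y 2) (y 0), be_comm hB (y 2) (y 1)]
    simp
    ring
  rw [h3] at h2
  refine ⟨-(fromBlocks B Y Yᵀ (diagonal c)).det, mul_left_cancel₀ hD ?_⟩
  linear_combination h2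

end Vale.Agent.P160F
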