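import Vale.Agent.P160F.Defs

/-! P160F, side cases: the adjugate of a symmetric matrix of corank one. -/

open Finset Matrix

namespace Vale.Agent.P160F

variable {n : ℕ}

theorem det_del (A : Matrix (Fin (n + 1)) (Fin (n + 1)) ℤ) (i : Fin (n + 1)) :
    (del A i).det = A.adjugate i i := by
  rw [adjugate_fin_succ_eq_det_submatrix, ← two_mul, pow_mul]
  simp [del]

theorem del_mulVec (A : Matrix (Fin (n + 1)) (Fin (n + 1)) ℤ) (i : Fin (n + 1))
    {v : Fin (n + 1) → ℤ} (hv : A *ᵥ v = 0) :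
    del A i *ᵥ (fun j => v (i.succAbove j)) = (-v i) • fun j => A (i.succAbove j) i := by
  funext j
  have h := congrFun hv (i.succAbove j)
  simp only [mulVec, dotProduct, Pi.zero_apply] at h
  rw [Fin.sum_univ_succAbove _ i] at h
  simp only [mulVec, dotProduct, del, submatrix_apply, Pi.smul_apply, smul_eq_mul]
  linarith

theorem ker_zero {A : Matrix (Fin (n + 1)) (Fin (n + 1)) ℤ} {i : Fin (n + 1)}
    (hi : (del A i).det ≠ 0) {u : Fin (n + 1) → ℤ} (hu : A *ᵥ u = 0) (h0 : u i = 0) : u = 0 := by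
  have h1 := del_mulVec A i hu
  rw [h0, neg_zero, zero_smul] at h1
  have h2 := Matrix.eq_zero_of_mulVec_eq_zero hi h1
  funext j
  refine Fin.succAboveCases i h0 (fun j => congrFun h2 j) j

theorem adj_rank_one {A : Matrix (Fin (n + 1)) (Fin (n + 1)) ℤ} (hA : A.IsSymm) (h : Cork A) :
    ∃ (lam : ℤ) (v a : Fin (n + 1) → ℤ), lam ≠ 0 ∧ ∑ i, v i * a i = 1 ∧ A *ᵥ v = 0 ∧
      ∀ i, (del A i).det = lam * v i ^ 2 := by
  obtain ⟨hd, i0, hi0⟩ := h
  set C := A.adjugate with hC
  have hCs : ∀ j k, C j k = C k j := fun j k => by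
    have h1 : Cᵀ = C := by rw [hC, adjugate_transpose, hA.eq]
    exact (congrFun (congrFun h1 k) j)
  have hcol : ∀ k, A *ᵥ (fun j => C j k) = 0 := fun k => by
    funext j
    have h1 := congrFun (congrFun (mul_adjugate A) j) k
    rw [hd, zero_smul] at h1
    exact h1
  have hne : C i0 i0 ≠ 0 := by rwa [det_del] at hi0
  obtain ⟨v, h2, h3⟩ := Finset.extract_gcd (s := univ) (fun j => C j i0) ⟨i0, mem_univ _⟩
  set g := univ.gcd fun j => C j i0 with hg
  have h2' : ∀ j, C j i0 = g * v j := fun j => h2 j (mem_univ _)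
  have hg0 : g ≠ 0 := fun h => hne (by rw [h2', h, zero_mul])
  have hv0 : v i0 ≠ 0 := fun h => hne (by rw [h2', h, mul_zero])
  obtain ⟨a, ha⟩ := Finset.gcd_eq_sum_mul univ v
  rw [h3] at ha
  have hAv : A *ᵥ v = 0 := by
    have h1 := hcol i0
    rw [show (fun j => C j i0) = g • v from funext h2', mulVec_smul] at h1
    exact (smul_eq_zero.1 h1).resolve_left hg0
  have key : ∀ j k, v i0 * C j k = g * v j * v k := fun j k => by
    have h1 : A *ᵥ (v i0 • (fun j => C j k) - (g * v k) • v) = 0 := by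
      rw [mulVec_sub, mulVec_smul, mulVec_smul, hcol, hAv, smul_zero, smul_zero, sub_zero]
    have h4 := congrFun (ker_zero hi0 h1 (by
      simp only [Pi.sub_apply, Pi.smul_apply, smul_eq_mul]
      rw [hCs, h2']; ring)) j
    simp only [Pi.sub_apply, Pi.smul_apply, smul_eq_mul, Pi.zero_apply] at h4
    linarith
  have hgl : g = v i0 * ∑ j, ∑ k, a j * a k * C j k := by
    have h1 : g = g * (∑ j, v j * a j) * ∑ k, v k * a k := by rw [← ha]; ring
    rw [h1, mul_assoc, sum_mul_sum, mul_sum, mul_sum]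
    refine sum_congr rfl fun j _ => ?_
    rw [mul_sum, mul_sum]
    refine sum_congr rfl fun k _ => ?_
    linear_combination (-(a j * a k)) * key j k
  refine ⟨∑ j, ∑ k, a j * a k * C j k, v, a, fun h => hg0 (by rw [hgl, h, mul_zero]), ha.symm, hAv,
    fun i => ?_⟩
  rw [det_del]
  refine mul_left_cancel₀ hv0 ?_
  rw [key, ← mul_assoc, ← hgl]
  ring

theorem adj_col {A : Matrix (Fin (n + 1)) (Fin (n + 1)) ℤ} {lam : ℤ} {v : Fin (n + 1) → ℤ}
    (hv : A *ᵥ v = 0) {i : Fin (n + 1)} (hi : v i ≠ 0) (hd : (del A i).det = lam * v i ^ 2) :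
    ((del A i).adjugate *ᵥ fun j => A (i.succAbove j) i) =
      fun j => -(lam * v i * v (i.succAbove j)) := by
  have h1 := congrArg (fun z => (del A i).adjugate *ᵥ z) (del_mulVec A i hv)
  simp only [mulVec_mulVec, adjugate_mul, smul_mulVec, one_mulVec, mulVec_smul] at h1
  funext j
  have h2 := congrFun h1 j
  simp only [Pi.smul_apply, smul_eq_mul, hd] at h2
  refine mul_left_cancel₀ hi ?_
  linarith

theorem col_iso {A : Matrix (Fin (n + 1)) (Fin (n + 1)) ℤ} (hA : A.IsSymm) {lam : ℤ}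
    {v : Fin (n + 1) → ℤ} (hv : A *ᵥ v = 0) {i : Fin (n + 1)} (hi : v i ≠ 0)
    (hd : (del A i).det = lam * v i ^ 2) :
    (del A i).det ∣ (fun j => A (i.succAbove j) i) ⬝ᵥ
      ((del A i).adjugate *ᵥ fun j => A (i.succAbove j) i) := by
  rw [adj_col hv hi hd, hd]
  refine ⟨A i i, ?_⟩
  have h := congrFun hv i
  simp only [mulVec, dotProduct, Pi.zero_apply] at h
  rw [Fin.sum_univ_succAbove _ i] at h
  have h1 : ∑ j, A (i.succAbove j) i * -(lam * v i * v (i.succAbove j)) =
      -(lam * v i) * ∑ j, A i (i.succAbove j) * v (i.succAbove j) := by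
    rw [mul_sum]
    refine sum_congr rfl fun j _ => ?_
    rw [hA.apply i (i.succAbove j)]
    ring
  rw [dotProduct, h1]
  linear_combination (-(lam * v i)) * h

end Vale.Agent.P160F
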