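import Vale.Agent.P160F.S3

/-! P160F, side cases: three lattices for each prime. -/

open Finset Matrix

namespace Vale.Agent.P160F

variable {ι : Type} [Fintype ι] [DecidableEq ι]

/-- The column lattice. -/
def sRng (B : Matrix ι ι ℤ) : AddSubgroup (ι → ℤ) := (LinearMap.range B.mulVecLin).toAddSubgroup

theorem sRng_index {B : Matrix ι ι ℤ} (hD : B.det ≠ 0) : (sRng B).index = B.det.natAbs := by
  have hi : Function.Injective B.mulVecLin := by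
    rw [← LinearMap.ker_eq_bot, LinearMap.ker_eq_bot']
    exact fun m hm => Matrix.eq_zero_of_mulVec_eq_zero hD hm
  have h := Submodule.natAbs_det_equiv (LinearMap.range B.mulVecLin)
    (LinearEquiv.ofInjective B.mulVecLin hi)
  have h2 : (LinearMap.range B.mulVecLin).subtype ∘ₗ AddMonoidHom.toIntLinearMap
      ((LinearEquiv.ofInjective B.mulVecLin hi : (ι → ℤ) ≃ₗ[ℤ] LinearMap.range B.mulVecLin) :
        (ι → ℤ) →+ LinearMap.range B.mulVecLin) = Matrix.toLin' B := by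
    ext1 x
    rfl
  rw [h2, LinearMap.det_toLin'] at h
  exact h.symm

theorem s_index_dvd {B : Matrix ι ι ℤ} (hD : B.det ≠ 0) {L : AddSubgroup (ι → ℤ)}
    (hL : ∀ y, B *ᵥ y ∈ L) : L.index ∣ B.det.natAbs := by
  rw [← sRng_index hD]
  refine AddSubgroup.index_dvd_of_le ?_
  rintro _ ⟨y, rfl⟩
  exact hL y

/-- Vectors whose multiple by `m` is in the column lattice. -/
def sL0 (B : Matrix ι ι ℤ) (m : ℤ) : AddSubgroup (ι → ℤ) :=
  (sRng B).comap (m • AddMonoidHom.id (ι → ℤ))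

omit [DecidableEq ι] in
theorem mem_sL0 {B : Matrix ι ι ℤ} {m : ℤ} {z : ι → ℤ} : z ∈ sL0 B m ↔ ∃ w, B *ᵥ w = m • z :=
  Iff.rfl

theorem sL0_index {B : Matrix ι ι ℤ} (hD : B.det ≠ 0) {p E : ℕ} (hp : p.Prime) {m : ℤ}
    (hm : ¬(p : ℤ) ∣ m) (hE : p ^ E ∣ B.det.natAbs) : p ^ E ∣ (sL0 B m).index := by
  have hle : sRng B ≤ sL0 B m := by
    rintro _ ⟨y, rfl⟩
    exact ⟨m • y, by rw [mulVecLin_apply, mulVec_smul]; rfl⟩
  have h1 := AddSubgroup.relIndex_mul_index hle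
  rw [sRng_index hD] at h1
  have h2 : ¬p ∣ (sRng B).relIndex (sL0 B m) := fun h => by
    have h0 : (sRng B).relIndex (sL0 B m) ≠ 0 := fun h0 => by
      rw [h0, zero_mul] at h1
      exact hD (Int.natAbs_eq_zero.1 h1.symm)
    have : Finite (sL0 B m ⧸ (sRng B).addSubgroupOf (sL0 B m)) := Nat.finite_of_card_ne_zero h0
    have := Fact.mk hp
    obtain ⟨x, hx⟩ := exists_prime_addOrderOf_dvd_card'
      (G := sL0 B m ⧸ (sRng B).addSubgroupOf (sL0 B m)) p h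
    refine hm ?_
    rw [← hx, addOrderOf_dvd_iff_zsmul_eq_zero]
    induction x using QuotientAddGroup.induction_on with
    | H z =>
      rw [← QuotientAddGroup.mk_zsmul, QuotientAddGroup.eq_zero_iff]
      exact z.2
  rw [← h1] at hE
  exact (Nat.Coprime.pow_left E ((Nat.Prime.coprime_iff_not_dvd hp).2 h2)).dvd_of_dvd_mul_left hE

/-- Vectors that are close to `y`. -/
def sLy (B : Matrix ι ι ℤ) (y : ι → ℤ) (q : ℤ) : AddSubgroup (ι → ℤ) where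
  carrier := {z | q ∣ be B z y}
  add_mem' {a b} ha hb := by
    change q ∣ be B (a + b) y
    rw [be, add_dotProduct]
    exact dvd_add ha hb
  zero_mem' := by
    change q ∣ be B 0 y
    rw [be, zero_dotProduct]
    exact dvd_zero q
  neg_mem' {a} ha := by
    change q ∣ be B (-a) y
    rw [be, neg_dotProduct]
    exact (dvd_neg).2 ha

theorem mem_sLy {B : Matrix ι ι ℤ} {y z : ι → ℤ} {q : ℤ} : z ∈ sLy B y q ↔ q ∣ be B z y := Iff.rfl

theorem sLy_index {B : Matrix ι ι ℤ} {y : ι → ℤ} {p g t : ℕ} (hp : p.Prime) {j : ι}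
    (hj : ¬(p : ℤ) ^ (g + 1) ∣ (B.adjugate *ᵥ y) j) : p ^ (t - g) ∣ (sLy B y (p ^ t)).index := by
  have h1 := AddSubgroup.nsmul_index_mem (sLy B y (p ^ t)) (Pi.single j 1)
  rw [mem_sLy, be, smul_dotProduct, single_dotProduct, one_mul, nsmul_eq_mul] at h1
  set N := (sLy B y (p ^ t)).index
  set c := (B.adjugate *ᵥ y) j
  by_cases hN : N = 0
  · rw [hN]; exact dvd_zero _
  have hc : c.natAbs ≠ 0 := fun h => hj (by rw [Int.natAbs_eq_zero.1 h]; exact dvd_zero _)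
  have h2 : p ^ t ∣ N * c.natAbs := by
    have := Int.natAbs_dvd_natAbs.2 h1
    simpa [Int.natAbs_mul, Int.natAbs_pow] using this
  have h3 : ¬p ^ (g + 1) ∣ c.natAbs := fun h => hj (by
    have := Int.natCast_dvd.2 h
    simpa using this)
  rw [hp.pow_dvd_iff_le_factorization (mul_ne_zero hN hc), Nat.factorization_mul hN hc,
    Finsupp.add_apply] at h2
  rw [hp.pow_dvd_iff_le_factorization hc] at h3
  rw [hp.pow_dvd_iff_le_factorization hN]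
  omega

theorem three_far {B : Matrix ι ι ℤ} (hB : B.IsSymm) (hD : B.det ≠ 0) {p E u t : ℕ} (hp : p.Prime)
    (hE : p ^ E ∣ B.det.natAbs) (hu : ¬p ^ (u + 1) ∣ 2) (ht : 3 * t + u ≤ 2 * E + 2)
    (y : Fin 3 → ι → ℤ) (h : ∀ a, B.det ∣ be B (y a) (y a)) :
    (p : ℤ) ^ t ∣ be B (y 0) (y 1) ∨ (p : ℤ) ^ t ∣ be B (y 0) (y 2) ∨
      (p : ℤ) ^ t ∣ be B (y 1) (y 2) := by
  by_contra hn
  simp only [not_or] at hn
  have h1 := Int.natAbs_dvd_natAbs.2 (three_vec hB hD y h)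
  have e : ∀ b : ℤ, ¬(p : ℤ) ^ t ∣ b → b.natAbs ≠ 0 ∧ b.natAbs.factorization p < t := fun b hb => by
    have hc : b.natAbs ≠ 0 := fun h => hb (by rw [Int.natAbs_eq_zero.1 h]; exact dvd_zero _)
    refine ⟨hc, lt_of_not_ge fun h => hb ?_⟩
    have := Int.natCast_dvd.2 ((hp.pow_dvd_iff_le_factorization hc).2 h)
    simpa using this
  obtain ⟨a1, b1⟩ := e _ hn.1
  obtain ⟨a2, b2⟩ := e _ hn.2.1
  obtain ⟨a3, b3⟩ := e _ hn.2.2
  have h2 := (pow_dvd_pow_of_dvd hE 2).trans (by simpa only [Int.natAbs_pow] using h1)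
  rw [← pow_mul, Int.natAbs_mul, Int.natAbs_mul, Int.natAbs_mul,
    hp.pow_dvd_iff_le_factorization (mul_ne_zero (by norm_num) (mul_ne_zero (mul_ne_zero a1 a2) a3)),
    Nat.factorization_mul (by norm_num) (mul_ne_zero (mul_ne_zero a1 a2) a3),
    Nat.factorization_mul (mul_ne_zero a1 a2) a3, Nat.factorization_mul a1 a2] at h2
  rw [hp.pow_dvd_iff_le_factorization two_ne_zero] at hu
  simp only [Finsupp.add_apply] at h2
  change E * 2 ≤ (2 : ℕ).factorization p + _ at h2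
  omega

/-- The prime `p` is useful for `x`. -/
def Us (B : Matrix ι ι ℤ) (p : ℕ) (x : ι → ℤ) : Prop :=
  (∃ (m : ℤ) (w : ι → ℤ), ¬(p : ℤ) ∣ m ∧ m ∣ B.det ∧ B *ᵥ w = m • x) ∨ (B.det ∣ be B x x ∧
    ∃ j, ¬(p : ℤ) ^ (11 * B.det.natAbs.factorization p / 20 + 1) ∣ (B.adjugate *ᵥ x) j)

theorem prime_exp {p : ℕ} (hp : p.Prime) (E : ℕ) : ∃ u t : ℕ, ¬p ^ (u + 1) ∣ 2 ∧
    3 * t + u ≤ 2 * E + 2 ∧ t ≤ E ∧ p ^ E ≤ (2 * p ^ (t - 11 * E / 20)) ^ 10 := by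
  by_cases h2 : p = 2
  · subst h2
    refine ⟨1, (2 * E + 1) / 3, by norm_num, by omega, by omega, ?_⟩
    rw [← pow_succ', ← pow_mul]
    exact Nat.pow_le_pow_right two_pos (by omega)
  · refine ⟨0, (2 * E + 2) / 3, fun h => h2 ?_, by omega, by omega, ?_⟩
    · rw [zero_add, pow_one] at h
      exact (Nat.prime_dvd_prime_iff_eq hp Nat.prime_two).1 h
    · refine le_trans ?_ (Nat.pow_le_pow_left (Nat.le_mul_of_pos_left _ two_pos) 10)
      rw [← pow_mul]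
      exact Nat.pow_le_pow_right hp.pos (by omega)

theorem prime_fam {B : Matrix ι ι ℤ} (hB : B.IsSymm) (hD : B.det ≠ 0) {p : ℕ} (hp : p.Prime) :
    ∃ L : Fin 3 → AddSubgroup (ι → ℤ), (∀ k, (∀ y, B *ᵥ y ∈ L k) ∧
      ∃ e, p ^ e ∣ (L k).index ∧ p ^ B.det.natAbs.factorization p ≤ (2 * p ^ e) ^ 10) ∧
      ∀ x, Us B p x → ∃ k, x ∈ L k := by
  set E := B.det.natAbs.factorization p with hE
  have hD' : B.det.natAbs ≠ 0 := Int.natAbs_ne_zero.2 hD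
  have hpE : p ^ E ∣ B.det.natAbs := Nat.ordProj_dvd _ _
  let m₀ : ℕ := B.det.natAbs / p ^ E
  have hm₀ : ¬(p : ℤ) ∣ m₀ := fun h => Nat.not_dvd_ordCompl hp hD' (Int.natCast_dvd_natCast.1 h)
  let Ok : AddSubgroup (ι → ℤ) → Prop := fun L =>
    (∀ y, B *ᵥ y ∈ L) ∧ ∃ e, p ^ e ∣ L.index ∧ p ^ E ≤ (2 * p ^ e) ^ 10
  have ok0 : Ok (sL0 B m₀) := ⟨fun y => ⟨(m₀ : ℤ) • y, by rw [mulVecLin_apply, mulVec_smul]; rfl⟩, E,
    sL0_index hD hp hm₀ hpE, (Nat.le_mul_of_pos_left _ two_pos).trans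
      (Nat.le_self_pow (by norm_num) _)⟩
  have in0 : ∀ x, (∃ (m : ℤ) (w : ι → ℤ), ¬(p : ℤ) ∣ m ∧ m ∣ B.det ∧ B *ᵥ w = m • x) →
      x ∈ sL0 B m₀ := by
    rintro x ⟨m, w, h1, h2, h3⟩
    have h4 : m.natAbs ∣ p ^ E * m₀ := by
      rw [Nat.ordProj_mul_ordCompl_eq_self]
      exact Int.natAbs_dvd_natAbs.2 h2
    have h5 : Nat.Coprime m.natAbs (p ^ E) := Nat.Coprime.pow_right E
      ((Nat.Prime.coprime_iff_not_dvd hp).2 fun h => h1 (Int.natCast_dvd.2 h)).symm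
    obtain ⟨k, hk⟩ := Int.natAbs_dvd.1 (Int.natCast_dvd_natCast.2 (h5.dvd_of_dvd_mul_left h4))
    exact mem_sL0.2 ⟨k • w, by rw [mulVec_smul, h3, hk, smul_smul, mul_comm]⟩
  obtain ⟨u, t, hu, ht, htE, hle⟩ := prime_exp hp E
  let S : (ι → ℤ) → Prop := fun x =>
    B.det ∣ be B x x ∧ ∃ j, ¬(p : ℤ) ^ (11 * E / 20 + 1) ∣ (B.adjugate *ᵥ x) j
  have hpt : (p : ℤ) ^ t ∣ B.det := (pow_dvd_pow _ htE).trans (by
    have := Int.natCast_dvd.2 hpE
    simpa using this)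
  have oky : ∀ y, S y → Ok (sLy B y (p ^ t)) := fun y ⟨_, j, hj⟩ =>
    ⟨fun w => by rw [mem_sLy, be_mulVec hB]; exact hpt.mul_right _, _, sLy_index hp hj, hle⟩
  have fin : ∀ L₁ L₂, Ok L₁ → Ok L₂ → (∀ x, S x → x ∈ L₁ ∨ x ∈ L₂) →
      ∃ L : Fin 3 → AddSubgroup (ι → ℤ), (∀ k, Ok (L k)) ∧ ∀ x, Us B p x → ∃ k, x ∈ L k :=
    fun L₁ L₂ h₁ h₂ h => ⟨![sL0 B m₀, L₁, L₂], fun k => by
      fin_cases k
      exacts [ok0, h₁, h₂], fun x hx => hx.elim (fun hx => ⟨0, in0 x hx⟩) fun hx =>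
        (h x hx).elim (fun h => ⟨1, h⟩) fun h => ⟨2, h⟩⟩
  by_cases h1 : ∃ y₁ y₂, S y₁ ∧ S y₂ ∧ ¬(p : ℤ) ^ t ∣ be B y₁ y₂
  · obtain ⟨y₁, y₂, s₁, s₂, h12⟩ := h1
    refine fin _ _ (oky y₁ s₁) (oky y₂ s₂) fun x hx => ?_
    have := three_far hB hD hp hpE hu ht ![x, y₁, y₂] fun a => by
      fin_cases a
      exacts [hx.1, s₁.1, s₂.1]
    rcases this with h | h | h
    exacts [.inl h, .inr h, absurd h h12]
  by_cases h2 : ∃ y, S y
  · obtain ⟨y, hy⟩ := h2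
    exact fin _ _ (oky y hy) ok0 fun x hx => .inl (by_contra fun h => h1 ⟨x, y, hx, hy, h⟩)
  · exact fin _ _ ok0 ok0 fun x hx => absurd ⟨x, hx⟩ h2

end Vale.Agent.P160F
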