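import Vale.Agent.P160F.SAdj
import Vale.Agent.P160F.SPrime

/-! P160F, side cases: the case distinction. -/

open Finset Matrix

namespace Vale.Agent.P160F

variable {n : ℕ}

theorem s_prim {v a : Fin (n + 1) → ℤ} (ha : ∑ i, v i * a i = 1) {p : ℕ} (hp : p.Prime) :
    ∃ i, ¬(p : ℤ) ∣ v i := by
  by_contra h
  have h1 : (p : ℤ) ∣ 1 := ha ▸ dvd_sum fun i _ => (not_not.1 (not_exists.1 h i)).mul_right _
  exact hp.one_lt.ne' (Nat.dvd_one.1 (Int.natCast_dvd_natCast.1 h1))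

theorem s_prod_fact {l : ℕ} (hl : l ≠ 0) : ∏ p ∈ l.primeFactors, p ^ l.factorization p = l := by
  conv_rhs => rw [← Nat.prod_factorization_pow_eq_self hl]
  rfl

theorem s_caseII {A : Matrix (Fin (n + 1)) (Fin (n + 1)) ℤ} {lam : ℤ} {v a : Fin (n + 1) → ℤ}
    (hl : lam ≠ 0) (ha : ∑ i, v i * a i = 1) (hv : A *ᵥ v = 0)
    (hd : ∀ i, (del A i).det = lam * v i ^ 2) {η Λ : ℝ} (hη : 0 < η) (hS : ¬Sparse A η)
    (hΛ : 1 < Λ) (h : Λ ≤ lam.natAbs) : ∃ i, (del A i).det ≠ 0 ∧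
      ∃ U ⊆ (del A i).det.natAbs.primeFactors,
        (∀ p ∈ U, Us (del A i) p fun j => A (i.succAbove j) i) ∧
        Λ ^ η ≤ (∏ p ∈ U, p ^ (del A i).det.natAbs.factorization p : ℕ) := by
  set l := lam.natAbs with hl'
  have hl0 : l ≠ 0 := Int.natAbs_ne_zero.2 hl
  let w : ℕ → ℝ := fun p => Real.log (p ^ l.factorization p : ℕ)
  have hw : ∀ p, 0 ≤ w p := fun p => Real.log_natCast_nonneg _
  have hlog : ∀ U ⊆ l.primeFactors,
      ∑ p ∈ U, w p = Real.log (∏ p ∈ U, p ^ l.factorization p : ℕ) := fun U hU => by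
    rw [Nat.cast_prod, Real.log_prod fun p hp => Nat.cast_ne_zero.2
      (pow_ne_zero _ (Nat.prime_of_mem_primeFactors (hU hp)).ne_zero)]
  have h1 : ∑ _i : Fin (n + 1), η * Real.log l ≤
      ∑ i, ∑ p ∈ l.primeFactors.filter fun p : ℕ => ¬(p : ℤ) ∣ v i, w p := by
    have h2 : Real.log l = ∑ p ∈ l.primeFactors, w p := by rw [hlog _ Subset.rfl, s_prod_fact hl0]
    simp only [sum_filter]
    rw [sum_comm, sum_const, card_univ, nsmul_eq_mul, h2, ← mul_assoc, mul_sum]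
    refine sum_le_sum fun p hp => ?_
    have hp' := Nat.prime_of_mem_primeFactors hp
    rw [← sum_filter, sum_const, nsmul_eq_mul, mul_comm _ η]
    refine mul_le_mul_of_nonneg_right (not_lt.1 fun h3 => hS ⟨p, v, hp', s_prim ha hp', fun i => ?_,
      h3⟩) (hw p)
    rw [hv]
    exact dvd_zero _
  obtain ⟨i, -, hi⟩ := exists_le_of_sum_le univ_nonempty h1
  have hΛl : 0 < Real.log Λ := Real.log_pos hΛ
  have h3 : η * Real.log Λ ≤ η * Real.log l :=
    mul_le_mul_of_nonneg_left (Real.log_le_log (by linarith) h) hη.le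
  have hvi : v i ≠ 0 := fun h0 => by
    simp only [h0, dvd_zero, not_true, filter_false, sum_empty] at hi
    nlinarith
  have hD : (del A i).det ≠ 0 := by rw [hd]; exact mul_ne_zero hl (pow_ne_zero _ hvi)
  have hD' := Int.natAbs_ne_zero.2 hD
  have hlD : l ∣ (del A i).det.natAbs := Int.natAbs_dvd_natAbs.2 ⟨_, hd i⟩
  refine ⟨i, hD, l.primeFactors.filter fun p : ℕ => ¬(p : ℤ) ∣ v i,
    (filter_subset _ _).trans (Nat.primeFactors_mono hlD hD'), fun p hp => .inl ⟨-v i, _,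
      by simpa using (mem_filter.1 hp).2, ⟨-(lam * v i), by rw [hd]; ring⟩, del_mulVec A i hv⟩, ?_⟩
  rw [hlog _ (filter_subset _ _)] at hi
  have h4 : 0 < ∏ p ∈ l.primeFactors.filter fun p : ℕ => ¬(p : ℤ) ∣ v i, p ^ l.factorization p :=
    prod_pos fun p hp => pow_pos (Nat.prime_of_mem_primeFactors (mem_filter.1 hp).1).pos _
  rw [Real.rpow_def_of_pos (by linarith), mul_comm]
  refine (Real.exp_le_exp.2 (h3.trans hi)).trans ?_
  rw [Real.exp_log (Nat.cast_pos.2 h4)]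
  refine Nat.cast_le.2 (prod_le_prod' fun p hp => Nat.pow_le_pow_right
    (Nat.prime_of_mem_primeFactors (mem_filter.1 hp).1).pos ?_)
  exact (Nat.factorization_le_iff_dvd hl0 hD').2 hlD p

theorem s_good {A : Matrix (Fin (n + 1)) (Fin (n + 1)) ℤ} (hA : A.IsSymm) {lam : ℤ}
    {v a : Fin (n + 1) → ℤ} (hl : lam ≠ 0) (ha : ∑ i, v i * a i = 1) (hv : A *ᵥ v = 0)
    {i : Fin (n + 1)} (hi : v i ≠ 0) (hd : (del A i).det = lam * v i ^ 2) {p : ℕ}
    (hp : p ∈ (del A i).det.natAbs.primeFactors)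
    (h : 10 * lam.natAbs.factorization p ≤ (del A i).det.natAbs.factorization p) :
    Us (del A i) p fun j => A (i.succAbove j) i := by
  have hp' := Nat.prime_of_mem_primeFactors hp
  have a1 := Int.natAbs_ne_zero.2 hl
  have a2 := Int.natAbs_ne_zero.2 hi
  have h1 : 0 < (del A i).det.natAbs.factorization p :=
    hp'.factorization_pos_of_dvd (Nat.mem_primeFactors.1 hp).2.2 (Nat.dvd_of_mem_primeFactors hp)
  have h2 : (del A i).det.natAbs.factorization p =
      lam.natAbs.factorization p + 2 * (v i).natAbs.factorization p := by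
    rw [hd, Int.natAbs_mul, Int.natAbs_pow, Nat.factorization_mul a1 (pow_ne_zero _ a2),
      Nat.factorization_pow]
    rfl
  obtain ⟨k, hk⟩ := s_prim ha hp'
  have h3 : k ≠ i := fun h3 => hk (h3 ▸ Int.natCast_dvd.2 (Nat.dvd_of_factorization_pos (by omega)))
  obtain ⟨j, rfl⟩ := Fin.exists_succAbove_eq h3
  refine .inr ⟨col_iso hA hv hi hd, j, fun h4 => ?_⟩
  rw [adj_col hv hi hd, dvd_neg] at h4
  have a3 : (v (i.succAbove j)).natAbs ≠ 0 := fun h => hk (Int.natAbs_eq_zero.1 h ▸ dvd_zero _)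
  have h5 := Int.natAbs_dvd_natAbs.2 h4
  rw [Int.natAbs_pow, Int.natAbs_natCast, Int.natAbs_mul, Int.natAbs_mul,
    hp'.pow_dvd_iff_le_factorization (mul_ne_zero (mul_ne_zero a1 a2) a3),
    Nat.factorization_mul (mul_ne_zero a1 a2) a3, Nat.factorization_mul a1 a2] at h5
  have h6 : (v (i.succAbove j)).natAbs.factorization p = 0 :=
    Nat.factorization_eq_zero_of_not_dvd fun h => hk (Int.natCast_dvd.2 h)
  simp only [Finsupp.add_apply] at h5
  omega

theorem s_case {A : Matrix (Fin (n + 1)) (Fin (n + 1)) ℤ} (hA : A.IsSymm) (hC : Cork A)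
    {η Λ : ℝ} (hη : 0 < η) (hη1 : η ≤ 1) (hS : ¬Sparse A η) (hΛ : 1 < Λ) :
    ∃ i, (del A i).det ≠ 0 ∧ ((∃ U ⊆ (del A i).det.natAbs.primeFactors,
      (∀ p ∈ U, Us (del A i) p fun j => A (i.succAbove j) i) ∧
        Λ ^ η ≤ (∏ p ∈ U, p ^ (del A i).det.natAbs.factorization p : ℕ)) ∨
      (((del A i).det.natAbs : ℝ) ≤ Λ ^ 11 ∧
        ∀ j, |((del A i).adjugate *ᵥ fun j => A (i.succAbove j) i) j| ≤ |(del A i).det|)) := by
  obtain ⟨lam, v, a, hl, ha, hv, hd⟩ := adj_rank_one hA hC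
  by_cases h : Λ ≤ lam.natAbs
  · obtain ⟨i, h1, h2⟩ := s_caseII hl ha hv hd hη hS hΛ h
    exact ⟨i, h1, .inl h2⟩
  obtain ⟨i, -, hi⟩ := exists_max_image univ (fun i => |v i|) univ_nonempty
  have hvi : v i ≠ 0 := fun h0 => by
    obtain ⟨k, hk⟩ := s_prim ha Nat.prime_two
    have h1 := hi k (mem_univ _)
    rw [h0, abs_zero, abs_nonpos_iff] at h1
    exact hk (h1 ▸ dvd_zero _)
  have hD : (del A i).det ≠ 0 := by rw [hd]; exact mul_ne_zero hl (pow_ne_zero _ hvi)
  refine ⟨i, hD, ?_⟩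
  by_cases h2 : ((del A i).det.natAbs : ℝ) ≤ Λ ^ 11
  · refine .inr ⟨h2, fun j => ?_⟩
    rw [adj_col hv hvi (hd i), hd, abs_neg, sq, ← mul_assoc, abs_mul, abs_mul (lam * v i)]
    exact mul_le_mul_of_nonneg_left (hi _ (mem_univ _)) (abs_nonneg _)
  set D := (del A i).det.natAbs with hD'
  set l := lam.natAbs with hl'
  refine .inl ⟨D.primeFactors.filter fun p => 10 * l.factorization p ≤ D.factorization p,
    filter_subset _ _, fun p hp => s_good hA hl ha hv hvi (hd i) (mem_filter.1 hp).1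
      (mem_filter.1 hp).2, ?_⟩
  have hl0 : l ≠ 0 := Int.natAbs_ne_zero.2 hl
  have h3 := prod_filter_mul_prod_filter_not D.primeFactors
    (fun p => 10 * l.factorization p ≤ D.factorization p) fun p => p ^ D.factorization p
  rw [s_prod_fact (Int.natAbs_ne_zero.2 hD)] at h3
  have h4 : ∏ p ∈ D.primeFactors with ¬10 * l.factorization p ≤ D.factorization p,
      p ^ D.factorization p ≤ l ^ 10 := by
    conv_rhs => rw [← s_prod_fact hl0, ← prod_pow]
    refine (prod_le_prod' (g := fun p => (p ^ l.factorization p) ^ 10) fun p hp => ?_).trans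
      (prod_le_prod_of_subset_of_one_le' (fun p hp => ?_) fun p hp _ =>
        Nat.one_le_pow _ _ (pow_pos (Nat.prime_of_mem_primeFactors hp).pos _))
    · obtain ⟨h5, h6⟩ := mem_filter.1 hp
      rw [← pow_mul]
      exact Nat.pow_le_pow_right (Nat.prime_of_mem_primeFactors h5).pos (by omega)
    · obtain ⟨h5, h6⟩ := mem_filter.1 hp
      exact Nat.mem_primeFactors.2 ⟨Nat.prime_of_mem_primeFactors h5,
        Nat.dvd_of_factorization_pos (by omega), hl0⟩
  set X := ∏ p ∈ D.primeFactors with 10 * l.factorization p ≤ D.factorization p,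
    p ^ D.factorization p
  have h5 : (D : ℝ) ≤ X * Λ ^ 10 := by
    have h6 : D ≤ X * l ^ 10 := h3.symm.le.trans (Nat.mul_le_mul_left _ h4)
    calc (D : ℝ) ≤ X * (l : ℝ) ^ 10 := by exact_mod_cast h6
      _ ≤ _ := by gcongr; exact (not_le.1 h).le
  have h6 : Λ ≤ X := by
    refine le_of_mul_le_mul_right ?_ (pow_pos (zero_lt_one.trans hΛ) 10)
    rw [← pow_succ']
    exact (not_le.1 h2).le.trans h5
  exact (Real.rpow_le_self_of_one_le hΛ.le hη1).trans h6

end Vale.Agent.P160F
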