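import Vale.Agent.P160F.TRectD

/-! A vanishing Schur complement determines the complementary block.
Hint: `pr_le_of_fiber` with `g = Sym2.map Subtype.val : Sym2 ↥Sᶜ → Sym2 (Fin N)`. The entries with an
index in `S` are not resampled, so two samples `y`, `y'` in the event agree (cancel the nonzero
determinant); `pr_le_card` with a set of size at most one; `Sym2.card` gives
`Fintype.card (Sym2 ↥Sᶜ) = (t + 1).choose 2 ≥ t * t / 2`. -/

open Finset Matrix

namespace Vale.Agent.P160F

open Vale.Agent.P160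

theorem TDetP_agree {N : ℕ} {S : Finset (Fin N)} {A B : Matrix (Fin N) (Fin N) ℤ}
    (h1 : ∀ a ∈ S, ∀ j, A a j = B a j) (h2 : ∀ a ∈ S, ∀ j, A j a = B j a) (hA : Dtm A S)
    (hB : Dtm B S) {i j : Fin N} (hi : i ∉ S) (hj : j ∉ S) : A i j = B i j := by
  have e : blk A S = blk B S := by
    ext a b
    exact h1 a a.2 b
  refine mul_left_cancel₀ hA.1 ?_
  rw [hA.2 i j hi hj, e, hB.2 i j hi hj]
  exact sum_congr rfl fun a _ => sum_congr rfl fun b _ => by rw [h2 a a.2 i, h1 b b.2 j]

theorem TDetP_ext {N : ℕ} (S : Finset (Fin N)) (ω : Sym2 (Fin N) → Bool)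
    (y : Sym2 ↥(Sᶜ) → Bool) {a : Fin N} (ha : a ∈ S) (j : Fin N) :
    Function.extend (Sym2.map Subtype.val) y ω s(a, j) = ω s(a, j) := by
  refine Function.extend_apply' _ _ _ ?_
  rintro ⟨e, he⟩
  have h : a ∈ Sym2.map Subtype.val e := he ▸ Sym2.mem_mk_left a j
  obtain ⟨c, -, rfl⟩ := Sym2.mem_map.1 h
  exact mem_compl.1 c.2 ha

theorem TDetP_choose (t : ℕ) : t * t / 2 ≤ (t + 1).choose 2 := by
  rw [Nat.choose_two_right, Nat.add_sub_cancel]
  exact Nat.div_le_div_right (Nat.mul_le_mul_right t (Nat.le_succ t))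

theorem pr_dtm {N : ℕ} (S : Finset (Fin N)) :
    pr (fun ω : Sym2 (Fin N) → Bool => Dtm (Bm ω) S) ≤
      1 / 2 ^ ((N - S.card) * (N - S.card) / 2) := by
  classical
  have hg : Function.Injective (Sym2.map (Subtype.val : ↥(Sᶜ) → Fin N)) :=
    Sym2.map.injective Subtype.val_injective
  refine pr_le_of_fiber hg _ (by positivity) fun ω => ?_
  set p : (Sym2 ↥(Sᶜ) → Bool) → Prop :=
    fun y => Dtm (Bm (Function.extend (Sym2.map Subtype.val) y ω)) S with hp
  have h1 : (univ.filter p).card ≤ 1 := by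
    refine card_le_one.2 fun y hy y' hy' => funext fun e => ?_
    induction e using Sym2.ind with
    | h i j =>
      have b := TDetP_agree (S := S) (A := Bm (Function.extend (Sym2.map Subtype.val) y ω))
        (B := Bm (Function.extend (Sym2.map Subtype.val) y' ω))
        (fun a ha k => by simp only [Bm, of_apply, TDetP_ext S ω _ ha])
        (fun a ha k => by simp only [Bm, of_apply, Sym2.eq_swap (a := k), TDetP_ext S ω _ ha])
        (mem_filter.1 hy).2 (mem_filter.1 hy').2 (mem_compl.1 i.2) (mem_compl.1 j.2)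
      have e1 : ∀ z : Sym2 ↥(Sᶜ) → Bool,
          Function.extend (Sym2.map Subtype.val) z ω s(i.1, j.1) = z s(i, j) := fun z =>
        hg.extend_apply z ω s(i, j)
      simp only [Bm, of_apply, e1] at b
      revert b
      cases y s(i, j) <;> cases y' s(i, j) <;> simp
  refine (pr_le_card p (univ.filter p) fun a ha => mem_filter.2 ⟨mem_univ _, ha⟩).trans ?_
  rw [Fintype.card_fun, Fintype.card_bool, Sym2.card, Fintype.card_coe, card_compl,
    Fintype.card_fin, Nat.cast_pow, Nat.cast_ofNat]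
  have h2 : ((univ.filter p).card : ℝ) ≤ 1 := by exact_mod_cast h1
  exact div_le_div₀ zero_le_one h2 (by positivity)
    (pow_le_pow_right₀ one_le_two (TDetP_choose _))

end Vale.Agent.P160F
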