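import Vale.Agent.P160F.TRectD

/-! Maximal nonsingular principal blocks.
Hint: take `S` of maximal cardinality with `(blk A S).det ≠ 0` (`S = ∅` qualifies, `S = univ` does not).
Let `d = (blk A S).det`, `c i j = d * A i j - ∑ a b, A i a * adj a b * A b j`. For `f : Fin k → Fin N`
(`k = 1, 2`) the bordered matrix `A.submatrix (Sum.elim val f) (Sum.elim val f) = fromBlocks B Y Yᵀ Z`
times `fromBlocks 1 (-(adj B * Y)) 0 (d • 1)` is block triangular, so
`det * d ^ k = d * det (c (f a) (f b))`. By maximality these determinants vanish (the index map is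
injective with image of size `> S.card`, or two rows agree), so `c i i = 0` and then `c i j ^ 2 = 0`.
For the last claim `S' = insert i S`; reindex determinants with `Matrix.det_submatrix_equiv_self`. -/

open Finset Matrix

namespace Vale.Agent.P160F

variable {N : ℕ}

theorem TSchur_det_inj {ι : Type} [Fintype ι] [DecidableEq ι] (A : Matrix (Fin N) (Fin N) ℤ)
    {g : ι → Fin N} (hg : Function.Injective g) {S : Finset (Fin N)}
    (hS : ∀ x, x ∈ S ↔ ∃ a, g a = x) : (A.submatrix g g).det = (blk A S).det := by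
  have hb : Function.Bijective fun a => (⟨g a, (hS _).2 ⟨a, rfl⟩⟩ : S) :=
    ⟨fun a b h => hg (congrArg Subtype.val h), fun x => by
      obtain ⟨a, ha⟩ := (hS x).1 x.2
      exact ⟨a, Subtype.ext ha⟩⟩
  rw [← Matrix.det_submatrix_equiv_self (Equiv.ofBijective _ hb) (blk A S)]
  rfl

theorem TSchur_zero {ι : Type} [Fintype ι] [DecidableEq ι] (A : Matrix (Fin N) (Fin N) ℤ) {k : ℕ}
    (hmax : ∀ T : Finset (Fin N), (blk A T).det ≠ 0 → T.card ≤ k) (g : ι → Fin N)
    (hk : k < Fintype.card ι) : (A.submatrix g g).det = 0 := by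
  by_cases hg : Function.Injective g
  · rw [TSchur_det_inj A hg (S := univ.image g) (fun x => by simp)]
    by_contra h
    have := hmax _ h
    rw [card_image_of_injective _ hg, card_univ] at this
    omega
  · obtain ⟨a, b, hab, hne⟩ := Function.not_injective_iff.1 hg
    exact Matrix.det_zero_of_row_eq hne (funext fun c => by simp [hab])

/-- The scaled Schur complement. -/
def TSchurC (A : Matrix (Fin N) (Fin N) ℤ) (S : Finset (Fin N)) : Matrix (Fin N) (Fin N) ℤ :=
  Matrix.of fun i j =>
    (blk A S).det * A i j - ∑ a : S, ∑ b : S, A i a * (blk A S).adjugate a b * A b j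

theorem TSchur_symm {A : Matrix (Fin N) (Fin N) ℤ} (hA : A.IsSymm) (S : Finset (Fin N))
    (i j : Fin N) : TSchurC A S j i = TSchurC A S i j := by
  have hB : (blk A S)ᵀ = blk A S := by rw [blk, transpose_submatrix, hA.eq]
  have hC : ∀ a b, (blk A S).adjugate a b = (blk A S).adjugate b a := fun a b => by
    rw [← transpose_apply (blk A S).adjugate, adjugate_transpose, hB]
  simp only [TSchurC, of_apply]
  rw [hA.apply i j, sum_comm]
  congr 1
  refine sum_congr rfl fun a _ => sum_congr rfl fun b _ => ?_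
  rw [hC a b, hA.apply a i, hA.apply j b]
  ring

theorem TSchur_block {ι κ : Type} [Fintype ι] [DecidableEq ι] [Fintype κ] [DecidableEq κ]
    (B : Matrix ι ι ℤ) (Y : Matrix ι κ ℤ) (X : Matrix κ ι ℤ) (Z : Matrix κ κ ℤ) :
    (fromBlocks B Y X Z).det * B.det ^ Fintype.card κ =
      B.det * (Matrix.of fun i j => B.det * Z i j -
        ∑ a, ∑ b, X i a * B.adjugate a b * Y b j : Matrix κ κ ℤ).det := by
  have h2 : (fromBlocks (1 : Matrix ι ι ℤ) (-(B.adjugate * Y))
      (0 : Matrix κ ι ℤ) (B.det • (1 : Matrix κ κ ℤ))).det = B.det ^ Fintype.card κ := by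
    rw [det_fromBlocks_zero₂₁, det_one, one_mul, det_smul, det_one, mul_one]
  have h3 : (Matrix.of fun i j => B.det * Z i j -
      ∑ a, ∑ b, X i a * B.adjugate a b * Y b j : Matrix κ κ ℤ) =
      X * -(B.adjugate * Y) + Z * (B.det • (1 : Matrix κ κ ℤ)) := by
    rw [Matrix.mul_neg, Matrix.mul_smul, Matrix.mul_one, neg_add_eq_sub]
    ext a b
    simp only [of_apply, Matrix.sub_apply, Matrix.smul_apply, smul_eq_mul, Matrix.mul_apply, mul_sum,
      mul_assoc]
  have h4 : B * -(B.adjugate * Y) + Y * (B.det • (1 : Matrix κ κ ℤ)) = 0 := by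
    rw [Matrix.mul_neg, ← Matrix.mul_assoc, mul_adjugate, Matrix.mul_smul, Matrix.mul_one,
      Matrix.smul_mul, Matrix.one_mul, neg_add_cancel]
  rw [← h2, ← det_mul, fromBlocks_multiply, h4, det_fromBlocks_zero₁₂, ← h3]
  simp

theorem TSchur_border {κ : Type} [Fintype κ] [DecidableEq κ] (A : Matrix (Fin N) (Fin N) ℤ)
    (S : Finset (Fin N)) (f : κ → Fin N) :
    (A.submatrix (Sum.elim (Subtype.val : S → Fin N) f) (Sum.elim Subtype.val f)).det *
      (blk A S).det ^ Fintype.card κ = (blk A S).det * ((TSchurC A S).submatrix f f).det := by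
  have h1 : A.submatrix (Sum.elim (Subtype.val : S → Fin N) f) (Sum.elim Subtype.val f) =
      fromBlocks (blk A S) (A.submatrix Subtype.val f) (A.submatrix f Subtype.val)
        (A.submatrix f f) := by
    ext (a | a) (b | b) <;> rfl
  rw [h1, TSchur_block]
  rfl

theorem exists_dtm {N : ℕ} (A : Matrix (Fin N) (Fin N) ℤ) (hA : A.IsSymm) (h : A.det = 0) :
    ∃ S : Finset (Fin N), S.card < N ∧ Dtm A S ∧ ∃ (S' : Finset (Fin N)) (h' : S'.card = S.card + 1),
      Cork (A.submatrix (S'.orderEmbOfFin h') (S'.orderEmbOfFin h')) := by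
  obtain ⟨S, hS, hmax⟩ := exists_max_image
    (univ.filter fun T : Finset (Fin N) => (blk A T).det ≠ 0) Finset.card
    ⟨∅, mem_filter.2 ⟨mem_univ _, by rw [det_isEmpty]; exact one_ne_zero⟩⟩
  have hd : (blk A S).det ≠ 0 := (mem_filter.1 hS).2
  have hm : ∀ T : Finset (Fin N), (blk A T).det ≠ 0 → T.card ≤ S.card := fun T hT =>
    hmax T (mem_filter.2 ⟨mem_univ _, hT⟩)
  have hne : S ≠ univ := by
    rintro rfl
    rw [← TSchur_det_inj A Function.injective_id (fun x => by simp), submatrix_id_id] at hd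
    exact hd h
  have hz : ∀ (k : ℕ) (f : Fin (k + 1) → Fin N), ((TSchurC A S).submatrix f f).det = 0 := by
    intro k f
    have h0 := TSchur_border A S f
    rw [TSchur_zero A hm _ (by simp), zero_mul] at h0
    exact (mul_eq_zero.1 h0.symm).resolve_left hd
  have h1 : ∀ i, TSchurC A S i i = 0 := fun i => by
    simpa using hz 0 fun _ => i
  have h2 : ∀ i j, TSchurC A S i j = 0 := fun i j => by
    have h0 := hz 1 ![i, j]
    rw [det_fin_two] at h0
    simp only [submatrix_apply, Matrix.cons_val_zero, Matrix.cons_val_one, h1,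
      TSchur_symm hA S i j] at h0
    simpa using h0
  obtain ⟨i, hi⟩ : ∃ i, i ∉ S := by
    by_contra hc
    exact hne (eq_univ_of_forall fun i => by_contra fun hi => hc ⟨i, hi⟩)
  refine ⟨S, by simpa using card_lt_card (ssubset_univ_iff.2 hne), ⟨hd, fun i j _ _ => ?_⟩,
    insert i S, card_insert_of_notMem hi, TSchur_zero A hm _ (by simp), ?_⟩
  · exact sub_eq_zero.1 (h2 i j)
  · set e := (insert i S).orderEmbOfFin (card_insert_of_notMem hi) with he
    have hr : ∀ x, x ∈ insert i S ↔ ∃ a, e a = x := fun x => by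
      rw [← mem_coe, ← range_orderEmbOfFin _ (card_insert_of_notMem hi)]
      rfl
    obtain ⟨k, hk⟩ := (hr i).1 (mem_insert_self i S)
    refine ⟨k, ?_⟩
    rw [del, submatrix_submatrix,
      TSchur_det_inj A (e.injective.comp Fin.succAbove_right_injective) (S := S) fun x => ?_]
    · exact hd
    · constructor
      · intro hx
        obtain ⟨a, ha⟩ := (hr x).1 (mem_insert_of_mem hx)
        have hak : a ≠ k := by
          rintro rfl
          exact hi (hk ▸ ha ▸ hx)
        obtain ⟨b, hb⟩ := Fin.exists_succAbove_eq hak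
        exact ⟨b, by rw [Function.comp_apply, hb, ha]⟩
      · rintro ⟨b, rfl⟩
        refine (mem_insert.1 ((hr _).2 ⟨_, rfl⟩)).resolve_left fun hc => ?_
        exact Fin.succAbove_ne k b (e.injective (hc.trans hk.symm))

end Vale.Agent.P160F
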