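import Vale.Agent.P160F.Cork
import Vale.Agent.P160F.TSchur
import Vale.Agent.P160F.TDetP

/-! P160F, part Sing. All coranks. -/

open Finset Matrix Module Filter Topology

noncomputable section

namespace Vale.Agent.P160F

open Vale.Agent.P160

theorem Sing_minor {N : ℕ} (S : Finset (Fin N)) {c : ℝ} (hc : 0 ≤ c)
    (h : ∀ k, S.card = k + 1 → pr (fun ω : Sym2 (Fin (k + 1)) → Bool => Cork (Bm ω)) ≤ c) :
    pr (fun ω : Sym2 (Fin N) → Bool => ∃ (k : ℕ) (h' : S.card = k + 1),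
      Cork ((Bm ω).submatrix (S.orderEmbOfFin h') (S.orderEmbOfFin h'))) ≤ c := by
  by_cases h0 : ∃ k, S.card = k + 1
  · obtain ⟨k, hk⟩ := h0
    refine le_trans (pr_mono fun ω ⟨k', h', hω⟩ => ?_)
      ((pr_submatrix (S.orderEmbOfFin hk).injective Cork).trans_le (h k hk))
    obtain rfl : k' = k := by omega
    exact hω
  · rwa [pr_of_not fun ω ⟨k, h', _⟩ => h0 ⟨k, h'⟩]

theorem Sing_split {N : ℕ} {t c : ℝ} (hc : 0 ≤ c) (ht : 4 * N + 2 ≤ t ^ 2) (t0 : 0 ≤ t)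
    (h : ∀ k : ℕ, (N : ℝ) ≤ k + 1 + t →
      pr (fun ω : Sym2 (Fin (k + 1)) → Bool => Cork (Bm ω)) ≤ c) :
    pr (fun ω : Sym2 (Fin N) → Bool => (Bm ω).det = 0) ≤
      (univ.filter fun U : Finset (Fin N) => (U.card : ℝ) ≤ t).card * c + 1 / 2 ^ N := by
  refine (pr_mono (q := fun ω => (∃ U ∈ univ.filter fun U : Finset (Fin N) => (U.card : ℝ) ≤ t,
    ∃ (k : ℕ) (h' : Uᶜ.card = k + 1),
      Cork ((Bm ω).submatrix (Uᶜ.orderEmbOfFin h') (Uᶜ.orderEmbOfFin h'))) ∨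
    ∃ S ∈ univ.filter fun S : Finset (Fin N) => t < ((N - S.card : ℕ) : ℝ), Dtm (Bm ω) S)
    fun ω hω => ?_).trans ((pr_or _ _).trans (add_le_add ?_ ?_))
  · obtain ⟨S, h1, h2, S', h3, h4⟩ := exists_dtm _ (Bm_symm ω) hω
    rcases lt_or_ge t ((N - S.card : ℕ) : ℝ) with h5 | h5
    · exact .inr ⟨S, by simpa using h5, h2⟩
    · refine .inl ⟨S'ᶜ, mem_filter.2 ⟨mem_univ _, le_trans ?_ h5⟩, ?_⟩
      · rw [card_compl, Fintype.card_fin]
        exact Nat.cast_le.2 (by omega)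
      · rw [compl_compl]
        exact ⟨_, h3, h4⟩
  · refine pr_exists_mem_le _ _ fun U hU => Sing_minor _ hc fun k hk => h k ?_
    have h1 := (mem_filter.1 hU).2
    have h2 : N = k + 1 + U.card := by
      have := card_add_card_compl U
      rw [Fintype.card_fin] at this
      omega
    have h3 : (N : ℝ) = k + 1 + U.card := by exact_mod_cast h2
    linarith
  · refine (pr_exists_mem_le _ _ (c := 1 / 2 ^ (2 * N)) fun S hS => (pr_dtm S).trans ?_).trans ?_
    · have h1 := (mem_filter.1 hS).2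
      generalize N - S.card = u at h1 ⊢
      have h2 : ((4 * N + 2 : ℕ) : ℝ) ≤ ((u * u : ℕ) : ℝ) := by push_cast; nlinarith
      have h3 := Nat.cast_le.1 h2
      exact one_div_le_one_div_of_le (by positivity) (pow_le_pow_right₀ one_le_two (by omega))
    · have h1 : ((univ.filter fun S : Finset (Fin N) => t < ((N - S.card : ℕ) : ℝ)).card : ℝ) ≤
          2 ^ N := by exact_mod_cast (card_le_univ _).trans_eq (by simp)
      refine (mul_le_mul_of_nonneg_right h1 (by positivity)).trans_eq ?_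
      rw [two_mul, pow_add]
      field_simp

theorem SING {ε : ℝ} (hε : 0 < ε) : ∀ᶠ n : ℕ in atTop,
    pr (fun ω : Sym2 (Fin n) → Bool => (Bm ω).det = 0) ≤ 2 ^ (-((1 - ε) * n)) := by
  rcases le_total 1 ε with h1 | h1
  · refine Eventually.of_forall fun n => (pr_le_one _).trans (Real.one_le_rpow one_le_two ?_)
    nlinarith [Nat.cast_nonneg (α := ℝ) n]
  obtain ⟨θ₀, a0, -, a1⟩ := binom_small (ε := ε / 4) (by positivity)
  obtain ⟨n₀, a2⟩ := eventually_atTop.1 (CORK (ε := ε / 4) (by positivity))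
  obtain ⟨θ, b0, b1, b2⟩ : ∃ θ : ℝ, 0 < θ ∧ θ ≤ θ₀ ∧ θ ≤ ε / 8 :=
    ⟨min _ _, by positivity, min_le_left _ _, min_le_right _ _⟩
  filter_upwards [poly_le_two_pow (ε := 3 * ε / 8) (by positivity) 3 0,
    eventually_ge_atTop (2 * n₀ + 2),
    tendsto_natCast_atTop_atTop.eventually_ge_atTop (6 / θ ^ 2)] with n c1 c2 c3
  have n0 : (2 * n₀ + 2 : ℝ) ≤ n := by exact_mod_cast c2
  have m0 : (0 : ℝ) ≤ n₀ := Nat.cast_nonneg _
  rw [div_le_iff₀ (by positivity)] at c3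
  have tn : θ * n ≤ ε / 8 * n := by gcongr
  have en : ε * n ≤ n := by nlinarith
  refine (Sing_split (t := θ * n) (c := 2 ^ (1 - (1 - 3 * ε / 8) * n)) (by positivity)
    (by nlinarith) (by positivity) fun k hk => ?_).trans ?_
  · have : n₀ ≤ k := Nat.cast_le.1 (by linarith : (n₀ : ℝ) ≤ k)
    refine (a2 k this).trans (Real.rpow_le_rpow_of_exponent_le one_le_two ?_)
    nlinarith [mul_le_mul_of_nonneg_left hk (by linarith : 0 ≤ 1 - ε / 4),
      mul_nonneg hε.le (by positivity : 0 ≤ θ * n)]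
  have d1 : ((univ.filter fun U : Finset (Fin n) => (U.card : ℝ) ≤ θ * n).card : ℝ) ≤
      2 ^ (ε / 4 * n) := by
    refine le_trans (Nat.cast_le.2 (card_le_card fun U hU => ?_)) (a1 n)
    exact mem_filter.2 ⟨mem_univ _, (mem_filter.1 hU).2.trans (by gcongr)⟩
  set P : ℝ := 2 ^ (-((1 - 5 * ε / 8) * n)) with hP
  have d2 : (2 : ℝ) ^ (ε / 4 * n) * 2 ^ (1 - (1 - 3 * ε / 8) * n) = 2 * P := by
    rw [hP, ← Real.rpow_add two_pos, mul_comm 2, ← Real.rpow_add_one two_ne_zero]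
    congr 1
    ring
  have d3 : (1 : ℝ) / 2 ^ n ≤ P := by
    rw [one_div, ← Real.rpow_natCast, ← Real.rpow_neg zero_le_two]
    exact Real.rpow_le_rpow_of_exponent_le one_le_two (by nlinarith [mul_nonneg hε.le n.cast_nonneg])
  have d4 : (2 : ℝ) ^ (-((1 - ε) * n)) = 2 ^ (3 * ε / 8 * n) * P := by
    rw [hP, ← Real.rpow_add two_pos]
    congr 1
    ring
  have P0 : 0 ≤ P := by positivity
  rw [pow_zero, mul_one] at c1
  refine (add_le_add ((mul_le_mul_of_nonneg_right d1 (by positivity)).trans_eq d2) d3).trans ?_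
  rw [d4]
  nlinarith [mul_le_mul_of_nonneg_right c1 P0]

end Vale.Agent.P160F
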