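import Vale.Agent.P160F.TProb

/-! Small subsets are few.
Hint: for `0 < x ≤ 1`, `(1 + x) ^ N = ∑ U : Finset (Fin N), x ^ U.card` (`Finset.prod_one_add` or
`Finset.sum_pow_mul_eq_add_pow`), and `x ^ U.card ≥ x ^ (θ N)` on the filtered sets. So the count is
at most `exp (x N + θ N log (1 / x))`. Take `x = min 1 (ε / 4)`, `θ = min 1 (ε / (4 (1 + log (1 / x))))`,
and use `log 2 ≥ 1 / 2`. -/

open Finset Matrix Filter Topology

namespace Vale.Agent.P160F

open Vale.Agent.P160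

theorem binom_small {ε : ℝ} (hε : 0 < ε) : ∃ θ : ℝ, 0 < θ ∧ θ ≤ 1 ∧ ∀ N : ℕ,
    ((univ.filter fun U : Finset (Fin N) => (U.card : ℝ) ≤ θ * N).card : ℝ) ≤ 2 ^ (ε * N) := by
  obtain ⟨x, hx0, hx1, hx2⟩ : ∃ x : ℝ, 0 < x ∧ x ≤ 1 ∧ x ≤ ε / 4 :=
    ⟨min 1 (ε / 4), lt_min one_pos (by positivity), min_le_left _ _, min_le_right _ _⟩
  obtain ⟨L, hL⟩ : ∃ L : ℝ, L = -Real.log x := ⟨_, rfl⟩
  have hL0 : 0 ≤ L := by
    rw [hL]
    linarith [Real.log_nonpos hx0.le hx1]
  obtain ⟨θ, h0, h1, h2⟩ : ∃ θ : ℝ, 0 < θ ∧ θ ≤ 1 ∧ θ ≤ ε / (4 * (1 + L)) :=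
    ⟨min 1 (ε / (4 * (1 + L))), lt_min one_pos (by positivity), min_le_left _ _, min_le_right _ _⟩
  have h3 : L * θ ≤ ε / 4 := by
    rw [le_div_iff₀ (by positivity)] at h2
    nlinarith
  refine ⟨θ, h0, h1, fun N => ?_⟩
  have hN : (0 : ℝ) ≤ N := Nat.cast_nonneg _
  have a1 : ∑ U : Finset (Fin N), x ^ U.card = (1 + x) ^ N := by
    have := Finset.prod_one_add (f := fun _ : Fin N => x) univ
    simp only [Finset.prod_const, Finset.card_univ, Fintype.card_fin, Finset.powerset_univ] at this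
    exact this.symm
  have a2 : (1 + x) ^ N ≤ Real.exp (x * N) := by
    rw [mul_comm, Real.exp_nat_mul]
    exact pow_le_pow_left₀ (by linarith) (by linarith [Real.add_one_le_exp x]) _
  have a3 : ((univ.filter fun U : Finset (Fin N) => (U.card : ℝ) ≤ θ * N).card : ℝ) *
      Real.exp (-(L * θ * N)) ≤ ∑ U : Finset (Fin N), x ^ U.card := by
    rw [← nsmul_eq_mul]
    refine (Finset.card_nsmul_le_sum _ (fun U : Finset (Fin N) => x ^ U.card) _
      fun U hU => ?_).trans (Finset.sum_le_sum_of_subset_of_nonneg (Finset.filter_subset _ _)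
        fun U _ _ => by positivity)
    have b1 := (Finset.mem_filter.1 hU).2
    have b2 : x ^ U.card = Real.exp (-(L * U.card)) := by
      rw [hL, neg_mul, neg_neg, mul_comm, Real.exp_nat_mul, Real.exp_log hx0]
    rw [b2]
    refine Real.exp_le_exp.2 (neg_le_neg ?_)
    rw [mul_assoc]
    exact mul_le_mul_of_nonneg_left b1 hL0
  rw [a1, Real.exp_neg, ← div_eq_mul_inv, div_le_iff₀ (Real.exp_pos _)] at a3
  refine a3.trans ((mul_le_mul_of_nonneg_right a2 (Real.exp_pos _).le).trans ?_)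
  rw [← Real.exp_add, Real.rpow_def_of_pos two_pos]
  refine Real.exp_le_exp.2 ?_
  have a4 : (1 : ℝ) / 2 ≤ Real.log 2 := by linarith [Real.log_two_gt_d9]
  have a5 := mul_le_mul_of_nonneg_right a4 (mul_nonneg hε.le hN)
  have a6 := mul_le_mul_of_nonneg_right h3 hN
  have a7 := mul_le_mul_of_nonneg_right hx2 hN
  linarith

/-- Polynomials are eventually below exponentials. -/
theorem poly_le_two_pow {ε : ℝ} (hε : 0 < ε) (C : ℝ) (k : ℕ) :
    ∀ᶠ n : ℕ in atTop, C * (n : ℝ) ^ k ≤ 2 ^ (ε * n) := by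
  have hr : (1 : ℝ) < 2 ^ ε := Real.one_lt_rpow one_lt_two hε
  have h1 := (tendsto_pow_const_div_const_pow_of_one_lt k hr).const_mul C
  rw [mul_zero] at h1
  filter_upwards [h1.eventually (gt_mem_nhds one_pos)] with n hn
  rw [← mul_div_assoc, div_lt_one (by positivity)] at hn
  rw [Real.rpow_mul zero_le_two, Real.rpow_natCast]
  exact hn.le

end Vale.Agent.P160F
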