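import Vale.Agent.P160.Red

/-! Top level definitions for the sharp singularity rate. -/

open Finset Matrix

namespace Vale.Agent.P160F

open Vale.Agent.P160

/-- The zero-one vector. -/
def cv {ι : Type} (x : ι → Bool) : ι → ℤ := fun i => if x i then 1 else 0

/-- A lattice of huge index between `B ℤⁿ` and `ℤⁿ` with many cube points. -/
def BadT {n : ℕ} (ε c : ℝ) (B : Matrix (Fin n) (Fin n) ℤ) : Prop :=
  B.det ≠ 0 ∧ ∃ L : AddSubgroup (Fin n → ℤ), (∀ y, B *ᵥ y ∈ L) ∧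
    Real.exp (c * n * Real.log n) ≤ L.index ∧
    ∃ T : Finset (Fin n → Bool), Real.exp (ε * n) ≤ T.card ∧ ∀ x ∈ T, cv x ∈ L

/-- The vector `B⁻¹ x` has sup norm at most one. -/
def Near {n : ℕ} (B : Matrix (Fin n) (Fin n) ℤ) (x : Fin n → ℤ) : Prop :=
  ∃ (y : Fin n → ℤ) (d : ℤ), d ≠ 0 ∧ B *ᵥ y = d • x ∧ ∀ i, |y i| ≤ |d|

/-- Small determinant and many cube points with bounded preimage. -/
def BadR {n : ℕ} (ε c : ℝ) (B : Matrix (Fin n) (Fin n) ℤ) : Prop :=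
  B.det ≠ 0 ∧ |(B.det : ℝ)| ≤ Real.exp (c * n * Real.log n) ∧
    ∃ T : Finset (Fin n → Bool), Real.exp (ε * n) ≤ T.card ∧ ∀ x ∈ T, Near B (cv x)

end Vale.Agent.P160F
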