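import Vale.Agent.P160F.TDefs

/-! Resampling of coordinates. -/

open Finset Matrix

namespace Vale.Agent.P160F

open Vale.Agent.P160

section gen

variable {α β : Type} [Fintype α] [Fintype β]

theorem pr_const_le (c : Prop) : pr (fun _ : α => c) ≤ ind c := by
  by_cases h : c
  · rw [ind_pos h]; exact pr_le_one _
  · rw [ind_neg h, pr_of_not fun _ => h]

theorem pr_const [Nonempty α] (c : Prop) : pr (fun _ : α => c) = ind c := by
  have : (Fintype.card α : ℝ) ≠ 0 := by positivity
  simp only [pr, sum_const, card_univ, nsmul_eq_mul]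
  field_simp

theorem pr_fst [Nonempty β] (p : α → Prop) : pr (fun a : α × β => p a.1) = pr p := by
  rw [pr_prod]
  simp only [pr_const]
  rfl

theorem pr_snd [Nonempty α] (p : β → Prop) : pr (fun a : α × β => p a.2) = pr p := by
  rw [← pr_fst (β := α) p, ← pr_equiv (Equiv.prodComm β α)]
  rfl

theorem pr_le_card (p : α → Prop) (T : Finset α) (h : ∀ a, p a → a ∈ T) :
    pr p ≤ T.card / Fintype.card α := by
  classical
  rw [pr, sum_ind]
  gcongr
  exact fun a ha => h a (mem_filter.1 ha).2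

theorem pr_exists_mem {ι : Type} (s : Finset ι) (p : ι → α → Prop) :
    pr (fun a => ∃ i ∈ s, p i a) ≤ ∑ i ∈ s, pr (p i) := by
  rw [← Finset.sum_coe_sort s fun i => pr (p i)]
  exact (pr_mono fun a ⟨i, hi, h⟩ => ⟨⟨i, hi⟩, h⟩).trans (pr_exists fun (i : s) a => p i a)

theorem pr_exists_mem_le {ι : Type} (s : Finset ι) (p : ι → α → Prop) {c : ℝ}
    (h : ∀ i ∈ s, pr (p i) ≤ c) : pr (fun a => ∃ i ∈ s, p i a) ≤ s.card * c :=
  (pr_exists_mem s p).trans ((Finset.sum_le_card_nsmul s _ c h).trans_eq (nsmul_eq_mul _ _))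

end gen

variable {ι κ : Type} [Fintype ι] [DecidableEq ι] [Fintype κ] [DecidableEq κ]

/-- Exchange of the coordinates in the range of `g` with fresh ones. -/
noncomputable def resample {g : κ → ι} (hg : Function.Injective g) :
    (ι → Bool) × (κ → Bool) ≃ (ι → Bool) × (κ → Bool) :=
  Function.Involutive.toPerm (fun a => (Function.extend g a.2 a.1, a.1 ∘ g)) fun a => by
    refine Prod.ext (funext fun i => ?_) (funext fun k => hg.extend_apply _ _ k)
    by_cases h : ∃ k, g k = i
    · obtain ⟨k, rfl⟩ := h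
      exact hg.extend_apply _ _ k
    · simp only [Function.extend_apply' _ _ _ h]

theorem pr_resample {g : κ → ι} (hg : Function.Injective g) (p : (ι → Bool) → Prop) :
    pr p = pr fun a : (ι → Bool) × (κ → Bool) => p (Function.extend g a.2 a.1) := by
  rw [← pr_fst (β := κ → Bool) p, ← pr_equiv (resample hg)]
  rfl

theorem pr_le_of_fiber {g : κ → ι} (hg : Function.Injective g) (p : (ι → Bool) → Prop) {c : ℝ}
    (hc : 0 ≤ c) (h : ∀ ω, pr (fun y : κ → Bool => p (Function.extend g y ω)) ≤ c) : pr p ≤ c := by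
  rw [pr_resample hg]
  exact pr_prod_le' hc h

theorem pr_le_of_fiber' {g : κ → ι} (hg : Function.Injective g) (p r : (ι → Bool) → Prop) {c : ℝ}
    (hc : 0 ≤ c) (h : ∀ ω, pr (fun y : κ → Bool => p (Function.extend g y ω)) ≤ ind (r ω) * c) :
    pr p ≤ pr r * c := by
  rw [pr_resample hg]
  exact pr_prod_le hc h

theorem pr_comp_inj {g : κ → ι} (hg : Function.Injective g) (q : (κ → Bool) → Prop) :
    pr (fun ω : ι → Bool => q (ω ∘ g)) = pr q := by
  rw [pr_resample hg, ← pr_snd (α := ι → Bool) q]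
  refine pr_congr fun a => ?_
  rw [Function.extend_comp hg]

theorem Bm_symm {n : ℕ} (ω : Sym2 (Fin n) → Bool) : (Bm ω).IsSymm := by
  ext i j
  simp only [transpose_apply, Bm, of_apply, Sym2.eq_swap (a := j)]

theorem Bm_01 {n : ℕ} (ω : Sym2 (Fin n) → Bool) (i j : Fin n) : Bm ω i j = 0 ∨ Bm ω i j = 1 := by
  simp only [Bm, of_apply]
  split_ifs <;> simp

theorem Bm_submatrix {m n : ℕ} (f : Fin m → Fin n) (ω : Sym2 (Fin n) → Bool) :
    (Bm ω).submatrix f f = Bm (ω ∘ Sym2.map f) := by
  ext i j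
  rfl

/-- A principal submatrix of the random matrix has the law of the random matrix. -/
theorem pr_submatrix {m n : ℕ} {f : Fin m → Fin n} (hf : Function.Injective f)
    (q : Matrix (Fin m) (Fin m) ℤ → Prop) :
    pr (fun ω : Sym2 (Fin n) → Bool => q ((Bm ω).submatrix f f)) =
      pr fun ω : Sym2 (Fin m) → Bool => q (Bm ω) := by
  simp only [Bm_submatrix]
  exact pr_comp_inj (Sym2.map.injective hf) fun ω => q (Bm ω)

end Vale.Agent.P160F
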