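import Vale.Agent.P160F.Defs
import Vale.Agent.P160F.TProb

/-! Definitions for the sparse kernel bound and for the corank reduction. -/

open Finset Matrix

namespace Vale.Agent.P160F

variable {N : ℕ}

/-- The rows in `R`, cut to the columns in `T`, kill `u` modulo `q`. -/
def Kil (A : Matrix (Fin N) (Fin N) ℤ) (T R : Finset (Fin N)) (q : ℕ) (u : Fin N → ℤ) : Prop :=
  ∀ i ∈ R, (q : ℤ) ∣ ∑ j ∈ T, A i j * u j

/-- The vector `x` is in the double annihilator of the rows in `R`. -/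
def Dbl (A : Matrix (Fin N) (Fin N) ℤ) (T R : Finset (Fin N)) (q : ℕ) (x : Fin N → ℤ) : Prop :=
  ∀ u, Kil A T R q u → (q : ℤ) ∣ ∑ j ∈ T, x j * u j

/-- The annihilator is not trivial. -/
def Prp (A : Matrix (Fin N) (Fin N) ℤ) (T R : Finset (Fin N)) (q : ℕ) : Prop :=
  ∃ u, Kil A T R q u ∧ ∃ j ∈ T, ¬(q : ℤ) ∣ u j

/-- The Gram determinant of the block. -/
def gm (A : Matrix (Fin N) (Fin N) ℤ) (T R : Finset (Fin N)) : ℤ :=
  (Matrix.of fun a b : T => ∑ i ∈ R, A i a * A i b).det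

/-- The event attached to a pair `T`, `R`. -/
def Rect (A : Matrix (Fin N) (Fin N) ℤ) (T R : Finset (Fin N)) : Prop :=
  ∃ q ∈ insert 0 (gm A T R).natAbs.primeFactors, Prp A T R q ∧ ∀ i, i ∉ T → Dbl A T R q (A i)

/-- The principal block. -/
def blk (A : Matrix (Fin N) (Fin N) ℤ) (S : Finset (Fin N)) : Matrix S S ℤ :=
  A.submatrix Subtype.val Subtype.val

/-- The block on `S` is nonsingular and its Schur complement vanishes. -/
def Dtm (A : Matrix (Fin N) (Fin N) ℤ) (S : Finset (Fin N)) : Prop :=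
  (blk A S).det ≠ 0 ∧ ∀ i j, i ∉ S → j ∉ S →
    (blk A S).det * A i j = ∑ a : S, ∑ b : S, A i a * (blk A S).adjugate a b * A b j

end Vale.Agent.P160F
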